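import Vale.Agent.P231.W.Abs

/-!
# P231, block A (formal theorem), part 1: the form `dt`, naturality of the homotopy operator,
primitives along a homotopy, periodic families
-/

set_option linter.unusedSectionVars false
set_option linter.unusedVariables false

open MeasureTheory Set Module Filter Topology
open scoped ContDiff

namespace Vale.Agent.P231.H584

open Fm W

section Lam

variable {E : Type} [NormedAddCommGroup E] [NormedSpace ℝ E] [FiniteDimensional ℝ E]
variable {F : Type} [NormedAddCommGroup F] [NormedSpace ℝ F] [FiniteDimensional ℝ F]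

theorem at0_mul (p q : Lam (E × ℝ)) : at0 (p * q) = at0 p * at0 q :=
  map_mul (Fm.pull (ContinuousLinearMap.inl ℝ E ℝ)) p q

theorem at0_fst (a : Lam E) : at0 (Fm.pull (ContinuousLinearMap.fst ℝ E ℝ) a) = a := by
  rw [at0_apply, ← pull_comp_apply]
  have h3 : (ContinuousLinearMap.fst ℝ E ℝ).comp (ContinuousLinearMap.inl ℝ E ℝ) =
      ContinuousLinearMap.id ℝ E := by ext; simp
  rw [h3, Fm.pull_id]
  rfl

theorem at1_fst (a : Lam E) : at1 (Fm.pull (ContinuousLinearMap.fst ℝ E ℝ) a) = 0 := by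
  have h := Form.at1_fst_mul a (1 : Lam (E × ℝ))
  rw [mul_one] at h
  rw [h, at1_apply, iprod_one, map_zero, mul_zero]

/-- the constant form `dt` -/
noncomputable def dtl : Lam (E × ℝ) := dx (ContinuousLinearMap.snd ℝ E ℝ)

theorem at0_dtl : at0 (dtl : Lam (E × ℝ)) = 0 := by
  rw [at0_apply, dtl, pull_dx]
  have : (ContinuousLinearMap.snd ℝ E ℝ).comp (ContinuousLinearMap.inl ℝ E ℝ) = 0 := by
    ext; simp
  rw [this, map_zero]

theorem at1_dtl_mul (w : Lam (E × ℝ)) : at1 (dtl * w) = at0 w := by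
  rw [at1_apply, dtl, iprod_dx_mul, map_sub, at0_mul]
  change at0 ((1 : ℝ) • w) - at0 dtl * _ = _
  rw [at0_dtl, zero_mul, sub_zero, one_smul]

/-- decomposition of a form on a product with `ℝ` -/
theorem decomp (w : Lam (E × ℝ)) : w = Fm.pull (ContinuousLinearMap.fst ℝ E ℝ) (at0 w) +
    dtl * Fm.pull (ContinuousLinearMap.fst ℝ E ℝ) (at1 w) := by
  induction w using Lam.ind with
  | h1 r =>
    have h1 : at1 (algebraMap ℝ (Lam (E × ℝ)) r) = 0 := by
      rw [at1_apply, iprod_algebraMap, map_zero]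
    have h2 : at0 (algebraMap ℝ (Lam (E × ℝ)) r) = algebraMap ℝ (Lam E) r :=
      AlgHom.commutes (Fm.pull (ContinuousLinearMap.inl ℝ E ℝ)) r
    rw [h1, h2, map_zero, mul_zero, add_zero, AlgHom.commutes]
  | h2 a =>
    have h1 : at1 (dx a) = algebraMap ℝ (Lam E) (a (0, 1)) := by
      rw [at1_apply, iprod_dx]
      exact AlgHom.commutes (Fm.pull (ContinuousLinearMap.inl ℝ E ℝ)) _
    rw [h1, at0_apply, pull_dx, pull_dx, AlgHom.commutes, ← Algebra.commutes, ← Algebra.smul_def,
      dtl, ← map_smul, ← map_add]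
    congr 1
    refine ContinuousLinearMap.ext fun p => ?_
    obtain ⟨x, t⟩ := p
    simp only [add_apply, ContinuousLinearMap.comp_apply, ContinuousLinearMap.coe_fst',
      ContinuousLinearMap.inl_apply, smul_apply,
      ContinuousLinearMap.coe_snd', smul_eq_mul]
    have h3 : ((x, t) : E × ℝ) = (x, 0) + t • (0, 1) := by simp
    rw [h3, map_add, map_smul, smul_eq_mul]
    simp [mul_comm]
  | h3 a b ha hb =>
    -- `(A₀ + dt A₁) (B₀ + dt B₁) = A₀ B₀ + dt (A₁ B₀ + inv A₀ B₁)`
    have h1 : at1 (a * b) = at1 a * at0 b + inv (at0 a) * at1 b := by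
      rw [at1_apply, iprod_mul, map_add, at0_mul, at0_mul, at1_apply, at1_apply]
      congr 2
      rw [at0_apply, at0_apply, pull_inv]
    have hc : ∀ x : Lam (E × ℝ), x * dtl = dtl * inv x := fun x => by
      rw [dtl, dx_mul, Fm.inv_inv]
    have hd : (dtl : Lam (E × ℝ)) * dtl = 0 := dx_mul_self _
    rw [h1, at0_mul, map_mul, map_add, map_mul, map_mul, pull_inv]
    conv_lhs => rw [ha, hb]
    have h2 : ∀ x y : Lam (E × ℝ), x * (dtl * y) = dtl * (inv x * y) := fun x y => by
      rw [← mul_assoc, hc, mul_assoc]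
    have h3 : ∀ x y : Lam (E × ℝ), dtl * x * (dtl * y) = 0 := fun x y => by
      rw [mul_assoc, h2, ← mul_assoc, hd, zero_mul]
    rw [add_mul, mul_add, mul_add, h2, h3, add_zero, mul_assoc, mul_add]
    abel
  | h4 a b ha hb =>
    rw [map_add, map_add, map_add, map_add, mul_add]
    conv_lhs => rw [ha, hb]
    abel

end Lam

section Forms

variable {X Y Z : Type*} {D : Dif X} {D' : Dif Y} {D'' : Dif Z}

theorem pull_pull {f : X → Y} {g : Y → Z} {k : X → Z} (hf : D.Map D' f) (hg : D'.Map D'' g)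
    (hk : D.Map D'' k) (e : ∀ x, g (f x) = k x) (a : Form D'') :
    Form.pull f hf (Form.pull g hg a) = Form.pull k hk a := by
  obtain rfl : g ∘ f = k := funext e
  exact (Form.pull_comp hf hg hk a).symm

/-- the cylinder over a map -/
theorem map_cyl {f : X → Y} (hf : D.Map D' f) :
    (D.prod (Dif.lin ℝ)).Map (D'.prod (Dif.lin ℝ)) (fun p => (f p.1, p.2)) :=
  fun h => ⟨hf h.1, h.2⟩

theorem K_nat {f : X → Y} (hf : D.Map D' f) (w : Form (D'.prod (Dif.lin ℝ))) :
    Form.K (Form.pull (fun p : X × ℝ => (f p.1, p.2)) (map_cyl hf) w) =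
      Form.pull f hf (Form.K w) := Form.ext_val fun E _ _ _ u x h => by
  rw [Form.K_val _ h, Form.pull_val _ _ h, Form.K_val _ (hf h), kop, kop]
  refine intervalIntegral.integral_congr fun t _ => ?_
  change at1 _ = at1 _
  rw [Form.pull_val _ _ (Form.cyl_at h t)]
  rfl

theorem K_pr (a : Form D) : Form.K (pr a) = 0 :=
  Form.ext_val fun E _ _ _ u x h => by
    rw [pr, Form.K_val _ h, kop, Form.zero_val]
    have : ∀ t : ℝ, at1 ((Form.pull (Prod.fst : X × ℝ → X)
        (Dif.map_fst (D := D) (D' := Dif.lin ℝ)) a).val (Form.cyl u) (x, t)) = 0 := fun t => by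
      rw [Form.fst_val a h t, at1_fst]
    simp only [this]
    simp

theorem K_neg (w : Form (D.prod (Dif.lin ℝ))) : Form.K (-w) = -Form.K w := by
  have := Form.K_smul (-1) w
  rwa [neg_one_smul, neg_one_smul] at this

theorem K_sub (w v : Form (D.prod (Dif.lin ℝ))) : Form.K (w - v) = Form.K w - Form.K v := by
  rw [sub_eq_add_neg, Form.K_add, K_neg, sub_eq_add_neg]

theorem dt_val {E : Type} [NormedAddCommGroup E] [NormedSpace ℝ E] [FiniteDimensional ℝ E]
    {u : E → X} {x : E} (h : D.At u x) (t : ℝ) :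
    (dt (D := D)).val (Form.cyl u) (x, t) = dtl := by
  rw [dt, Form.d_val _ (Form.cyl_at h t)]
  have h1 : (Form.fn Prod.snd (Dif.map_snd (D := D) (D' := Dif.lin ℝ))).val (Form.cyl u)
      =ᶠ[𝓝 (x, t)] Fm.fn (fun p : E × ℝ => p.2) := by
    filter_upwards [(D.prod (Dif.lin ℝ)).open' (Form.cyl_at h t)] with p hp
    rw [Form.fn_val _ _ hp]
    rfl
  rw [extd_congr h1, extd_fn differentiableAt_snd, fderiv_snd]
  rfl

theorem dt_sg : (dt (D := D)).sg = -dt := by
  have h := Form.d_sg (Form.fn Prod.snd (Dif.map_snd (D := D) (D' := Dif.lin ℝ)))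
  rw [Form.sg_fn] at h
  have h2 := congrArg Neg.neg h
  rw [neg_neg] at h2
  exact h2.symm

theorem dt_d : (dt (D := D)).d = 0 := Form.d_d _

theorem at_dt (c : ℝ) : at_ c (dt (D := D)) = 0 :=
  Form.ext_val fun E _ _ _ u x h => by
    rw [at_, Form.slice_val _ _ h, dt_val h, at0_dtl, Form.zero_val]

theorem at_pr (c : ℝ) (a : Form D) : at_ c (pr a) = a :=
  Form.ext_val fun E _ _ _ u x h => by
    rw [at_, pr, Form.slice_val _ _ h, Form.fst_val _ h, at0_fst]

theorem K_dt_mul (w : Form D) : Form.K (dt * pr w) = w := Form.ext_val fun E _ _ _ u x h => by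
  rw [Form.K_val _ h, kop]
  have : ∀ t : ℝ, at1 ((dt * pr w).val (Form.cyl u) (x, t)) = w.val u x :=
    fun t => by
      rw [Form.mul_val, pr, Form.fst_val w h t, dt_val h, at1_dtl_mul, at0_fst]
  simp only [this]
  simp

theorem pr_one : pr (1 : Form D) = 1 := map_one (Form.pullA Prod.fst Dif.map_fst)

theorem pr_zero : pr (0 : Form D) = 0 := map_zero (Form.pullA Prod.fst Dif.map_fst)

theorem pr_mul (a b : Form D) : pr (a * b) = pr a * pr b :=
  map_mul (Form.pullA Prod.fst Dif.map_fst) a b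

theorem pr_add (a b : Form D) : pr (a + b) = pr a + pr b :=
  map_add (Form.pullA Prod.fst Dif.map_fst) a b

theorem pr_sub (a b : Form D) : pr (a - b) = pr a - pr b :=
  map_sub (Form.pullA Prod.fst Dif.map_fst) a b

theorem pr_pow (a : Form D) (n : ℕ) : pr (a ^ n) = pr a ^ n :=
  map_pow (Form.pullA Prod.fst Dif.map_fst) a n

theorem pr_smul (c : ℝ) (a : Form D) : pr (c • a) = c • pr a :=
  map_smul (Form.pullA Prod.fst Dif.map_fst) c a

theorem pr_d (a : Form D) : pr a.d = (pr a).d := Form.pull_d Prod.fst Dif.map_fst a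

theorem pr_sg (a : Form D) : pr a.sg = (pr a).sg := Form.pull_sg Prod.fst Dif.map_fst a

theorem at_zero (c : ℝ) : at_ c (0 : Form (D.prod (Dif.lin ℝ))) = 0 :=
  map_zero (Form.pullA (fun x : X => (x, c)) (Form.map_slice c))

theorem at_mul (c : ℝ) (a b : Form (D.prod (Dif.lin ℝ))) : at_ c (a * b) = at_ c a * at_ c b :=
  map_mul (Form.pullA (fun x : X => (x, c)) (Form.map_slice c)) a b

theorem at_add (c : ℝ) (a b : Form (D.prod (Dif.lin ℝ))) : at_ c (a + b) = at_ c a + at_ c b :=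
  map_add (Form.pullA (fun x : X => (x, c)) (Form.map_slice c)) a b

theorem at_sub (c : ℝ) (a b : Form (D.prod (Dif.lin ℝ))) : at_ c (a - b) = at_ c a - at_ c b :=
  map_sub (Form.pullA (fun x : X => (x, c)) (Form.map_slice c)) a b

theorem at_pow (c : ℝ) (a : Form (D.prod (Dif.lin ℝ))) (n : ℕ) : at_ c (a ^ n) = at_ c a ^ n :=
  map_pow (Form.pullA (fun x : X => (x, c)) (Form.map_slice c)) a n

theorem at_d (c : ℝ) (a : Form (D.prod (Dif.lin ℝ))) : at_ c a.d = (at_ c a).d :=
  Form.pull_d _ _ a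

theorem at_sg (c : ℝ) (a : Form (D.prod (Dif.lin ℝ))) : at_ c a.sg = (at_ c a).sg :=
  Form.pull_sg _ _ a

theorem K_dt : Form.K (dt (D := D)) = 1 := by
  have h := K_dt_mul (1 : Form D)
  rwa [pr_one, mul_one] at h

theorem homotopy' (w : Form (D.prod (Dif.lin ℝ))) :
    at_ 1 w - at_ 0 w = Form.K w.d + (Form.K w).d := Form.homotopy w

theorem K_pr_mul (a : Form D) (w : Form (D.prod (Dif.lin ℝ))) :
    Form.K (pr a * w) = a.sg * Form.K w := Form.K_fst_mul a w

theorem K_mul_pr (a : Form D) (w : Form (D.prod (Dif.lin ℝ))) :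
    Form.K (w * pr a) = Form.K w * a := Form.K_mul_fst a w

/-! ### primitives along a homotopy -/

/-- the map `((x, s), t) ↦ (x, s t)` -/
def scal (p : (X × ℝ) × ℝ) : X × ℝ := (p.1.1, p.1.2 * p.2)

theorem map_scal : ((D.prod (Dif.lin ℝ)).prod (Dif.lin ℝ)).Map (D.prod (Dif.lin ℝ)) scal := by
  intro E _ _ _ u x h
  refine ⟨h.1.1, ?_⟩
  have h1 : Sm (fun y => (u y).1.2) x := h.1.2
  have h2 : Sm (fun y => (u y).2) x := h.2
  have h3 : Sm (fun y => (u y).1.2 * (u y).2) x := by
    filter_upwards [h1, h2] with y h4 h5 using h4.mul h5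
  exact h3

theorem map_at {f : X × ℝ → Y} (hf : (D.prod (Dif.lin ℝ)).Map D' f) (c : ℝ) :
    D.Map D' (fun x => f (x, c)) := fun h => hf (Form.map_slice c h)

theorem map_at_fst {f : X × ℝ → Y} (hf : (D.prod (Dif.lin ℝ)).Map D' f) (c : ℝ) :
    (D.prod (Dif.lin ℝ)).Map D' (fun p => f (p.1, c)) := fun h => hf (Form.map_slice c h.1)

theorem at_pull_of {f : X × ℝ → Y} (hf : (D.prod (Dif.lin ℝ)).Map D' f) (c : ℝ) (F : Form D') :
    at_ c (Form.pull f hf F) =
      Form.pull (fun x => f (x, c)) (map_at hf c) F :=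
  (Form.pull_comp (Form.map_slice c) hf (map_at hf c) F).symm

theorem K_zero : Form.K (0 : Form (D.prod (Dif.lin ℝ))) = 0 := by
  have := Form.K_smul (0 : ℝ) (0 : Form (D.prod (Dif.lin ℝ)))
  rwa [zero_smul, zero_smul] at this

/-- the primitive of `w - w_0` on the cylinder -/
noncomputable def Pm (w : Form (D.prod (Dif.lin ℝ))) : Form (D.prod (Dif.lin ℝ)) :=
  Form.K (Form.pull scal map_scal w)

theorem Pm_d {w : Form (D.prod (Dif.lin ℝ))} {b : Form D} (hw : w.d = pr b) :
    (Pm w).d = w - pr (at_ 0 w) := by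
  have h := homotopy' (Form.pull scal map_scal w)
  have h0 : (Form.pull scal map_scal w).d = pr (pr b) := by
    rw [← Form.pull_d, hw, pr, pr]
    refine (pull_pull map_scal Dif.map_fst
      (Dif.map_fst.comp Dif.map_fst) (fun _ => rfl) b).trans ?_
    exact (pull_pull Dif.map_fst Dif.map_fst
      (Dif.map_fst.comp Dif.map_fst) (fun _ => rfl) b).symm
  rw [h0, K_pr, zero_add] at h
  rw [Pm, ← h]
  congr 1
  · refine (pull_pull (k := fun p : X × ℝ => p) (Form.map_slice 1) map_scal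
      (fun h => h) (fun p => by simp [scal]) w).trans ?_
    exact Form.pull_id _ w
  · refine (pull_pull (k := fun p : X × ℝ => (p.1, (0 : ℝ))) (Form.map_slice 0) map_scal
      (fun h => Form.map_slice 0 h.1) (fun p => by simp [scal]) w).trans ?_
    exact (pull_pull Dif.map_fst (Form.map_slice 0) _ (fun p => rfl) w).symm

theorem Pm_at (c : ℝ) (w : Form (D.prod (Dif.lin ℝ))) : at_ c (Pm w) = KT c w := by
  rw [at_, Pm, ← K_nat (Form.map_slice c), KT]
  congr 1
  exact pull_pull (map_cyl (Form.map_slice c)) map_scal (map_scale c) (fun p => rfl) w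

theorem KT_zero_time (w : Form (D.prod (Dif.lin ℝ))) : KT 0 w = 0 := by
  rw [KT]
  have h : Form.pull (fun p : X × ℝ => (p.1, (0 : ℝ) * p.2)) (map_scale 0) w =
      pr (at_ 0 w) := by
    refine Eq.trans ?_ (pull_pull (k := fun p : X × ℝ => (p.1, (0 : ℝ) * p.2)) Dif.map_fst
      (Form.map_slice 0) (map_scale 0) (fun p => by simp) w).symm
    rfl
  rw [h, K_pr]

theorem Pm_zero (w : Form (D.prod (Dif.lin ℝ))) : at_ 0 (Pm w) = 0 := by
  rw [Pm_at, KT_zero_time]

theorem KT_one (w : Form (D.prod (Dif.lin ℝ))) : KT 1 w = Form.K w := by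
  rw [KT]
  congr 1
  refine Eq.trans (Form.pull_congr _ (fun h => h) ?_ w) (Form.pull_id (fun h => h) w)
  funext p
  simp

/-! ### forms on a cylinder are determined by the plots `cyl u` -/

theorem ext_cyl {a b : Form (D.prod (Dif.lin ℝ))} (h : ∀ (E : Type) [NormedAddCommGroup E]
    [NormedSpace ℝ E] [FiniteDimensional ℝ E] (u : E → X) (x : E) (t : ℝ), D.At u x →
      a.val (Form.cyl u) (x, t) = b.val (Form.cyl u) (x, t)) : a = b :=
  Form.ext_val fun E _ _ _ u x hu => by
    have h1 : D.At (fun y => (u y).1) x := hu.1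
    have h2 : Sm (fun y => (u y).2) x := hu.2
    have h3 : u = Form.cyl (fun y => (u y).1) ∘ fun y => (y, (u y).2) := rfl
    have h4 : Sm (fun y : E => (y, (u y).2)) x :=
      (Sm.of_contDiff contDiff_id x).prodMk h2
    have h5 : (D.prod (Dif.lin ℝ)).At (Form.cyl fun y => (u y).1) (x, (u x).2) :=
      Form.cyl_at h1 _
    rw [h3, a.nat (u := Form.cyl fun y => (u y).1) (g := fun y => (y, (u y).2)) h5 h4,
      b.nat (u := Form.cyl fun y => (u y).1) (g := fun y => (y, (u y).2)) h5 h4, h E _ x _ h1]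

/-- the map `((x, s), t) ↦ (x, s + c t)` -/
def shft (c : ℝ) (p : (X × ℝ) × ℝ) : X × ℝ := (p.1.1, p.1.2 + c * p.2)

theorem map_shft (c : ℝ) :
    ((D.prod (Dif.lin ℝ)).prod (Dif.lin ℝ)).Map (D.prod (Dif.lin ℝ)) (shft c) := by
  intro E _ _ _ u x h
  refine ⟨h.1.1, ?_⟩
  have h1 : Sm (fun y => (u y).1.2) x := h.1.2
  have h2 : Sm (fun y => (u y).2) x := h.2
  have h3 : Sm (fun y => (u y).1.2 + c * (u y).2) x := by
    filter_upwards [h1, h2] with y h4 h5 using h4.add (contDiffAt_const.mul h5)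
  exact h3

/-- the contraction with `∂_t`, at time `t`, in a plot -/
noncomputable def co {E : Type} [NormedAddCommGroup E] [NormedSpace ℝ E] [FiniteDimensional ℝ E]
    (w : Form (D.prod (Dif.lin ℝ))) (u : E → X) (x : E) (t : ℝ) : Lam E :=
  at1 (w.val (Form.cyl u) (x, t))

theorem K_val' {E : Type} [NormedAddCommGroup E] [NormedSpace ℝ E] [FiniteDimensional ℝ E]
    (w : Form (D.prod (Dif.lin ℝ))) {u : E → X} {x : E} (h : D.At u x) :
    (Form.K w).val u x = ∫ t in (0 : ℝ)..1, co w u x t := Form.K_val w h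

theorem continuous_co {E : Type} [NormedAddCommGroup E] [NormedSpace ℝ E]
    [FiniteDimensional ℝ E] (w : Form (D.prod (Dif.lin ℝ))) {u : E → X} {x : E}
    (h : D.At u x) : Continuous (co w u x) := by
  obtain ⟨U, hU, hx, _, hw⟩ := Form.cyl_smooth w h
  have hc : Continuous fun t : ℝ => w.val (Form.cyl u) (x, t) :=
    hw.continuousOn.comp_continuous (Continuous.prodMk_right _) fun t => ⟨hx, mem_univ _⟩
  exact (at1 (E := E)).continuous.comp hc

/-- pulling back along `(x, t) ↦ (g x, a x + c t)` -/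
theorem at1_pull_shear {E F : Type} [NormedAddCommGroup E] [NormedSpace ℝ E]
    [FiniteDimensional ℝ E] [NormedAddCommGroup F] [NormedSpace ℝ F] [FiniteDimensional ℝ F]
    (L : E →L[ℝ] F) (a : E →L[ℝ] ℝ) (c : ℝ) (T : E × ℝ →L[ℝ] F × ℝ)
    (hT : ∀ p, T p = (L p.1, a p.1 + c * p.2)) (w : Lam (F × ℝ)) :
    at1 (Fm.pull T w) = c • Fm.pull L (at1 w) := by
  have h1 : (ContinuousLinearMap.fst ℝ F ℝ).comp T = L.comp (ContinuousLinearMap.fst ℝ E ℝ) := by
    refine ContinuousLinearMap.ext fun p => ?_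
    simp [hT]
  have h2 : Fm.pull T (dtl : Lam (F × ℝ)) =
      Fm.pull (ContinuousLinearMap.fst ℝ E ℝ) (dx a) + c • dtl := by
    rw [dtl, dtl, pull_dx, pull_dx, ← map_smul, ← map_add]
    congr 1
    refine ContinuousLinearMap.ext fun p => ?_
    simp [hT]
  have h3 : ∀ v : Lam F, Fm.pull T (Fm.pull (ContinuousLinearMap.fst ℝ F ℝ) v) =
      Fm.pull (ContinuousLinearMap.fst ℝ E ℝ) (Fm.pull L v) := fun v => by
    rw [← pull_comp_apply, h1, pull_comp_apply]
  conv_lhs => rw [decomp w]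
  rw [map_add, map_mul, h2, h3, h3, add_mul, ← map_mul, smul_mul_assoc, map_add, map_add,
    map_smul, at1_fst, at1_fst, at1_dtl_mul, at0_fst, zero_add, zero_add]

/-- contraction of a sheared form -/
theorem co_shear {E F : Type} [NormedAddCommGroup E] [NormedSpace ℝ E]
    [FiniteDimensional ℝ E] [NormedAddCommGroup F] [NormedSpace ℝ F] [FiniteDimensional ℝ F]
    (w : Form (D.prod (Dif.lin ℝ))) {u : F → X} {g : E → F} {a : E → ℝ} {x : E} (c : ℝ)
    (h : D.At u (g x)) (hg : Sm g x) (ha : Sm a x) (t : ℝ) :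
    at1 (w.val (fun p : E × ℝ => (u (g p.1), a p.1 + c * p.2)) (x, t)) =
      c • Fm.pull (fderiv ℝ g x) (co w u (g x) (a x + c * t)) := by
  let G : E × ℝ → F × ℝ := fun p => (g p.1, a p.1 + c * p.2)
  have h1 : (fun p : E × ℝ => (u (g p.1), a p.1 + c * p.2)) = Form.cyl u ∘ G := rfl
  have hg' : Sm (fun p : E × ℝ => g p.1) (x, t) :=
    Sm.comp (f := g) (g := Prod.fst) (x := ((x, t) : E × ℝ)) hg (Sm.of_contDiff contDiff_fst _)
  have ha' : Sm (fun p : E × ℝ => a p.1) (x, t) :=
    Sm.comp (f := a) (g := Prod.fst) (x := ((x, t) : E × ℝ)) ha (Sm.of_contDiff contDiff_fst _)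
  have ha2 : Sm (fun p : E × ℝ => a p.1 + c * p.2) (x, t) := by
    filter_upwards [ha'] with p hp
    exact hp.add (contDiffAt_const.mul contDiffAt_snd)
  have h2 : Sm G (x, t) := hg'.prodMk ha2
  have h3 : HasFDerivAt G (((fderiv ℝ g x).comp (ContinuousLinearMap.fst ℝ E ℝ)).prod
      ((fderiv ℝ a x).comp (ContinuousLinearMap.fst ℝ E ℝ) +
        c • ContinuousLinearMap.snd ℝ E ℝ)) (x, t) := by
    have h4 : HasFDerivAt (fun p : E × ℝ => g p.1)
        ((fderiv ℝ g x).comp (ContinuousLinearMap.fst ℝ E ℝ)) (x, t) :=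
      HasFDerivAt.comp (x, t) (f := Prod.fst) hg.differentiableAt.hasFDerivAt hasFDerivAt_fst
    have h5 : HasFDerivAt (fun p : E × ℝ => a p.1)
        ((fderiv ℝ a x).comp (ContinuousLinearMap.fst ℝ E ℝ)) (x, t) :=
      HasFDerivAt.comp (x, t) (f := Prod.fst) ha.differentiableAt.hasFDerivAt hasFDerivAt_fst
    exact h4.prodMk (h5.add (hasFDerivAt_snd.const_mul c))
  rw [h1, w.nat (u := Form.cyl u) (g := G) (x := (x, t)) (Form.cyl_at h _) h2, h3.fderiv]
  exact at1_pull_shear (fderiv ℝ g x) (fderiv ℝ a x) c _ (fun p => by simp) _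

theorem KT_val {E : Type} [NormedAddCommGroup E] [NormedSpace ℝ E] [FiniteDimensional ℝ E]
    (c : ℝ) (w : Form (D.prod (Dif.lin ℝ))) {u : E → X} {x : E} (h : D.At u x) :
    (KT c w).val u x = ∫ t in (0 : ℝ)..c, co w u x t := by
  rw [KT, K_val' _ h]
  have h1 : ∀ t : ℝ, co (Form.pull (fun p : X × ℝ => (p.1, c * p.2)) (map_scale c) w) u x t =
      c • co w u x (c * t) := fun t => by
    rw [co, Form.pull_val _ _ (Form.cyl_at h t)]
    have h2 := co_shear w (u := u) (g := fun y : E => y) (a := fun _ => (0 : ℝ)) (x := x) c h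
      (Sm.of_contDiff contDiff_id x) (Sm.of_contDiff contDiff_const x) t
    simp only [zero_add] at h2
    have h3 : fderiv ℝ (fun y : E => y) x = ContinuousLinearMap.id ℝ E := fderiv_fun_id
    rw [h3, Fm.pull_id] at h2
    exact h2
  simp only [h1]
  rw [intervalIntegral.integral_smul, intervalIntegral.smul_integral_comp_mul_left, mul_zero,
    mul_one]

theorem K_shft_val {E : Type} [NormedAddCommGroup E] [NormedSpace ℝ E] [FiniteDimensional ℝ E]
    (c : ℝ) (w : Form (D.prod (Dif.lin ℝ))) {u : E → X} {x : E} (h : D.At u x) (s : ℝ) :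
    (Form.K (Form.pull (shft c) (map_shft c) w)).val (Form.cyl u) (x, s) =
      Fm.pull (ContinuousLinearMap.fst ℝ E ℝ) (∫ t in s..s + c, co w u x t) := by
  rw [K_val' _ (Form.cyl_at h s)]
  have h1 : ∀ t : ℝ, co (Form.pull (shft c) (map_shft c) w) (Form.cyl u) (x, s) t =
      pullL (ContinuousLinearMap.fst ℝ E ℝ) (c • co w u x (s + c * t)) := fun t => by
    rw [co, Form.pull_val _ _ (Form.cyl_at (Form.cyl_at h s) t)]
    have h2 := co_shear w (u := u) (g := fun y : E × ℝ => y.1) (a := fun y => y.2)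
      (x := (x, s)) c h (Sm.of_contDiff contDiff_fst _) (Sm.of_contDiff contDiff_snd _) t
    have h3 : fderiv ℝ (fun y : E × ℝ => y.1) (x, s) = ContinuousLinearMap.fst ℝ E ℝ :=
      fderiv_fst
    rw [h3] at h2
    rw [map_smul]
    exact h2
  simp only [h1]
  have h4 : Continuous fun t => c • co w u x (s + c * t) :=
    ((continuous_co w h).comp (by fun_prop : Continuous fun t : ℝ => s + c * t)).const_smul c
  rw [ContinuousLinearMap.intervalIntegral_comp_comm
    (pullL (ContinuousLinearMap.fst ℝ E ℝ)) (h4.intervalIntegrable (μ := volume) 0 1),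
    intervalIntegral.integral_smul]
  change Fm.pull _ _ = Fm.pull _ _
  congr 1
  have h7 := intervalIntegral.smul_integral_comp_mul_add (f := co w u x) (a := 0) (b := 1) c s
  rw [mul_zero, mul_one, zero_add] at h7
  rw [add_comm s c, ← h7]
  simp only [add_comm s]

/-- the contraction of a shifted family -/
theorem KT_K_shft (c c' : ℝ) (w : Form (D.prod (Dif.lin ℝ))) :
    KT c' (Form.K (Form.pull (shft c) (map_shft c) w)) = 0 :=
  Form.ext_val fun E _ _ _ u x h => by
    rw [KT_val _ _ h, Form.zero_val]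
    have : ∀ t, co (Form.K (Form.pull (shft c) (map_shft c) w)) u x t = 0 := fun t => by
      rw [co, K_shft_val c w h, at1_fst]
    simp only [this]
    exact intervalIntegral.integral_zero

/-- translation in time -/
theorem map_trans (c : ℝ) : (D.prod (Dif.lin ℝ)).Map (D.prod (Dif.lin ℝ))
    (fun p : X × ℝ => (p.1, p.2 + c)) := fun {E} _ _ _ {u x} h =>
  ⟨h.1, Sm.comp (f := fun t : ℝ => t + c) (g := fun y => (u y).2)
    (Sm.of_contDiff (contDiff_id.add contDiff_const) _) h.2⟩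

theorem co_periodic {E : Type} [NormedAddCommGroup E] [NormedSpace ℝ E] [FiniteDimensional ℝ E]
    {c : ℝ} {w : Form (D.prod (Dif.lin ℝ))}
    (hw : Form.pull (fun p : X × ℝ => (p.1, p.2 + c)) (map_trans c) w = w) {u : E → X} {x : E}
    (h : D.At u x) : Function.Periodic (co w u x) c := fun t => by
  conv_rhs => rw [← hw]
  rw [co, co, Form.pull_val _ _ (Form.cyl_at h t)]
  have h1 : (fun p : X × ℝ => (p.1, p.2 + c)) ∘ Form.cyl u =
      Form.cyl u ∘ fun p : E × ℝ => (p.1, p.2 + c) := rfl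
  have h2 : Sm (fun p : E × ℝ => (p.1, p.2 + c)) (x, t) :=
    Sm.of_contDiff (contDiff_fst.prodMk (contDiff_snd.add contDiff_const)) _
  rw [h1, w.nat (u := Form.cyl u) (g := fun p : E × ℝ => (p.1, p.2 + c)) (x := (x, t))
    (Form.cyl_at h _) h2]
  have h3 : fderiv ℝ (fun p : E × ℝ => (p.1, p.2 + c)) (x, t) =
      ContinuousLinearMap.id ℝ (E × ℝ) := by
    have h4 : HasFDerivAt (fun p : E × ℝ => (p.1, p.2 + c))
        ((ContinuousLinearMap.fst ℝ E ℝ).prod (ContinuousLinearMap.snd ℝ E ℝ)) (x, t) :=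
      hasFDerivAt_fst.prodMk (hasFDerivAt_snd.add_const c)
    rw [h4.fderiv]
    ext <;> simp
  rw [h3, Fm.pull_id]
  rfl

theorem K_shft_periodic {c : ℝ} {w : Form (D.prod (Dif.lin ℝ))}
    (hw : Form.pull (fun p : X × ℝ => (p.1, p.2 + c)) (map_trans c) w = w) :
    Form.K (Form.pull (shft c) (map_shft c) w) = pr (KT c w) := ext_cyl fun E _ _ _ u x s h => by
  rw [K_shft_val c w h, pr, Form.fst_val _ h, KT_val c w h]
  congr 1
  have := (co_periodic hw h).intervalIntegral_add_eq s 0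
  rwa [zero_add] at this

end Forms

end Vale.Agent.P231.H584
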