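import Vale.Agent.P231.H584.Lev1

/-!
# P231, stage 3: the normalised primitive of `x'` on `U`, and the evaluation of `τ`
-/

set_option linter.unusedSectionVars false
set_option linter.unusedVariables false

open MeasureTheory Set Module Filter Topology
open scoped ContDiff Real

namespace Vale.Agent.P231.H584

open Fm W
open Fm.Form (IsDeg part isDeg_part part_add part_smul part_succ_d part_pull)

section Gen

variable {X : Type*} {D : Dif X} {T : ℝ} {Φ : X × ℝ → X} (h : IsFlow D T Φ) {α : Form D}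

theorem basic_part {hΦ : (D.prod (Dif.lin ℝ)).Map D Φ} (k : ℕ) {w : Form D}
    (hw : Basic Φ hΦ w) : Basic Φ hΦ (part k w) := by
  have h1 : Form.pull Φ hΦ w = pr w := hw
  rw [basic_def, ← part_pull, h1]
  exact part_pull k Prod.fst Dif.map_fst w

theorem J_deg_zero {hΦ : (D.prod (Dif.lin ℝ)).Map D Φ} (c : ℝ) {w : Form D} (hw : IsDeg 0 w) :
    J Φ hΦ c w = 0 := by
  rw [J_def, KT]
  exact IsDeg.K_zero (IsDeg.pull (IsDeg.pull hw _ _) _ _)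

/-- the last Gysin step for an exact form of degree one -/
theorem step1 (hT : T ≠ 0) (hα : Form.pull Φ h.map α = pr α + dt) (hαo : α.sg = -α)
    {w κ : Form D} (hw : IsDeg 1 w) (hwb : Basic Φ h.map w) (hκ : w = κ.d) :
    Eqv h.map w 0 := by
  set τ := part 0 κ with hτ
  have h1 : τ.d = w := by
    have h2 := congrArg (part 1) hκ
    rw [hw.part_eq] at h2
    have h3 : part 1 κ.d = τ.d := part_succ_d 0 κ
    rw [h2, h3]
  have h2 := gysin_d h hα hαo (τ := τ) (by rw [h1]; exact hwb)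
  rw [J_deg_zero T (isDeg_part 0 κ), mul_zero, zero_add] at h2
  refine ⟨T⁻¹ • J Φ h.map T (α * τ), Basic.smul _ (J_basic h _), ?_⟩
  rw [zero_add, Form.d_smul, ← h2, smul_smul, inv_mul_cancel₀ hT, one_smul, h1]

/-- a closed basic form of degree seven is the differential of a basic form, if the odd
cohomology of the total space vanishes up to degree seven -/
theorem exact7 (hT : T ≠ 0) (hα : Form.pull Φ h.map α = pr α + dt) (hαo : α.sg = -α)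
    (H1 : ∀ w : Form D, IsDeg 1 w → w.d = 0 → ∃ κ : Form D, w = κ.d)
    (H3 : ∀ w : Form D, IsDeg 3 w → w.d = 0 → ∃ κ : Form D, w = κ.d)
    (H5 : ∀ w : Form D, IsDeg 5 w → w.d = 0 → ∃ κ : Form D, w = κ.d)
    (H7 : ∀ w : Form D, IsDeg 7 w → w.d = 0 → ∃ κ : Form D, w = κ.d)
    {w : Form D} (hw : IsDeg 7 w) (hwb : Basic Φ h.map w) (hwd : w.d = 0) :
    ∃ κ : Form D, IsDeg 6 κ ∧ Basic Φ h.map κ ∧ κ.d = w := by
  have hee : (T⁻¹ • α.d).sg = T⁻¹ • α.d := by rw [Form.sg_smul, d_even hαo]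
  have hed : (T⁻¹ • α.d).d = 0 := by rw [Form.d_smul, Form.d_d, smul_zero]
  have heb : Basic Φ h.map (T⁻¹ • α.d) := Basic.smul _ (basic_d_contact h hα)
  obtain ⟨κ7, h7⟩ := H7 w hw hwd
  obtain ⟨w5, hw5, hw5b, hw5c, r5⟩ := step0 h hT hα hαo (k := 5) hw hwb h7
  obtain ⟨κ5, h5⟩ := H5 w5 hw5 hw5c
  obtain ⟨w3, hw3, hw3b, hw3c, r3⟩ := step0 h hT hα hαo (k := 3) hw5 hw5b h5
  obtain ⟨κ3, h3⟩ := H3 w3 hw3 hw3c
  obtain ⟨w1, hw1, hw1b, hw1c, r1⟩ := step0 h hT hα hαo (k := 1) hw3 hw3b h3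
  obtain ⟨κ1, h1⟩ := H1 w1 hw1 hw1c
  have s1 := step1 h hT hα hαo hw1 hw1b h1
  have s3 := r1.trans (s1.mul hee hed heb)
  have s5 := r3.trans (s3.mul hee hed heb)
  obtain ⟨κ, hκ, hκ'⟩ := r5.trans (s5.mul hee hed heb)
  rw [mul_zero, mul_zero, mul_zero, zero_add] at hκ'
  refine ⟨part 6 κ, isDeg_part 6 κ, basic_part 6 hκ, ?_⟩
  have h8 : part 7 κ.d = (part 6 κ).d := part_succ_d 6 κ
  rw [← h8, ← hκ', hw.part_eq]

end Gen

namespace Sys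

variable {B U M : Type*} {dB : Dif B} {dU : Dif U} {dM : Dif M} {n : ℕ} {D c : ℝ}

/-- `b₁` is not exact -/
theorem b1_ne (S : Sys dB dU dM n D c) {N : ℕ} (hαN : S.α.d ^ (N + 1) = 0)
    (hV : S.I (S.α * S.α.d ^ N) ≠ 0) {ε : ℝ} (hε : ε ≠ 0) {l : Form dB}
    (hl : S.b1 = ε • S.b0 + l.d) (m : Form dB) : S.b1 ≠ m.d := by
  intro hm
  have h1 := S.left_side hαN hl
  have h2 := S.left_side hαN (ε := 0) (l := m) (by rw [zero_smul, zero_add]; exact hm)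
  rw [h2, zero_mul, zero_mul] at h1
  exact (mul_ne_zero (mul_ne_zero hε S.hk) hV) h1.symm

section Kap

variable (S : Sys dB dU dM 1 D c)

theorem σpi {w : Form dU} (hw : Basic S.φU S.hφU.map w) :
    Form.pull S.σ S.hσ (Form.pull S.pi S.hpi w) = Form.pull S.pi S.hpi w := by
  have h0 : dU.Map dU (fun v => S.φU (v, D)) := map_at S.hφU.map D
  have h1 : Form.pull (fun v => S.φU (v, D)) h0 w = w := by
    have h2 : Form.pull S.φU S.hφU.map w = pr w := hw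
    rw [← at_pull_of S.hφU.map D w, h2, at_pr]
  have h3 : dB.Map dU (fun b => S.φU (S.pi b, D)) := fun h => h0 (S.hpi h)
  have h4 : Form.pull S.σ S.hσ (Form.pull S.pi S.hpi w) =
      Form.pull S.pi S.hpi (Form.pull (fun v => S.φU (v, D)) h0 w) :=
    (pull_pull S.hσ S.hpi h3 S.hσπ w).trans
      (pull_pull S.hpi h0 h3 (fun b => rfl) w).symm
  rw [h4, h1]

theorem vU_deg (hFd : IsDeg 8 S.F) : IsDeg 7 S.vU :=
  isDeg_J S.hφU.map (2 * D) (IsDeg.pull hFd S.foot S.hfoot)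

theorem kg_deg (hFd : IsDeg 8 S.F) : IsDeg 6 S.kg :=
  isDeg_J S.hφ.map (2 * D) (IsDeg.K (IsDeg.pull hFd S.g S.hg))

/-- **the normalised primitive of `x'` on `U`** -/
theorem exists_kap (hFd : IsDeg 8 S.F)
    (H0 : ∀ w : Form dB, IsDeg 0 w → w.d = 0 → ∃ r : ℝ, w = r • 1)
    (H2 : ∀ w : Form dB, IsDeg 2 w → w.d = 0 → ∃ κ : Form dB, w = κ.d)
    (H4 : ∀ w : Form dB, IsDeg 4 w → w.d = 0 → ∃ κ : Form dB, w = κ.d)
    (H6 : ∀ w : Form dB, IsDeg 6 w → w.d = 0 → ∃ (r : ℝ) (κ : Form dB), w = r • S.b0 + κ.d)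
    {ε : ℝ} (hε : ε ≠ 0) {l : Form dB} (hl : S.b1 = ε • S.b0 + l.d)
    (hb1 : ∀ m : Form dB, S.b1 ≠ m.d) {κ : Form dU} (hκ6 : IsDeg 6 κ)
    (hκb : Basic S.φU S.hφU.map κ) (hκd : κ.d = S.vU) :
    ∃ κU : Form dU, κU.sg = κU ∧ Basic S.φU S.hφU.map κU ∧ κU.d = S.vU ∧
      Eqv S.hφ.map (S.kB κU) ((1 / 2 : ℝ) • S.b1) := by
  have hκe : κ.sg = κ := hκ6.sg_of_even (by decide)
  obtain ⟨hk1, hk2, hk3⟩ := S.kB_good hκe hκb hκd
  have hk6 : IsDeg 6 (S.kB κ) := IsDeg.sub (S.kg_deg hFd) (IsDeg.pull hκ6 S.pi S.hpi)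
  have hKd : IsDeg 7 (Form.K (Form.pull S.g S.hg S.F)) := IsDeg.K (IsDeg.pull hFd _ _)
  have hbd : IsDeg 6 S.b1 := isDeg_J S.hφ.map S.T (IsDeg.sub hKd (IsDeg.pull hKd _ _))
  obtain ⟨r, κ6, h6⟩ := H6 (S.kB κ) hk6 hk2
  have h6' : S.kB κ = (r / ε) • S.b1 + (κ6 - (r / ε) • l).d := by
    rw [h6, hl, Form.d_sub, Form.d_smul, smul_add, smul_smul, div_mul_cancel₀ r hε]
    abel
  obtain ⟨w4, hw4, hw4b, hw4c, r4⟩ := step S.hφ S.T_ne S.αB_flow S.αB_sg (k := 4) hk6 hk3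
    hbd S.b1_basic h6'
  obtain ⟨κ4, h4⟩ := H4 w4 hw4 hw4c
  obtain ⟨w2, hw2, hw2b, hw2c, r2⟩ := step0 S.hφ S.T_ne S.αB_flow S.αB_sg (k := 2) hw4 hw4b h4
  obtain ⟨κ2, h2⟩ := H2 w2 hw2 hw2c
  obtain ⟨w0, hw0, hw0b, hw0c, r0⟩ := step0 S.hφ S.T_ne S.αB_flow S.αB_sg (k := 0) hw2 hw2b h2
  obtain ⟨γ, rfl⟩ := H0 w0 hw0 hw0c
  have hee' : (2 * D)⁻¹ • S.αB.d = S.e := S.e_eq.symm
  rw [hee'] at r4 r2 r0
  have s4 := r2.trans (r0.mul S.e_sg S.e_d S.e_basic)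
  have s6 := r4.trans ((Eqv.refl ((r / ε) • S.b1)).add (s4.mul S.e_sg S.e_d S.e_basic))
  have e1 : S.e * (S.e * (S.e * (γ • 1))) = γ • S.e ^ 3 := by
    simp only [mul_smul_comm, mul_one, pow_succ, pow_zero, one_mul, mul_assoc]
  rw [e1] at s6
  set q := r / ε with hq
  -- the constant is `1 / 2`
  have hσ := s6.pull (hΦ' := S.hφ.map) S.hσ S.hσφ
  have hσe : Form.pull S.σ S.hσ S.e = S.e := by
    rw [← S.pi_eU, S.σpi S.eU_basic]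
  rw [kB, pull_sub, S.σpi hκb, pull_add, pull_smul, S.σb1, pull_smul, pull_pow, hσe] at hσ
  obtain ⟨u1, hu1, hu1'⟩ := s6
  obtain ⟨u2, hu2, hu2'⟩ := hσ
  have h7 : S.b1 = (q + q) • S.b1 + (u1 - u2).d := by
    have h8 := S.kg_sub
    have h9 : S.kg - Form.pull S.σ S.hσ S.kg = S.kB κ -
        (Form.pull S.σ S.hσ S.kg - Form.pull S.pi S.hpi κ) := by
      rw [kB]
      abel
    rw [h8, hu1', hu2'] at h9
    refine h9.trans ?_
    rw [Form.d_sub, add_smul, smul_neg]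
    abel
  have hq2 : q = 1 / 2 := by
    by_contra hne
    have h8 : (1 - (q + q)) ≠ 0 := by
      intro h0
      apply hne
      linarith
    apply hb1 ((1 - (q + q))⁻¹ • (u1 - u2))
    have h9 : (1 - (q + q)) • S.b1 = (u1 - u2).d := by
      rw [sub_smul, one_smul]
      nth_rewrite 1 [h7]
      abel
    rw [Form.d_smul, ← h9, smul_smul, inv_mul_cancel₀ h8, one_smul]
  -- the new primitive
  refine ⟨κ + γ • S.eU ^ 3, ?_, Basic.add hκb (Basic.smul γ (Basic.pow S.eU_basic 3)), ?_,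
    u1, hu1, ?_⟩
  · rw [Form.sg_add, hκe, Form.sg_smul, pow_even S.eU_sg]
  · rw [Form.d_add, hκd, Form.d_smul, pow_closed S.eU_d, smul_zero, add_zero]
  · have h8 : S.kB (κ + γ • S.eU ^ 3) = S.kB κ - γ • S.e ^ 3 := by
      rw [kB, kB, pull_add S.hpi, pull_smul S.hpi, pull_pow S.hpi, S.pi_eU]
      abel
    rw [h8, hu1', hq2]
    abel

/-- **evaluation of `τ` on the first level** -/
theorem lev1 (hFd : IsDeg 8 S.F) {a μ : ℝ} {ρ : Form dB} (hρ : Basic S.φ S.hφ.map ρ)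
    (hrel : S.b1 ^ 2 = a • S.e ^ 6 + μ • (S.e ^ 2 * (S.G1 + S.G2)) + ρ.d)
    (H0 : ∀ w : Form dB, IsDeg 0 w → w.d = 0 → ∃ r : ℝ, w = r • 1)
    (H2 : ∀ w : Form dB, IsDeg 2 w → w.d = 0 → ∃ κ : Form dB, w = κ.d)
    (H4 : ∀ w : Form dB, IsDeg 4 w → w.d = 0 → ∃ κ : Form dB, w = κ.d)
    (H6 : ∀ w : Form dB, IsDeg 6 w → w.d = 0 → ∃ (r : ℝ) (κ : Form dB), w = r • S.b0 + κ.d)
    (HU1 : ∀ w : Form dU, IsDeg 1 w → w.d = 0 → ∃ κ : Form dU, w = κ.d)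
    (HU3 : ∀ w : Form dU, IsDeg 3 w → w.d = 0 → ∃ κ : Form dU, w = κ.d)
    (HU5 : ∀ w : Form dU, IsDeg 5 w → w.d = 0 → ∃ κ : Form dU, w = κ.d)
    (HU7 : ∀ w : Form dU, IsDeg 7 w → w.d = 0 → ∃ κ : Form dU, w = κ.d)
    {ε : ℝ} (hε : ε ≠ 0) {l : Form dB} (hl : S.b1 = ε • S.b0 + l.d)
    {N : ℕ} (hαN : S.α.d ^ (N + 1) = 0) (hV : S.I (S.α * S.α.d ^ N) ≠ 0) :
    ∃ κU : Form dU, κU.sg = κU ∧ Basic S.φU S.hφU.map κU ∧ κU.d = S.vU ∧
      Eqv S.hφ.map (S.kB κU) ((1 / 2 : ℝ) • S.b1) ∧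
      ∃ (w : Form dU) (m : Form dB), Basic S.φU S.hφU.map w ∧ Basic S.φ S.hφ.map m ∧
      Form.K (tau (a / 2 - μ ^ 2 / 6) (-(μ * a / 12)) (cflow S.φ) (map_cflow S.hφ.map) (2 * D)
        (pr S.αB) S.Gc) = Form.pull S.pi S.hpi w + m.d := by
  obtain ⟨κ, hκ6, hκb, hκd⟩ := exact7 S.hφU S.T2 S.hα S.hαo HU1 HU3 HU5 HU7 (S.vU_deg hFd)
    S.vU_basic S.vU_d
  obtain ⟨κU, h1, h2, h3, h4⟩ := S.exists_kap hFd H0 H2 H4 H6 hε hl (S.b1_ne hαN hV hε hl)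
    hκ6 hκb hκd
  exact ⟨κU, h1, h2, h3, h4, S.lev1_aux h1 h2 h3 hρ hrel h4⟩

end Kap

end Sys

end Vale.Agent.P231.H584
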