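import Vale.Agent.P231.H584.Tow

/-!
# P231, stage 3, integrality: the value of `b₁³` on a tower of functionals
-/

set_option linter.unusedSectionVars false
set_option linter.unusedVariables false

open MeasureTheory Set Module Filter Topology
open scoped ContDiff Real

namespace Vale.Agent.P231.H584

open Fm W
open Fm.Form (IsDeg part isDeg_part part_add part_smul part_succ_d part_pull part_K)

namespace Sys

variable {B U M : Type*} {dB : Dif B} {dU : Dif U} {dM : Dif M} {D c : ℝ}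
  (S : Sys dB dU dM 1 D c)

/-- further properties of the fibre integration `P` -/
structure PP : Prop where
  bas : ∀ w, Basic S.φ S.hφ.map w → Basic S.φU S.hφU.map (S.P w)
  deg : ∀ k w, IsDeg (k + 6) w → IsDeg k (S.P w)
  σ : ∀ w, S.P (Form.pull S.σ S.hσ w) = -Form.pull (fun v => S.φU (v, D))
    (map_at S.hφU.map D) (S.P w)

/-- two functionals of a tower, in degrees `8` and `12` -/
structure Twr (L4 L6 : Form dU →ₗ[ℝ] ℝ) : Prop where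
  bas6 : ∀ w, Basic S.φU S.hφU.map w → L6 w.d = 0
  mul : ∀ w, IsDeg 8 w → w.d = 0 → Basic S.φU S.hφU.map w → L6 (S.eU ^ 2 * w) = L4 w

variable {S} (hP : S.PP) (hFd : IsDeg 8 S.F)

theorem b1_deg (hFd : IsDeg 8 S.F) : IsDeg 6 S.b1 := by
  have hKd : IsDeg 7 (Form.K (Form.pull S.g S.hg S.F)) := IsDeg.K (IsDeg.pull hFd _ _)
  exact isDeg_J S.hφ.map S.T (IsDeg.sub hKd (IsDeg.pull hKd _ _))

theorem G1_deg (hFd : IsDeg 8 S.F) : IsDeg 8 S.G1 := IsDeg.pull hFd _ (map_at S.hg 1)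

include hP hFd

theorem P_b1 {ε : ℝ} {l : Form dB} (hl : S.b1 = ε • S.b0 + l.d) :
    S.P S.b1 = (ε * S.k) • 1 := by
  have h1 : IsDeg 0 (S.P S.b1) := hP.deg 0 _ (b1_deg hFd)
  have h2 : S.P S.b0 = S.k • 1 := S.hk0
  have h3 : S.P S.b1 = (ε * S.k) • 1 + (S.P l).d := by
    conv_lhs => rw [hl]
    rw [map_add, map_smul, h2, smul_smul, S.hPd]
  have h4 := congrArg (part 0) h3
  rw [h1.part_eq, part_add, Form.part_zero_d, add_zero, part_smul, Form.part_one,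
    if_pos rfl] at h4
  exact h4

theorem P_b1G : S.P (S.b1 * (S.G1 + S.G2)) = (2 : ℝ) • S.P (S.b1 * S.G1) := by
  have h1 := hP.σ (S.b1 * S.G1)
  have h2 : Form.pull S.σ S.hσ (S.b1 * S.G1) = -(S.b1 * S.G2) := by
    rw [pull_mul, S.σb1, S.σG1, neg_mul]
  have hb : Basic S.φU S.hφU.map (S.P (S.b1 * S.G1)) :=
    hP.bas _ (Basic.mul S.b1_basic S.G1_basic)
  have h3 : Form.pull (fun v => S.φU (v, D)) (map_at S.hφU.map D) (S.P (S.b1 * S.G1)) =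
      S.P (S.b1 * S.G1) := by
    have h4 : Form.pull S.φU S.hφU.map (S.P (S.b1 * S.G1)) = pr (S.P (S.b1 * S.G1)) := hb
    rw [← at_pull_of S.hφU.map D, h4, at_pr]
  rw [h2, h3, map_neg, neg_inj] at h1
  rw [mul_add, map_add, h1, two_smul]

/-- **the value of `b₁³`** -/
theorem int_cube {a μ : ℝ} {ρ : Form dB} (hρ : Basic S.φ S.hφ.map ρ)
    (hrel : S.b1 ^ 2 = a • S.e ^ 6 + μ • (S.e ^ 2 * (S.G1 + S.G2)) + ρ.d)
    {ε : ℝ} {l : Form dB} (hl : S.b1 = ε • S.b0 + l.d) {L4 L6 : Form dU →ₗ[ℝ] ℝ}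
    (hL : S.Twr L4 L6) :
    L6 (S.P (S.b1 ^ 3)) = a * (ε * S.k) * L6 (S.eU ^ 6) +
      2 * μ * L4 (S.P (S.b1 * S.G1)) := by
  have hce : ∀ (j : ℕ) (w : Form dB), S.e ^ j * w = w * Form.pull S.pi S.hpi (S.eU ^ j) := by
    intro j w
    rw [pull_pow, S.pi_eU]
    exact (even_comm (pow_even S.e_sg j) w).eq
  have hcU : ∀ (j : ℕ) (w : Form dU), w * S.eU ^ j = S.eU ^ j * w := fun j w =>
    (even_comm (pow_even S.eU_sg j) w).symm.eq
  have h1 : S.b1 ^ 3 = a • (S.e ^ 6 * S.b1) + μ • (S.e ^ 2 * (S.b1 * (S.G1 + S.G2))) +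
      (ρ * S.b1).d := by
    have hcb : S.b1 * (S.G1 + S.G2) = (S.G1 + S.G2) * S.b1 := (even_comm S.b1_sg _).eq
    rw [pow_succ, hrel, add_mul, add_mul, smul_mul_assoc, smul_mul_assoc, mul_assoc,
      ← hcb, d_mul_closed _ S.b1_d]
  have h2 : S.P (S.b1 ^ 3) = (a * (ε * S.k)) • S.eU ^ 6 +
      (2 * μ) • (S.eU ^ 2 * S.P (S.b1 * S.G1)) + (S.P (ρ * S.b1)).d := by
    rw [h1, map_add, map_add, map_smul, map_smul, hce, hce, S.hPm, S.hPm, P_b1 hP hFd hl,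
      P_b1G hP hFd, S.hPd, hcU, hcU, mul_smul_comm, mul_smul_comm, mul_one, smul_smul,
      smul_smul, mul_comm μ 2]
  have hcl : (S.P (S.b1 * S.G1)).d = 0 := by
    rw [← S.hPd, mul_closed S.b1_d S.G1_good.1, map_zero]
  rw [h2, map_add, map_add, map_smul, map_smul, hL.bas6 _ (hP.bas _ (Basic.mul hρ S.b1_basic)),
    hL.mul _ (hP.deg 8 _ ((b1_deg hFd).mul (G1_deg hFd))) hcl
      (hP.bas _ (Basic.mul S.b1_basic S.G1_basic)), smul_eq_mul, smul_eq_mul, add_zero]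

/-- the functional of a closed surface -/
theorem int_sphere {ε : ℝ} {l : Form dB} (hl : S.b1 = ε • S.b0 + l.d)
    {L4 : Form dU →ₗ[ℝ] ℝ} (h4 : ∀ w : Form dU, L4 w.d = 0) :
    L4 (S.P (S.b1 * S.G1)) = ε * S.k * L4 S.Fx := by
  have h1 : S.b1 * S.G1 = S.b1 * Form.pull S.pi S.hpi S.Fx +
      (S.b1 * Form.K (Form.pull S.g S.hg S.F)).d := by
    rw [Form.d_mul, S.b1_d, zero_mul, zero_add, S.b1_sg, ← mul_add, ← S.G1_eq S.hF]
  rw [h1, map_add, S.hPm, S.hPd, P_b1 hP hFd hl, map_add, h4, add_zero, smul_mul_assoc, one_mul,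
    map_smul, smul_eq_mul]

/-- **the first tower**: `a / κ² ± (μ / κ) m` is an integer -/
theorem int_one {a μ : ℝ} {ρ : Form dB} (hρ : Basic S.φ S.hφ.map ρ)
    (hrel : S.b1 ^ 2 = a • S.e ^ 6 + μ • (S.e ^ 2 * (S.G1 + S.G2)) + ρ.d)
    {ε : ℝ} (hε : ε ^ 2 = 1) {l : Form dB} (hl : S.b1 = ε • S.b0 + l.d)
    {L4 L6 : Form dU →ₗ[ℝ] ℝ} (hL : S.Twr L4 L6) {κ : ℝ} (hκ : 0 < κ) (hk : S.k ^ 2 = 4 * κ ^ 2)
    (he : L6 (S.eU ^ 6) = 1) {N m : ℤ} (hN : L6 (S.P (S.b1 ^ 3)) = 2 * κ ^ 3 * N)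
    (hm : L4 (S.P (S.b1 * S.G1)) = κ ^ 2 * m) :
    ∃ N' m' : ℤ, (m' = m ∨ m' = -m) ∧ a / κ ^ 2 = N' + μ / κ * m' := by
  have h1 := int_cube hP hFd hρ hrel hl hL
  rw [he, hN, hm, mul_one] at h1
  -- `ε k = ± 2 κ`
  have h2 : (ε * S.k) ^ 2 = (2 * κ) ^ 2 := by rw [mul_pow, hε, hk]; ring
  rcases sq_eq_sq_iff_eq_or_eq_neg.1 h2 with h3 | h3
  · refine ⟨N, -m, Or.inr rfl, ?_⟩
    rw [h3] at h1
    have h4 : a = κ ^ 2 * N - μ * κ * m := by
      have : 2 * κ * a = 2 * κ * (κ ^ 2 * N - μ * κ * m) := by linarith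
      exact mul_left_cancel₀ (by positivity) this
    rw [h4]
    push_cast
    field_simp
    ring
  · refine ⟨-N, m, Or.inl rfl, ?_⟩
    rw [h3] at h1
    have h4 : a = -κ ^ 2 * N + μ * κ * m := by
      have : 2 * κ * a = 2 * κ * (-κ ^ 2 * N + μ * κ * m) := by linarith
      exact mul_left_cancel₀ (by positivity) this
    rw [h4]
    push_cast
    field_simp

/-- **the second tower**: `2 μ / κ` is an integer -/
theorem int_two {a μ : ℝ} {ρ : Form dB} (hρ : Basic S.φ S.hφ.map ρ)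
    (hrel : S.b1 ^ 2 = a • S.e ^ 6 + μ • (S.e ^ 2 * (S.G1 + S.G2)) + ρ.d)
    {ε : ℝ} (hε : ε ^ 2 = 1) {l : Form dB} (hl : S.b1 = ε • S.b0 + l.d)
    {L4 L6 : Form dU →ₗ[ℝ] ℝ} (hL : S.Twr L4 L6) (h4 : ∀ w : Form dU, L4 w.d = 0) {κ : ℝ}
    (hκ : 0 < κ) (hk : S.k ^ 2 = 4 * κ ^ 2) (he : L6 (S.eU ^ 6) = 0) {N : ℤ}
    (hN : L6 (S.P (S.b1 ^ 3)) = 2 * κ ^ 3 * N) (hx : (L4 S.Fx) ^ 2 = κ ^ 2) :
    ∃ N' : ℤ, 2 * μ / κ = N' := by
  have h1 := int_cube hP hFd hρ hrel hl hL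
  rw [he, hN, int_sphere hP hFd hl h4, mul_zero, zero_add] at h1
  have h2 : (ε * S.k * L4 S.Fx) ^ 2 = (2 * κ ^ 2) ^ 2 := by
    rw [mul_pow, mul_pow, hε, hk, hx]
    ring
  rcases sq_eq_sq_iff_eq_or_eq_neg.1 h2 with h3 | h3
  · refine ⟨N, ?_⟩
    rw [h3] at h1
    have h5 : 2 * μ = κ * N := by
      have : 2 * κ ^ 2 * (2 * μ) = 2 * κ ^ 2 * (κ * N) := by linarith
      exact mul_left_cancel₀ (by positivity) this
    rw [h5]
    field_simp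
  · refine ⟨-N, ?_⟩
    rw [h3] at h1
    have h5 : 2 * μ = -(κ * N) := by
      have : 2 * κ ^ 2 * (2 * μ) = 2 * κ ^ 2 * (-(κ * N)) := by linarith
      exact mul_left_cancel₀ (by positivity) this
    rw [h5]
    push_cast
    field_simp

end Sys

end Vale.Agent.P231.H584
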