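import Vale.Agent.P231.H584.Mod

/-!
# P231, stage 3: exchange of two fibre integrations; the primitive relative to the end `t = 1`
-/

set_option linter.unusedSectionVars false
set_option linter.unusedVariables false

open MeasureTheory Set Module Filter Topology
open scoped ContDiff Real

namespace Vale.Agent.P231.H584

open Fm W

section Lam

variable {E : Type} [NormedAddCommGroup E] [NormedSpace ℝ E] [FiniteDimensional ℝ E]

/-- exchange of the two real variables -/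
noncomputable def swl (E : Type) [NormedAddCommGroup E] [NormedSpace ℝ E]
    [FiniteDimensional ℝ E] : (E × ℝ) × ℝ →L[ℝ] (E × ℝ) × ℝ :=
  (((ContinuousLinearMap.fst ℝ E ℝ).comp (ContinuousLinearMap.fst ℝ (E × ℝ) ℝ)).prod
    (ContinuousLinearMap.snd ℝ (E × ℝ) ℝ)).prod
      ((ContinuousLinearMap.snd ℝ E ℝ).comp (ContinuousLinearMap.fst ℝ (E × ℝ) ℝ))

theorem swl_apply (p : (E × ℝ) × ℝ) : swl E p = ((p.1.1, p.2), p.1.2) := rfl

theorem at1_at1_swap (v : Lam ((E × ℝ) × ℝ)) :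
    at1 (at1 (Fm.pull (swl E) v)) = -at1 (at1 v) := by
  have hv := decomp v
  have h0 := decomp (at0 v)
  have h1 := decomp (at1 v)
  set p := at0 (at0 v)
  set q := at1 (at0 v)
  set r := at0 (at1 v)
  set s := at1 (at1 v)
  have f1 : ∀ a : Lam E, Fm.pull (swl E) (Fm.pull (ContinuousLinearMap.fst ℝ (E × ℝ) ℝ)
      (Fm.pull (ContinuousLinearMap.fst ℝ E ℝ) a)) =
      Fm.pull (ContinuousLinearMap.fst ℝ (E × ℝ) ℝ)
        (Fm.pull (ContinuousLinearMap.fst ℝ E ℝ) a) := fun a => by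
    rw [← pull_comp_apply, ← pull_comp_apply, ← pull_comp_apply]
    rfl
  have f2 : Fm.pull (swl E) (dtl : Lam ((E × ℝ) × ℝ)) =
      Fm.pull (ContinuousLinearMap.fst ℝ (E × ℝ) ℝ) (dtl : Lam (E × ℝ)) := by
    rw [dtl, dtl, pull_dx, pull_dx]
    rfl
  have f3 : Fm.pull (swl E) (Fm.pull (ContinuousLinearMap.fst ℝ (E × ℝ) ℝ)
      (dtl : Lam (E × ℝ))) = dtl := by
    rw [dtl, dtl, pull_dx, pull_dx]
    rfl
  have hL : Fm.pull (swl E) v = Fm.pull (ContinuousLinearMap.fst ℝ (E × ℝ) ℝ)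
      (Fm.pull (ContinuousLinearMap.fst ℝ E ℝ) p) + dtl * Fm.pull
        (ContinuousLinearMap.fst ℝ (E × ℝ) ℝ) (Fm.pull (ContinuousLinearMap.fst ℝ E ℝ) q) +
      Fm.pull (ContinuousLinearMap.fst ℝ (E × ℝ) ℝ) dtl *
        (Fm.pull (ContinuousLinearMap.fst ℝ (E × ℝ) ℝ)
          (Fm.pull (ContinuousLinearMap.fst ℝ E ℝ) r) + dtl * Fm.pull
        (ContinuousLinearMap.fst ℝ (E × ℝ) ℝ) (Fm.pull (ContinuousLinearMap.fst ℝ E ℝ) s)) := by
    conv_lhs => rw [hv, h0, h1]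
    rw [map_add, map_mul, map_add, map_add, map_add, map_add, map_mul, map_mul, map_mul,
      map_mul, f1, f1, f1, f1, f2, f3]
  have hd : inv (dtl : Lam (E × ℝ)) = -dtl := by
    rw [dtl, inv_dx]
  have h2 : at1 (Fm.pull (swl E) v) = Fm.pull (ContinuousLinearMap.fst ℝ E ℝ) q +
      -dtl * Fm.pull (ContinuousLinearMap.fst ℝ E ℝ) s := by
    rw [hL]
    simp only [map_add, at1_fst, at1_dtl_mul, at0_fst, Form.at1_fst_mul, hd, zero_add]
  rw [h2, map_add, at1_fst, zero_add, neg_mul, map_neg, at1_dtl_mul, at0_fst]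

end Lam

section Fub

variable {X : Type*} {D : Dif X}

theorem swp_cyl {E : Type} (u : E → X) :
    (swp ∘ Form.cyl (Form.cyl u) : (E × ℝ) × ℝ → (X × ℝ) × ℝ) =
      Form.cyl (Form.cyl u) ∘ fun p => ((p.1.1, p.2), p.1.2) := rfl

/-- **exchange of two fibre integrations** -/
theorem K_K (w : Form ((D.prod (Dif.lin ℝ)).prod (Dif.lin ℝ))) :
    Form.K (Form.K w) = -Form.K (Form.K (Form.pull swp map_swp w)) :=
  Form.ext_val fun E _ _ _ u x h => by
    have hcyl := Form.cyl_at h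
    -- the integrand
    set W : (E × ℝ) × ℝ → Lam ((E × ℝ) × ℝ) := w.val (Form.cyl (Form.cyl u)) with hW
    have hWc : Continuous fun p : ℝ × ℝ => W ((x, p.1), p.2) := by
      refine continuous_iff_continuousAt.2 fun p => ?_
      have h1 : ContDiffAt ℝ ∞ W ((x, p.1), p.2) := w.smooth (Form.cyl_at (hcyl p.1) p.2)
      exact ContinuousAt.comp (f := fun p : ℝ × ℝ => (((x, p.1), p.2) : (E × ℝ) × ℝ)) (x := p)
        h1.continuousAt (by fun_prop)
    have hA : ∀ (v : Form ((D.prod (Dif.lin ℝ)).prod (Dif.lin ℝ))),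
        (Continuous fun p : ℝ × ℝ => v.val (Form.cyl (Form.cyl u)) ((x, p.1), p.2)) →
        (Form.K (Form.K v)).val u x = ∫ s in (0 : ℝ)..1, ∫ t in (0 : ℝ)..1,
          at1 (at1 (v.val (Form.cyl (Form.cyl u)) ((x, s), t))) := fun v hv => by
      rw [Form.K_val _ h, kop]
      refine intervalIntegral.integral_congr fun s _ => ?_
      change at1 ((Form.K v).val (Form.cyl u) (x, s)) = _
      rw [Form.K_val _ (hcyl s), kop]
      have hc : Continuous fun t : ℝ => at1 (v.val (Form.cyl (Form.cyl u)) ((x, s), t)) :=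
        (at1 (E := E × ℝ)).continuous.comp
          (hv.comp (by fun_prop : Continuous fun t : ℝ => ((s, t) : ℝ × ℝ)))
      exact (ContinuousLinearMap.intervalIntegral_comp_comm (at1 (E := E))
        (hc.intervalIntegrable 0 1)).symm
    have hB : ∀ s t, (Form.pull swp map_swp w).val (Form.cyl (Form.cyl u)) ((x, s), t) =
        Fm.pull (swl E) (W ((x, t), s)) := fun s t => by
      have h1 : (swl E : (E × ℝ) × ℝ → (E × ℝ) × ℝ) = fun p => ((p.1.1, p.2), p.1.2) :=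
        funext fun p => swl_apply p
      rw [Form.pull_val _ _ (Form.cyl_at (hcyl s) t), swp_cyl, ← h1]
      have h2 : Sm (swl E) ((x, s), t) := Sm.of_contDiff (swl E).contDiff _
      rw [w.nat (u := Form.cyl (Form.cyl u)) (g := swl E) (x := ((x, s), t))
        (Form.cyl_at (hcyl t) s) h2, ContinuousLinearMap.fderiv]
      rfl
    have hBc : Continuous fun p : ℝ × ℝ =>
        (Form.pull swp map_swp w).val (Form.cyl (Form.cyl u)) ((x, p.1), p.2) := by
      simp only [hB]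
      exact (pullL (swl E)).continuous.comp (hWc.comp (continuous_snd.prodMk continuous_fst))
    rw [Form.neg_val, hA w hWc, hA _ hBc]
    simp only [hB, at1_at1_swap, intervalIntegral.integral_neg, neg_neg]
    have hc2 : Continuous (Function.uncurry fun s t : ℝ => at1 (at1 (W ((x, s), t)))) :=
      (at1 (E := E)).continuous.comp ((at1 (E := E × ℝ)).continuous.comp hWc)
    exact intervalIntegral_intervalIntegral_swap
      ((hc2.continuousOn.integrableOn_compact (isCompact_uIcc.prod isCompact_uIcc)).mono_set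
        (Set.prod_mono uIoc_subset_uIcc uIoc_subset_uIcc))

/-- **`K` and `J` anticommute** -/
theorem K_J {Φ : X × ℝ → X} (hΦ : (D.prod (Dif.lin ℝ)).Map D Φ) (T : ℝ)
    (w : Form (D.prod (Dif.lin ℝ))) :
    Form.K (J (cflow Φ) (map_cflow hΦ) T w) = -J Φ hΦ T (Form.K w) := by
  have hf : (D.prod (Dif.lin ℝ)).Map D (fun p : X × ℝ => Φ (p.1, T * p.2)) :=
    fun {E} _ _ _ {u x} hh => hΦ (map_scale T hh)
  have hV : ((D.prod (Dif.lin ℝ)).prod (Dif.lin ℝ)).Map (D.prod (Dif.lin ℝ))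
      (fun p : (X × ℝ) × ℝ => (Φ (p.1.1, T * p.2), p.1.2)) :=
    fun {E} _ _ _ {u x} hh => map_cflow hΦ (map_scale (D := D.prod (Dif.lin ℝ)) T hh)
  have h1 : J (cflow Φ) (map_cflow hΦ) T w =
      Form.K (Form.pull (fun p : (X × ℝ) × ℝ => (Φ (p.1.1, T * p.2), p.1.2)) hV w) := by
    rw [J_def, KT, pull_pull (map_scale T) (map_cflow hΦ) hV (fun p => rfl)]
  rw [h1, K_K, pull_pull map_swp hV (map_cyl hf) (fun p => rfl), K_nat hf, J_def, KT,
    pull_pull (map_scale T) hΦ hf (fun p => rfl)]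

end Fub

/-! ### basic forms and equivariant maps -/

section Equi

variable {X Y : Type*} {D : Dif X} {D' : Dif Y} {φ : X × ℝ → X} {φ' : Y × ℝ → Y}

/-- basic forms are preserved by equivariant maps -/
theorem Basic.pull (hφ : (D.prod (Dif.lin ℝ)).Map D φ) (hφ' : (D'.prod (Dif.lin ℝ)).Map D' φ')
    {f : X → Y} (hf : D.Map D' f) (hc : ∀ x t, f (φ (x, t)) = φ' (f x, t)) {w : Form D'}
    (hw : Basic φ' hφ' w) : Basic φ hφ (Form.pull f hf w) := by
  have h1 : (D.prod (Dif.lin ℝ)).Map D' (fun p => φ' (f p.1, p.2)) :=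
    fun {E} _ _ _ {u x} hh => hφ' (map_cyl hf hh)
  have h2 : Form.pull φ' hφ' w = pr w := hw
  rw [basic_def, pull_pull hφ hf h1 (fun p => hc _ _) w,
    ← pull_pull (map_cyl hf) hφ' h1 (fun p => rfl) w, h2, pull_pr]

theorem Basic.at_ {hφ : (D.prod (Dif.lin ℝ)).Map D φ} (s : ℝ) {w : Form (D.prod (Dif.lin ℝ))}
    (hw : Basic (cflow φ) (map_cflow hφ) w) : Basic φ hφ (W.at_ s w) :=
  Basic.pull hφ (map_cflow hφ) (Form.map_slice s) (fun x t => rfl) hw

theorem Basic.pr {hφ : (D.prod (Dif.lin ℝ)).Map D φ} {w : Form D} (hw : Basic φ hφ w) :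
    Basic (cflow φ) (map_cflow hφ) (W.pr w) :=
  Basic.pull (map_cflow hφ) hφ Dif.map_fst (fun x t => rfl) hw

theorem Basic.Pm {hφ : (D.prod (Dif.lin ℝ)).Map D φ} {w : Form (D.prod (Dif.lin ℝ))}
    (hw : Basic (cflow φ) (map_cflow hφ) w) :
    Basic (cflow φ) (map_cflow hφ) (H584.Pm w) :=
  basic_K (Basic.pull (map_cflow (map_cflow hφ)) (map_cflow hφ) map_scal (fun x t => rfl) hw)

/-- the primitive relative to the end `t = 1` -/
noncomputable def Pm1 (w : Form (D.prod (Dif.lin ℝ))) : Form (D.prod (Dif.lin ℝ)) :=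
  H584.Pm w - W.pr (Form.K w)

theorem Pm1_d {w : Form (D.prod (Dif.lin ℝ))} (hw : w.d = 0) :
    (Pm1 w).d = w - W.pr (W.at_ 1 w) := by
  have h1 := Pm_d (w := w) (b := 0) (by rw [hw, pr_zero])
  have h2 := homotopy' w
  rw [hw, K_zero, zero_add] at h2
  rw [Pm1, Form.d_sub, h1, ← pr_d, ← h2, pr_sub]
  abel

theorem Pm1_one (w : Form (D.prod (Dif.lin ℝ))) : W.at_ 1 (Pm1 w) = 0 := by
  rw [Pm1, at_sub, Pm_at, KT_one, at_pr, sub_self]

theorem Pm1_zero (w : Form (D.prod (Dif.lin ℝ))) : W.at_ 0 (Pm1 w) = -Form.K w := by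
  rw [Pm1, at_sub, Pm_zero, at_pr, zero_sub]

theorem Pm1_sg (w : Form (D.prod (Dif.lin ℝ))) : (Pm1 w).sg = -Pm1 w.sg := by
  rw [Pm1, Form.sg_sub, Pm_sg, ← pr_sg, K_sg, Pm1]
  have : W.pr (-Form.K w.sg) = -W.pr (Form.K w.sg) :=
    map_neg (Form.pullA Prod.fst Dif.map_fst) _
  rw [this]
  abel

theorem Pm1_basic {hφ : (D.prod (Dif.lin ℝ)).Map D φ} {w : Form (D.prod (Dif.lin ℝ))}
    (hw : Basic (cflow φ) (map_cflow hφ) w) : Basic (cflow φ) (map_cflow hφ) (Pm1 w) :=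
  Basic.sub (Basic.Pm (hφ := hφ) hw) (Basic.pr (hφ := hφ) (basic_K (hΦ := hφ) hw))

end Equi

end Vale.Agent.P231.H584
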