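import Vale.Agent.P231.H584.Alg

/-!
# P231, Phi-side of stage 2 and 3: the algebra of the ring generated by `e, b, x, y` with
`x - y = e b`, `x^(n+1) = y^(n+1) = 0` and a quadratic relation for `b`
-/

open Finset

namespace Vale.Agent.P231.H584

/-- the coefficient of `x^n y^(n-1)` in `(x - y)^(2j+1) (x + y)^(2i)`, `n = i + j + 1` -/
noncomputable def KK (i j : ℕ) : ℝ :=
  (-1) ^ j * ((2 * i).factorial * (2 * j + 1).factorial /
    (i.factorial * j.factorial * (i + j + 1).factorial) : ℝ)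

theorem KK_zero (j : ℕ) : KK 0 j = (-1) ^ j * ((2 * j + 1).choose j : ℝ) := by
  rw [KK]
  congr 1
  have h : (2 * j + 1).choose j * j.factorial * (2 * j + 1 - j).factorial =
      (2 * j + 1).factorial := Nat.choose_mul_factorial_mul_factorial (by omega)
  have h1 : 2 * j + 1 - j = j + 1 := by omega
  rw [h1] at h
  have h2 : (((2 * j + 1).choose j : ℕ) : ℝ) * (j.factorial : ℝ) * ((j + 1).factorial : ℝ) =
      ((2 * j + 1).factorial : ℝ) := by exact_mod_cast h
  have h3 : (j.factorial : ℝ) ≠ 0 := by positivity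
  have h4 : ((j + 1).factorial : ℝ) ≠ 0 := by positivity
  rw [← h2]
  simp only [mul_zero, Nat.factorial_zero, Nat.cast_one, one_mul, zero_add]
  field_simp

theorem KK_succ (i j : ℕ) : KK (i + 1) j = KK i (j + 1) + 4 * KK i j := by
  have e1 : 2 * (i + 1) = (2 * i + 1) + 1 := by ring
  have e2 : 2 * (j + 1) + 1 = (2 * j + 1 + 1) + 1 := by ring
  have e3 : i + 1 + j + 1 = (i + j + 1) + 1 := by ring
  have e4 : i + (j + 1) + 1 = (i + j + 1) + 1 := by ring
  rw [KK, KK, KK, e1, e2, e3, e4]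
  simp only [Nat.factorial_succ (2 * i + 1), Nat.factorial_succ (2 * i),
    Nat.factorial_succ (2 * j + 1 + 1), Nat.factorial_succ (2 * j + 1),
    Nat.factorial_succ (i + j + 1), Nat.factorial_succ i, Nat.factorial_succ j, pow_succ]
  have h1 : (i.factorial : ℝ) ≠ 0 := by positivity
  have h2 : (j.factorial : ℝ) ≠ 0 := by positivity
  have h3 : ((i + j + 1).factorial : ℝ) ≠ 0 := by positivity
  have h4 : ((i : ℝ) + 1) ≠ 0 := by positivity
  have h5 : ((j : ℝ) + 1) ≠ 0 := by positivity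
  have h6 : ((i : ℝ) + j + 1 + 1) ≠ 0 := by positivity
  push_cast
  field_simp
  ring

section Ring

variable {R : Type*} [CommRing R] [Algebra ℝ R]

/-- the antisymmetric monomial -/
def WW (x y : R) (n : ℕ) : R := x ^ (n + 1) * y ^ n - x ^ n * y ^ (n + 1)

omit [Algebra ℝ R] in
theorem mem_aux {x y w : R} {n : ℕ} (h : w ∈ Ideal.span {x ^ n, y ^ n}) :
    x * y * w ∈ Ideal.span ({x ^ (n + 1), y ^ (n + 1)} : Set R) := by
  rw [Ideal.mem_span_pair] at h ⊢
  obtain ⟨a, b, rfl⟩ := h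
  exact ⟨a * y, b * x, by ring⟩

theorem key_mem (x y : R) (i : ℕ) : ∀ j : ℕ,
    (x - y) ^ (2 * j + 1) * (x + y) ^ (2 * i) - KK i j • WW x y (i + j) ∈
      Ideal.span ({x ^ (i + j + 2), y ^ (i + j + 2)} : Set R) := by
  induction i with
  | zero =>
    intro j
    have e0 : 0 + j = j := zero_add j
    rw [e0, ← Ideal.Quotient.eq]
    set q := Ideal.Quotient.mk (Ideal.span ({x ^ (j + 2), y ^ (j + 2)} : Set R))
    have hx : (q x) ^ (j + 2) = 0 := by
      rw [← map_pow, Ideal.Quotient.eq_zero_iff_mem]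
      exact Ideal.subset_span (by simp)
    have hy : (q y) ^ (j + 2) = 0 := by
      rw [← map_pow, Ideal.Quotient.eq_zero_iff_mem]
      exact Ideal.subset_span (by simp)
    have h := sub_pow_odd (Commute.all (q x) (q y)) hx hy
    have h1 : q ((x - y) ^ (2 * j + 1) * (x + y) ^ (2 * 0)) = (q x - q y) ^ (2 * j + 1) := by
      rw [mul_zero, pow_zero, mul_one, map_pow, map_sub]
    have h2 : q (KK 0 j • WW x y j) = ((-1) ^ j * ((2 * j + 1).choose j : ℤ)) •
        (q x ^ (j + 1) * q y ^ j - q x ^ j * q y ^ (j + 1)) := by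
      rw [Algebra.smul_def, map_mul, KK_zero, WW, map_sub q, map_mul q (x ^ (j + 1)),
        map_mul q (x ^ j), map_pow q x, map_pow q x, map_pow q y, map_pow q y, zsmul_eq_mul]
      congr 1
      push_cast
      simp
    rw [h1, h2, h]
  | succ i ih =>
    intro j
    have h1 := ih (j + 1)
    have h2 := mem_aux (ih j)
    have e1 : i + (j + 1) + 2 = i + 1 + j + 2 := by ring
    have e2 : i + j + 2 + 1 = i + 1 + j + 2 := by ring
    rw [e1] at h1
    rw [e2] at h2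
    have h3 := Ideal.add_mem _ h1 (Ideal.mul_mem_left _ (4 : R) h2)
    have e3 : i + (j + 1) = i + j + 1 := by ring
    have e4 : i + 1 + j = i + j + 1 := by ring
    have h4 : (x - y) ^ (2 * j + 1) * (x + y) ^ (2 * (i + 1)) - KK (i + 1) j • WW x y (i + 1 + j) =
        (x - y) ^ (2 * (j + 1) + 1) * (x + y) ^ (2 * i) - KK i (j + 1) • WW x y (i + (j + 1)) +
        4 * (x * y * ((x - y) ^ (2 * j + 1) * (x + y) ^ (2 * i) - KK i j • WW x y (i + j))) := by
      rw [KK_succ, e3, e4, add_smul, mul_smul]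
      have h5 : (4 : ℝ) • KK i j • WW x y (i + j + 1) =
          4 * (x * y * (KK i j • WW x y (i + j))) := by
        rw [Algebra.smul_def (4 : ℝ), Algebra.smul_def, Algebra.smul_def, map_ofNat, WW, WW]
        ring
      rw [h5]
      have e5 : 2 * (j + 1) + 1 = (2 * j + 1) + 2 := by ring
      have e6 : 2 * (i + 1) = 2 * i + 2 := by ring
      rw [e5, e6, pow_add (x - y), pow_add (x + y)]
      ring
    rw [h4]
    exact h3

theorem key {x y : R} {n : ℕ} (hx : x ^ (n + 2) = 0) (hy : y ^ (n + 2) = 0) {i j : ℕ}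
    (hij : i + j = n) :
    (x - y) ^ (2 * j + 1) * (x + y) ^ (2 * i) = KK i j • WW x y n := by
  have h := key_mem x y i j
  rw [hij, hx, hy, Set.pair_eq_singleton, Ideal.mem_span_singleton, zero_dvd_iff] at h
  exact sub_eq_zero.1 h

/-- vanishing above the socle degree -/
theorem van_exact {x y : R} {n : ℕ} (hx : x ^ (n + 2) = 0) (hy : y ^ (n + 2) = 0) {i j : ℕ}
    (hij : i + j = n) : (x - y) ^ (2 * j + 1) * (x + y) ^ (2 * i + 1) = 0 := by
  rw [pow_succ (x + y), ← mul_assoc, key hx hy hij, WW, smul_mul_assoc]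
  have : (x ^ (n + 1) * y ^ n - x ^ n * y ^ (n + 1)) * (x + y) =
      x ^ (n + 2) * y ^ n - x ^ n * y ^ (n + 2) := by ring
  rw [this, hx, hy, zero_mul, mul_zero, sub_zero, smul_zero]

theorem van {x y : R} {n : ℕ} (hx : x ^ (n + 2) = 0) (hy : y ^ (n + 2) = 0) {p q : ℕ}
    (hpq : 2 * n + 1 ≤ 2 * q + p) : (x - y) ^ (2 * q + 1) * (x + y) ^ p = 0 := by
  have main : ∀ q p, 2 * q + p = 2 * n + 1 → (x - y) ^ (2 * q + 1) * (x + y) ^ p = 0 := by
    intro q p h
    obtain ⟨i, rfl⟩ : ∃ i, p = 2 * i + 1 := ⟨n - q, by omega⟩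
    exact van_exact hx hy (by omega)
  by_cases h1 : 2 * n + 1 ≤ p + 2 * min q n
  · -- lower the exponents
    have h2 : ∃ q' p', q' ≤ q ∧ p' ≤ p ∧ 2 * q' + p' = 2 * n + 1 :=
      ⟨min q n, 2 * n + 1 - 2 * min q n, min_le_left _ _, by omega, by omega⟩
    obtain ⟨q', p', hq, hp, h3⟩ := h2
    have h4 := main q' p' h3
    have e1 : 2 * q + 1 = (2 * q' + 1) + 2 * (q - q') := by omega
    have e2 : p = p' + (p - p') := by omega
    rw [e1, e2, pow_add (x - y) (2 * q' + 1), pow_add (x + y) p']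
    calc (x - y) ^ (2 * q' + 1) * (x - y) ^ (2 * (q - q')) *
          ((x + y) ^ p' * (x + y) ^ (p - p'))
        = ((x - y) ^ (2 * q' + 1) * (x + y) ^ p') *
          ((x - y) ^ (2 * (q - q')) * (x + y) ^ (p - p')) := by ring
      _ = 0 := by rw [h4, zero_mul]
  · -- then `p = 0` and `q > n`
    have h2 : n < q := by
      by_contra h3
      push Not at h3
      rw [min_eq_left h3] at h1
      omega
    rcases Nat.eq_zero_or_pos p with rfl | hp
    · have h5 : (x - y) ^ (2 * n + 3) = 0 := by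
        have h6 := sub_pow_even (Commute.all x y) (n := n + 1) hx hy
        have h7 := sub_pow_odd (Commute.all x y) hx hy
        have e : 2 * n + 3 = (2 * n + 1) + 2 := by ring
        rw [e, pow_add, h7]
        have h8 : (x ^ (n + 1) * y ^ n - x ^ n * y ^ (n + 1)) * (x - y) ^ 2 =
            x ^ (n + 2) * (x * y ^ n - 3 * y ^ (n + 1)) +
              y ^ (n + 2) * (3 * x ^ (n + 1) - x ^ n * y) := by ring
        rw [smul_mul_assoc, h8, hx, hy, zero_mul, zero_mul, add_zero, smul_zero]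
      have e1 : 2 * q + 1 = (2 * n + 3) + (2 * q - 2 * n - 2) := by omega
      rw [e1, pow_add, h5, zero_mul, zero_mul]
    · have h3 : min q n = n := min_eq_right h2.le
      rw [h3] at h1
      omega

/-- the polynomials of the linear recursion -/
def HH (u v : R) (k : ℕ) : R :=
  ∑ p ∈ antidiagonal k, (p.1.choose p.2 : R) * u ^ (p.1 - p.2) * v ^ p.2

omit [Algebra ℝ R] in
theorem HH_zero (u v : R) : HH u v 0 = 1 := by simp [HH]

omit [Algebra ℝ R] in
theorem HH_one (u v : R) : HH u v 1 = u := by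
  simp [HH, Nat.antidiagonal_succ]

omit [Algebra ℝ R] in
theorem HH_step (u v : R) (i j : ℕ) :
    (((i + 1).choose (j + 1) : ℕ) : R) * u ^ ((i + 1) - (j + 1)) * v ^ (j + 1) =
      u * ((i.choose (j + 1) : R) * u ^ (i - (j + 1)) * v ^ (j + 1)) +
        v * ((i.choose j : R) * u ^ (i - j) * v ^ j) := by
  rw [Nat.choose_succ_succ, Nat.add_sub_add_right, Nat.cast_add]
  rcases Nat.lt_or_ge i (j + 1) with h | h
  · rw [Nat.choose_eq_zero_of_lt h, Nat.cast_zero, pow_succ]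
    ring
  · have e : i - j = (i - (j + 1)) + 1 := by omega
    rw [e, pow_succ, pow_succ]
    ring

omit [Algebra ℝ R] in
theorem HH_succ (u v : R) (k : ℕ) : HH u v (k + 2) = u * HH u v (k + 1) + v * HH u v k := by
  have h1 : HH u v (k + 1) = u ^ (k + 1) + ∑ p ∈ antidiagonal k,
      ((p.1.choose (p.2 + 1) : ℕ) : R) * u ^ (p.1 - (p.2 + 1)) * v ^ (p.2 + 1) := by
    rw [HH, Nat.antidiagonal_succ', sum_cons, sum_map]
    simp
  have h2 : HH u v (k + 2) = u ^ (k + 2) + ∑ p ∈ antidiagonal k,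
      (((p.1 + 1).choose (p.2 + 1) : ℕ) : R) * u ^ ((p.1 + 1) - (p.2 + 1)) * v ^ (p.2 + 1) := by
    rw [HH, Nat.antidiagonal_succ_succ', sum_cons, sum_cons, sum_map]
    simp
  rw [h2, sum_congr rfl fun p _ => HH_step u v p.1 p.2, sum_add_distrib, ← mul_sum, ← mul_sum, h1,
    HH]
  ring

omit [Algebra ℝ R] in
theorem HH_even (u v : R) (n : ℕ) : HH u v (2 * n) = ∑ q ∈ antidiagonal n,
    (((2 * q.1 + q.2).choose q.2 : ℕ) : R) * u ^ (2 * q.1) * v ^ q.2 := by
  rw [HH]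
  symm
  refine Finset.sum_of_injOn (fun q : ℕ × ℕ => (2 * q.1 + q.2, q.2)) ?_ ?_ ?_ ?_
  · rintro ⟨i, j⟩ _ ⟨i', j'⟩ _ h
    rw [Prod.mk.injEq] at h
    rw [Prod.mk.injEq]
    omega
  · rintro ⟨i, j⟩ h
    rw [mem_coe, HasAntidiagonal.mem_antidiagonal] at h ⊢
    dsimp only at h ⊢
    omega
  · rintro ⟨i, j⟩ h h'
    rw [HasAntidiagonal.mem_antidiagonal] at h
    dsimp only at h ⊢
    rw [Nat.choose_eq_zero_of_lt, Nat.cast_zero, zero_mul, zero_mul]
    by_contra h2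
    refine h' ⟨(n - j, j), ?_, ?_⟩
    · rw [mem_coe, HasAntidiagonal.mem_antidiagonal]
      dsimp only
      omega
    · rw [Prod.mk.injEq]
      dsimp only
      omega
  · rintro ⟨i, j⟩ h
    dsimp only
    have e : 2 * i + j - j = 2 * i := by omega
    rw [e]

theorem van_HH {x y : R} {n : ℕ} (hx : x ^ (n + 2) = 0) (hy : y ^ (n + 2) = 0) (α β : ℝ)
    {r t k : ℕ} (h : 2 * n + 1 ≤ r + 2 * t + k) :
    (x - y) ^ (2 * t + 1) * (x + y) ^ r * HH (α • (x + y)) (β • (x - y) ^ 2) k = 0 := by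
  rw [HH, mul_sum]
  refine sum_eq_zero fun p hp => ?_
  rw [HasAntidiagonal.mem_antidiagonal] at hp
  rcases Nat.lt_or_ge p.1 p.2 with h1 | h1
  · rw [Nat.choose_eq_zero_of_lt h1, Nat.cast_zero, zero_mul, zero_mul, mul_zero]
  · have h2 := van hx hy (p := r + (p.1 - p.2)) (q := t + p.2) (by omega)
    rw [_root_.smul_pow, _root_.smul_pow, ← pow_mul, Algebra.smul_def, Algebra.smul_def]
    have e1 : 2 * (t + p.2) + 1 = (2 * t + 1) + 2 * p.2 := by ring
    rw [e1, pow_add (x - y), pow_add (x + y)] at h2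
    calc _ = ((p.1.choose p.2 : ℕ) : R) * (algebraMap ℝ R) (α ^ (p.1 - p.2)) *
          (algebraMap ℝ R) (β ^ p.2) * ((x - y) ^ (2 * t + 1) * (x - y) ^ (2 * p.2) *
            ((x + y) ^ r * (x + y) ^ (p.1 - p.2))) := by ring
      _ = 0 := by rw [h2, mul_zero]

/-- the sum over the antidiagonal -/
noncomputable def cs (n : ℕ) (α β : ℝ) : ℝ :=
  ∑ q ∈ antidiagonal n, ((2 * q.1 + q.2).choose q.2 : ℝ) * α ^ (2 * q.1) * β ^ q.2 * KK q.1 q.2

theorem sub_mul_HH {x y : R} {n : ℕ} (hx : x ^ (n + 2) = 0) (hy : y ^ (n + 2) = 0) (α β : ℝ) :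
    (x - y) * HH (α • (x + y)) (β • (x - y) ^ 2) (2 * n) = cs n α β • WW x y n := by
  rw [HH_even, mul_sum, cs, sum_smul]
  refine sum_congr rfl fun q hq => ?_
  rw [HasAntidiagonal.mem_antidiagonal] at hq
  have h := key hx hy hq
  rw [_root_.smul_pow, _root_.smul_pow, ← pow_mul, Algebra.smul_def, Algebra.smul_def,
    Algebra.smul_def]
  rw [Algebra.smul_def, pow_succ] at h
  rw [map_mul, map_mul, map_mul, mul_assoc _ _ (WW x y n), ← h, map_natCast]
  ring

/-- the case `m = 4` -/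
theorem top4 {e b x y : R} {n : ℕ} (hx : x ^ (n + 2) = 0) (hy : y ^ (n + 2) = 0)
    (hxy : x - y = e * b) {a μ : ℝ} (ha : a ≠ 0) (hb : b ^ 2 = a • e ^ 2 + μ • (x + y)) :
    e ^ (4 * n + 3) * b = (a⁻¹ * cs n (μ / a) a⁻¹) • (b ^ 2 * WW x y n) := by
  set u : R := (-(μ / a)) • (x + y) with hu
  set v : R := a⁻¹ • (x - y) ^ 2 with hv
  have hA : algebraMap ℝ R a⁻¹ * algebraMap ℝ R a = 1 := by
    rw [← map_mul, inv_mul_cancel₀ ha, map_one]
  have hb' : b ^ 2 = algebraMap ℝ R a * e ^ 2 + algebraMap ℝ R μ * (x + y) := by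
    rw [hb, Algebra.smul_def, Algebra.smul_def]
  have hu' : u = -(algebraMap ℝ R μ * algebraMap ℝ R a⁻¹) * (x + y) := by
    rw [hu, Algebra.smul_def, div_eq_mul_inv, map_neg, map_mul]
  have hv' : v = algebraMap ℝ R a⁻¹ * (e * b) ^ 2 := by
    rw [hv, Algebra.smul_def, hxy]
  have hz : ∀ k, e ^ (2 * (k + 2) + 1) * b =
      u * (e ^ (2 * (k + 1) + 1) * b) + v * (e ^ (2 * k + 1) * b) := by
    intro k
    rw [hu', hv']
    have h1 : e ^ (2 * (k + 1) + 1) * b * b ^ 2 = e ^ (2 * (k + 1) + 1) * b *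
        (algebraMap ℝ R a * e ^ 2 + algebraMap ℝ R μ * (x + y)) := by rw [hb']
    have e1 : 2 * (k + 2) + 1 = (2 * k + 1) + 4 := by ring
    have e2 : 2 * (k + 1) + 1 = (2 * k + 1) + 2 := by ring
    rw [e2, pow_add] at h1
    rw [e1, e2, pow_add, pow_add]
    linear_combination (-(e ^ (2 * k + 1) * e ^ 4 * b)) * hA - algebraMap ℝ R a⁻¹ * h1
  have hrec : ∀ k, e ^ (2 * (k + 2) + 1) * b =
      HH u v (k + 1) * (e ^ 3 * b) + v * HH u v k * (e * b) ∧ e ^ (2 * (k + 3) + 1) * b =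
      HH u v (k + 2) * (e ^ 3 * b) + v * HH u v (k + 1) * (e * b) := by
    intro k
    induction k with
    | zero =>
      have h2 := hz 0
      have h3 := hz 1
      simp only [zero_add, mul_zero, mul_one, pow_one] at h2 h3 ⊢
      norm_num at h2 h3 ⊢
      refine ⟨?_, ?_⟩
      · rw [h2, HH_one, HH_zero, mul_one]
      · rw [h3, h2, HH_succ, HH_one, HH_zero]
        ring
    | succ k ih =>
      refine ⟨ih.2, ?_⟩
      have h3 := hz (k + 2)
      have e1 : 2 * (k + 2 + 2) + 1 = 2 * (k + 1 + 3) + 1 := by ring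
      have e2 : 2 * (k + 2 + 1) + 1 = 2 * (k + 3) + 1 := by ring
      rw [e1, e2, ih.1, ih.2] at h3
      have e3 : k + 1 + 2 = (k + 1) + 2 := rfl
      rw [h3, HH_succ u v (k + 1), HH_succ u v k]
      ring
  have hmain : e ^ (4 * n + 3) * b = HH u v (2 * n) * (e ^ 3 * b) := by
    rcases n with _ | n
    · simp [HH_zero]
    · have h1 := (hrec (2 * n)).2
      have e1 : 2 * (2 * n + 3) + 1 = 4 * (n + 1) + 3 := by ring
      have e2 : 2 * (n + 1) = 2 * n + 2 := by ring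
      rw [e1] at h1
      rw [h1, e2]
      have h2 := van_HH hx hy (-(μ / a)) a⁻¹ (r := 0) (t := 1) (k := 2 * n + 1) (by omega)
      rw [← hu, ← hv, pow_zero, mul_one] at h2
      have h3 : v * HH u v (2 * n + 1) * (e * b) =
          algebraMap ℝ R a⁻¹ * ((x - y) ^ (2 * 1 + 1) * HH u v (2 * n + 1)) := by
        rw [hv', hxy]
        ring
      rw [h3, h2, mul_zero, add_zero]
  have h4 := van_HH hx hy (-(μ / a)) a⁻¹ (r := 1) (t := 0) (k := 2 * n) (by omega)
  rw [← hu, ← hv, mul_zero, zero_add, pow_one, pow_one] at h4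
  have h5 := sub_mul_HH hx hy (-(μ / a)) a⁻¹
  rw [← hu, ← hv] at h5
  have h6 : cs n (-(μ / a)) a⁻¹ = cs n (μ / a) a⁻¹ := by
    rw [cs, cs]
    refine sum_congr rfl fun q _ => ?_
    rw [pow_mul, neg_sq, ← pow_mul]
  rw [h6] at h5
  rw [hmain, mul_smul, ← mul_smul_comm, ← h5, Algebra.smul_def]
  have h7 : b * b ^ 2 = b * (algebraMap ℝ R a * e ^ 2 + algebraMap ℝ R μ * (x + y)) := by
    rw [hb']
  linear_combination (-(e ^ 3 * b * HH u v (2 * n))) * hA -
    algebraMap ℝ R a⁻¹ * e * HH u v (2 * n) * h7 - algebraMap ℝ R a⁻¹ * algebraMap ℝ R μ * h4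
      - (algebraMap ℝ R a⁻¹ * b ^ 2 * HH u v (2 * n) - algebraMap ℝ R a⁻¹ * algebraMap ℝ R μ *
        (x + y) * HH u v (2 * n)) * hxy

/-- the case `m = 8`, `n = 2` -/
theorem top8 {e b x y : R} (hx : x ^ 3 = 0) (hy : y ^ 3 = 0)
    (hxy : x - y = e * b) {a μ : ℝ} (ha : a ≠ 0)
    (hb : b ^ 2 = a • e ^ 6 + μ • (e ^ 2 * (x + y))) :
    e ^ 15 * b = (-3 / a ^ 2 + μ ^ 2 / a ^ 3) • (b ^ 2 * WW x y 1) := by
  have hA : algebraMap ℝ R a⁻¹ * algebraMap ℝ R a = 1 := by
    rw [← map_mul, inv_mul_cancel₀ ha, map_one]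
  have hb' : b ^ 2 = algebraMap ℝ R a * e ^ 6 + algebraMap ℝ R μ * (e ^ 2 * (x + y)) := by
    rw [hb, Algebra.smul_def, Algebra.smul_def]
  set A := algebraMap ℝ R a
  set c := algebraMap ℝ R a⁻¹ with hc
  set m := algebraMap ℝ R μ with hm
  have h3 : algebraMap ℝ R 3 = 3 := map_ofNat _ 3
  have hcoef : algebraMap ℝ R (-3 / a ^ 2 + μ ^ 2 / a ^ 3) = -3 * c ^ 2 + m ^ 2 * c ^ 3 := by
    have : -3 / a ^ 2 + μ ^ 2 / a ^ 3 = -3 * a⁻¹ ^ 2 + μ ^ 2 * a⁻¹ ^ 3 := by
      field_simp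
    rw [this, map_add, map_mul, map_mul, map_pow, map_pow, map_pow, map_neg, h3]
  rw [Algebra.smul_def, hcoef, WW]
  -- one step of the reduction
  have step : ∀ k, e ^ (k + 7) * b = c * (e ^ (k + 1) * b ^ 3) - c * m * (x + y) *
      (e ^ (k + 3) * b) := by
    intro k
    have h1 : e ^ (k + 1) * b * b ^ 2 = e ^ (k + 1) * b *
        (A * e ^ 6 + m * (e ^ 2 * (x + y))) := by rw [hb']
    have e1 : k + 7 = (k + 1) + 6 := by ring
    have e2 : k + 3 = (k + 1) + 2 := by ring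
    rw [e1, e2, pow_add e (k + 1) 6, pow_add e (k + 1) 2]
    linear_combination (-(e ^ (k + 1) * e ^ 6 * b)) * hA - c * h1
  have s15 := step 8
  have s11 := step 4
  have s7 := step 0
  norm_num at s15 s11 s7
  have hv3 : (x - y) ^ 3 * (x + y) = 0 := by
    have := van (n := 1) hx hy (q := 1) (p := 1) (by norm_num)
    rw [pow_one] at this
    exact this
  have hv1 : (x - y) * (x + y) ^ 3 = 0 := by
    have := van (n := 1) hx hy (q := 0) (p := 3) (by norm_num)
    rw [mul_zero, zero_add, pow_one] at this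
    exact this
  have hk0 : (x - y) * (x + y) ^ 2 = x ^ 2 * y - x * y ^ 2 := by
    have : (x - y) * (x + y) ^ 2 = x ^ 3 - y ^ 3 + (x ^ 2 * y - x * y ^ 2) := by ring
    rw [this, hx, hy]
    ring
  have hk1 : (x - y) ^ 3 = -3 * (x ^ 2 * y - x * y ^ 2) := by
    have : (x - y) ^ 3 = x ^ 3 - y ^ 3 + -3 * (x ^ 2 * y - x * y ^ 2) := by ring
    rw [this, hx, hy]
    ring
  have h1 : x ^ (1 + 1) * y ^ 1 - x ^ 1 * y ^ (1 + 1) = x ^ 2 * y - x * y ^ 2 := by ring
  rw [h1]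
  rw [hxy] at hv3 hv1 hk0 hk1
  linear_combination s15 + c * (e * b) ^ 2 * s7 - c * m * (x + y) * s11 +
    c ^ 2 * m ^ 2 * (x + y) ^ 2 * s7 + c ^ 2 * b ^ 2 * hk1 - 2 * c ^ 2 * m * e ^ 2 * hv3 +
    c ^ 3 * m ^ 2 * b ^ 2 * hk0 - c ^ 3 * m ^ 3 * e ^ 2 * hv1

end Ring

end Vale.Agent.P231.H584
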