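import Vale.Agent.P231.H584.Formal
import Vale.Agent.P231.H584.Alg2

/-!
# P231, Phi-side of stages 2 and 3: the ring of closed even basic forms modulo exact ones
-/

set_option linter.unusedSectionVars false
set_option linter.unusedVariables false

open MeasureTheory Set Module Filter Topology
open scoped ContDiff

namespace Vale.Agent.P231.H584

open Fm W

section Gy

variable {X : Type*} {D : Dif X} {T : ℝ} {Φ : X × ℝ → X} (h : IsFlow D T Φ) {α : Form D}

/-- the averaging formula, on the level of forms: Gysin relation -/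
theorem gysin (hα : Form.pull Φ h.map α = pr α + dt) (hαo : α.sg = -α) {τ : Form D}
    (hτ : Basic Φ h.map τ.d) : ∃ X : Form D,
      T • τ + X.d = J Φ h.map T (α * τ) + α * J Φ h.map T τ := by
  have hW : (Form.pull Φ h.map τ).d = pr τ.d := by rw [← Form.pull_d, hτ]
  have h1 := Pm_d hW
  rw [flow_at_zero h] at h1
  have h2 : Form.pull Φ h.map τ = pr τ + (Pm (Form.pull Φ h.map τ)).d := by rw [h1]; abel
  set P := Pm (Form.pull Φ h.map τ) with hP
  have h3 : (dt * P).d = -(dt * P.d) := by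
    rw [Form.d_mul, dt_d, zero_mul, zero_add, dt_sg, neg_mul]
  have h4 := KT_homotopy T (dt * P)
  rw [at_mul, at_mul, at_dt, at_dt, zero_mul, zero_mul, sub_zero, h3, KT_neg] at h4
  have h5 : KT T (dt * P.d) = (KT T (dt * P)).d := by
    have := eq_neg_of_add_eq_zero_left h4.symm
    exact neg_injective this
  have h6 : KT T (dt * Form.pull Φ h.map τ) = T • τ + (KT T (dt * P)).d := by
    rw [h2, mul_add, KT_add, KT_dt_mul_pr, h5]
  have h7 : (dt : Form (D.prod (Dif.lin ℝ))) = Form.pull Φ h.map α - pr α := by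
    rw [hα]; abel
  have h8 : KT T (dt * Form.pull Φ h.map τ) = J Φ h.map T (α * τ) + α * J Φ h.map T τ := by
    have h9 : Form.pull Φ h.map α * Form.pull Φ h.map τ = Form.pull Φ h.map (α * τ) :=
      (map_mul (Form.pullA Φ h.map) α τ).symm
    rw [h7, sub_mul, KT_sub, h9, KT_pr_mul, hαo, neg_mul, sub_neg_eq_add]
    rfl
  exact ⟨_, h6.symm.trans h8⟩

/-- the Gysin relation: if `τ.d` is basic then `T τ.d = α.d J τ` modulo differentials of basic
forms -/
theorem gysin_d (hα : Form.pull Φ h.map α = pr α + dt) (hαo : α.sg = -α) {τ : Form D}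
    (hτ : Basic Φ h.map τ.d) :
    T • τ.d = α.d * J Φ h.map T τ + (J Φ h.map T (α * τ)).d := by
  obtain ⟨X, hX⟩ := gysin h hα hαo hτ
  have h1 := congrArg Form.d hX
  have h2 : (J Φ h.map T τ).d = 0 := by
    have h3 := J_d h τ
    rw [J_of_basic T hτ] at h3
    exact (neg_eq_zero.1 h3.symm)
  rw [Form.d_add, Form.d_d, add_zero, Form.d_smul, Form.d_add, Form.d_mul, h2, mul_zero,
    add_zero] at h1
  rw [h1]
  abel

end Gy

section Ring

variable {X : Type*} {D : Dif X} (Φ : X × ℝ → X) (hΦ : (D.prod (Dif.lin ℝ)).Map D Φ)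

/-- the algebra of closed, even, basic forms -/
def Bas : Subalgebra ℝ (Form D) where
  carrier := {w | w.sg = w ∧ w.d = 0 ∧ Basic Φ hΦ w}
  mul_mem' := fun {a b} ha hb => ⟨mul_even ha.1 hb.1, mul_closed ha.2.1 hb.2.1,
    Basic.mul ha.2.2 hb.2.2⟩
  add_mem' := fun {a b} ha hb => ⟨by rw [Form.sg_add, ha.1, hb.1], by
    rw [Form.d_add, ha.2.1, hb.2.1, add_zero], Basic.add ha.2.2 hb.2.2⟩
  algebraMap_mem' := fun r => by
    rw [Algebra.algebraMap_eq_smul_one]
    exact ⟨by rw [Form.sg_smul, Form.sg_one], by rw [Form.d_smul, Form.d_one, smul_zero],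
      Basic.smul r Basic.one⟩

noncomputable instance : CommRing (Bas Φ hΦ) :=
  { (Bas Φ hΦ).toRing with
    mul_comm := fun a b => Subtype.ext (even_comm a.2.1 b.1).eq }

/-- the ideal of the differentials of basic forms -/
def Exa : Ideal (Bas Φ hΦ) where
  carrier := {w | ∃ u : Form D, Basic Φ hΦ u ∧ (w : Form D) = u.d}
  zero_mem' := ⟨0, Basic.zero, by rw [Form.d_zero]; rfl⟩
  add_mem' := fun {a b} ha hb => by
    obtain ⟨u, hu, hu'⟩ := ha
    obtain ⟨v, hv, hv'⟩ := hb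
    exact ⟨u + v, Basic.add hu hv, by rw [Form.d_add, ← hu', ← hv']; rfl⟩
  smul_mem' := fun c a ha => by
    obtain ⟨u, hu, hu'⟩ := ha
    refine ⟨c.1 * u, Basic.mul c.2.2.2 hu, ?_⟩
    have h1 : ((c • a : Bas Φ hΦ) : Form D) = c.1 * a.1 := rfl
    rw [h1, Form.d_mul, c.2.2.1, zero_mul, zero_add, c.2.1, ← hu']

/-- equality in the quotient -/
theorem quot_eq {a b : Bas Φ hΦ} (h : Ideal.Quotient.mk (Exa Φ hΦ) a =
    Ideal.Quotient.mk (Exa Φ hΦ) b) : ∃ u : Form D, Basic Φ hΦ u ∧ (a : Form D) = b + u.d := by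
  rw [Ideal.Quotient.eq] at h
  obtain ⟨u, hu, hu'⟩ := h
  have h1 : ((a - b : Bas Φ hΦ) : Form D) = a.1 - b.1 := rfl
  exact ⟨u, hu, by rw [← hu', h1]; abel⟩

theorem eq_quot {a b : Bas Φ hΦ} {u : Form D} (hu : Basic Φ hΦ u)
    (h : (a : Form D) = b + u.d) : Ideal.Quotient.mk (Exa Φ hΦ) a =
    Ideal.Quotient.mk (Exa Φ hΦ) b := by
  rw [Ideal.Quotient.eq]
  refine ⟨u, hu, ?_⟩
  have h1 : ((a - b : Bas Φ hΦ) : Form D) = a.1 - b.1 := rfl
  rw [h1, h]
  abel

end Ring

end Vale.Agent.P231.H584
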