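import Vale.Agent.P231.W.Abs

/-!
# P231, block A: algebraic identities for commuting elements of a ring
-/

open Finset

namespace Vale.Agent.P231.H584

open W

variable {R : Type*} [Ring R]

theorem hh_zero (a b : R) : hh 0 a b = 1 := by simp [hh]

theorem hh_succ {a b : R} (n : ℕ) : hh (n + 1) a b = a * hh n a b + b ^ (n + 1) := by
  rw [hh, hh, sum_range_succ', mul_sum]
  congr 1
  · refine sum_congr rfl fun i _ => ?_
    rw [pow_succ', mul_assoc, Nat.add_sub_add_right]
  · simp

theorem hh_symm {a b : R} (h : Commute a b) (n : ℕ) : hh n a b = hh n b a := by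
  rw [hh, hh, ← sum_range_reflect]
  refine sum_congr rfl fun i hi => ?_
  have hi' : i ≤ n := Nat.lt_succ_iff.1 (mem_range.1 hi)
  have h1 : n + 1 - 1 - i = n - i := by omega
  have h2 : n - (n + 1 - 1 - i) = i := by omega
  rw [h1] at *
  rw [h2]
  exact (h.pow_pow _ _).eq

theorem Commute.hh_right {a b c : R} (h : Commute a b) (h' : Commute a c) (n : ℕ) :
    Commute a (hh n b c) := by
  rw [hh]
  exact Commute.sum_right _ _ _ fun i _ => (h.pow_right _).mul_right (h'.pow_right _)

theorem sub_mul_hh {a b : R} (h : Commute a b) (n : ℕ) :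
    (a - b) * hh n a b = a ^ (n + 1) - b ^ (n + 1) := by
  have := h.mul_geom_sum₂ (n + 1)
  rw [← this]
  rfl

/-- the complete homogeneous polynomial in three variables, shifted by one -/
def g3 (a b c : R) : ℕ → R
  | 0 => 0
  | n + 1 => a * g3 a b c n + hh n b c

theorem hh_sub_right {a b c : R} (hab : Commute a b) (hac : Commute a c) (hbc : Commute b c)
    (n : ℕ) : hh n a c - hh n a b = (c - b) * g3 a b c n := by
  induction n with
  | zero => simp [g3, hh_zero]
  | succ n ih =>
    have h1 : (c - b) * hh n b c = c ^ (n + 1) - b ^ (n + 1) := by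
      rw [hh_symm hbc]; exact sub_mul_hh hbc.symm n
    have h2 : Commute a (c - b) := hac.sub_right hab
    rw [hh_succ, hh_succ, g3, mul_add, h1, ← mul_assoc, ← h2.eq, mul_assoc, ← ih]
    noncomm_ring

theorem hh_sub_left {a b c : R} (hab : Commute a b) (n : ℕ) : hh n a c - hh n b c = (a - b) * g3 a b c n := by
  induction n with
  | zero => simp [g3, hh_zero]
  | succ n ih =>
    have h2 : Commute a (a - b) := (Commute.refl a).sub_right hab
    rw [hh_succ, hh_succ, g3, mul_add, ← mul_assoc, ← h2.eq, mul_assoc, ← ih]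
    noncomm_ring

/-- `a^n h_n(b, a) = a^n b^n` if `a^(n+1) = 0` -/
theorem pow_mul_hh {a b : R} (h : Commute a b) {n : ℕ} (ha : a ^ (n + 1) = 0) :
    a ^ n * hh n b a = a ^ n * b ^ n := by
  rw [hh, mul_sum, sum_eq_single n]
  · simp
  · intro i hi hin
    have hi' : i < n := lt_of_le_of_ne (Nat.lt_succ_iff.1 (mem_range.1 hi)) hin
    have h1 : (a ^ n * (b ^ i * a ^ (n - i))) = b ^ i * (a ^ (n + 1) * a ^ (n - i - 1)) := by
      rw [← mul_assoc, (h.pow_pow n i).eq, mul_assoc, ← pow_add, ← pow_add]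
      congr 2
      omega
    rw [h1, ha, zero_mul, mul_zero]
  · intro hn
    exact absurd (self_mem_range_succ n) hn

theorem pow_eq_zero_of_le' {a : R} {m n : ℕ} (ha : a ^ n = 0) (h : n ≤ m) : a ^ m = 0 := by
  obtain ⟨k, rfl⟩ := Nat.exists_eq_add_of_le h
  rw [pow_add, ha, zero_mul]

/-- the power `2n` of the difference -/
theorem sub_pow_even {a b : R} (h : Commute a b) {n : ℕ} (ha : a ^ (n + 1) = 0)
    (hb : b ^ (n + 1) = 0) :
    (a - b) ^ (2 * n) = ((-1) ^ n * ((2 * n).choose n : ℤ)) • (a ^ n * b ^ n) := by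
  rw [sub_eq_add_neg, (h.neg_right).add_pow, sum_eq_single n]
  · have h1 : 2 * n - n = n := by omega
    rw [h1, neg_pow, zsmul_eq_mul, Int.cast_mul, Int.cast_pow]
    push_cast
    have h2 : Commute ((-1 : R) ^ n) (a ^ n) := ((Commute.neg_one_left a).pow_pow n n)
    rw [← mul_assoc, ← h2.eq]
    have h3 : Commute (((2 * n).choose n : ℕ) : R) ((-1) ^ n * a ^ n * b ^ n) :=
      Nat.cast_commute _ _
    rw [← h3.eq, ← mul_assoc, ← mul_assoc, ← mul_assoc]
    congr 2
    exact (Nat.cast_commute _ _).eq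
  · intro m hm hmn
    rcases Nat.lt_or_gt_of_ne hmn with hlt | hlt
    · have : (-b) ^ (2 * n - m) = 0 := by
        rw [neg_pow, pow_eq_zero_of_le' hb (by omega), mul_zero]
      rw [this, mul_zero, zero_mul]
    · rw [pow_eq_zero_of_le' ha (by omega : n + 1 ≤ m), zero_mul, zero_mul]
  · intro hn
    exact absurd (mem_range.2 (by omega)) hn

/-- the power `2n - 1` of the difference -/
theorem sub_pow_odd {a b : R} (h : Commute a b) {n : ℕ} (ha : a ^ (n + 2) = 0)
    (hb : b ^ (n + 2) = 0) :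
    (a - b) ^ (2 * n + 1) = ((-1) ^ n * ((2 * n + 1).choose n : ℤ)) •
      (a ^ (n + 1) * b ^ n - a ^ n * b ^ (n + 1)) := by
  rw [sub_eq_add_neg, (h.neg_right).add_pow]
  have hsub : ({n, n + 1} : Finset ℕ) ⊆ range (2 * n + 1 + 1) := by
    intro i hi
    rw [mem_insert, mem_singleton] at hi
    rw [mem_range]
    omega
  rw [← sum_subset hsub, sum_pair (by omega)]
  · have h1 : 2 * n + 1 - n = n + 1 := by omega
    have h2 : 2 * n + 1 - (n + 1) = n := by omega
    have h3 : (2 * n + 1).choose (n + 1) = (2 * n + 1).choose n := by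
      rw [← Nat.choose_symm_of_eq_add (show 2 * n + 1 = n + (n + 1) by omega)]
    rw [h1, h2, h3, neg_pow b, neg_pow b, zsmul_eq_mul, Int.cast_mul, Int.cast_pow]
    push_cast
    have c1 : ∀ x : R, Commute ((-1 : R) ^ n) x := fun x => (Commute.neg_one_left x).pow_left n
    have c2 : ∀ x : R, Commute (((2 * n + 1).choose n : ℕ) : R) x := fun x =>
      Nat.cast_commute _ _
    have e1 : a ^ n * ((-1) ^ (n + 1) * b ^ (n + 1)) = (-1) ^ n * (-(a ^ n * b ^ (n + 1))) := by
      rw [pow_succ (-1 : R) n, ← mul_assoc, ← mul_assoc, ← (c1 _).eq]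
      noncomm_ring
    have e2 : a ^ (n + 1) * ((-1) ^ n * b ^ n) = (-1) ^ n * (a ^ (n + 1) * b ^ n) := by
      rw [← mul_assoc, ← (c1 _).eq, mul_assoc]
    rw [e1, e2, ← (c2 _).eq, ← (c2 _).eq, ← mul_add, ← mul_add, ← mul_assoc, (c2 _).eq]
    congr 1
    abel
  · intro m hm hmn
    rw [mem_insert, mem_singleton] at hmn
    rcases Nat.lt_or_ge m n with hlt | hge
    · have : (-b) ^ (2 * n + 1 - m) = 0 := by
        rw [neg_pow, pow_eq_zero_of_le' hb (by omega), mul_zero]
      rw [this, mul_zero, zero_mul]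
    · have h4 : n + 2 ≤ m := by omega
      rw [pow_eq_zero_of_le' ha h4, zero_mul, zero_mul]

end Vale.Agent.P231.H584
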