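import Vale.Agent.P231.H584.Ops
import Vale.Agent.P231.H584.Alg

/-!
# P231, block A, part 2: integration over the orbits of a periodic flow
-/

set_option linter.unusedSectionVars false
set_option linter.unusedVariables false

open MeasureTheory Set Module Filter Topology
open scoped ContDiff

namespace Vale.Agent.P231.H584

open Fm W

variable {X Y Z : Type*} {D : Dif X} {D' : Dif Y} {D'' : Dif Z}

theorem basic_def (Φ : X × ℝ → X) (hΦ : (D.prod (Dif.lin ℝ)).Map D Φ) (w : Form D) :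
    Basic Φ hΦ w = (Form.pull Φ hΦ w = pr w) := rfl

theorem J_def (Φ : X × ℝ → X) (hΦ : (D.prod (Dif.lin ℝ)).Map D Φ) (c : ℝ) (w : Form D) :
    J Φ hΦ c w = KT c (Form.pull Φ hΦ w) := rfl

/-! ### the operator `KT` -/

theorem K_sg (w : Form (D.prod (Dif.lin ℝ))) : (Form.K w).sg = -Form.K w.sg :=
  Form.ext_val fun E _ _ _ u x h => by
    rw [Form.sg_val, Form.neg_val, K_val' _ h, K_val' _ h, ← intervalIntegral.integral_neg]
    have h1 := ContinuousLinearMap.intervalIntegral_comp_comm (invL (E := E))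
      ((continuous_co w h).intervalIntegrable (μ := volume) 0 1)
    refine Eq.trans h1.symm ?_
    refine intervalIntegral.integral_congr fun t _ => ?_
    change inv (at1 _) = -at1 _
    rw [at1_apply, at1_apply, at0_apply, at0_apply, ← pull_inv, inv_iprod, map_neg]
    rfl

theorem KT_sg (c : ℝ) (w : Form (D.prod (Dif.lin ℝ))) : (KT c w).sg = -KT c w.sg := by
  rw [KT, K_sg, ← Form.pull_sg]
  rfl

theorem KT_add (c : ℝ) (w v : Form (D.prod (Dif.lin ℝ))) : KT c (w + v) = KT c w + KT c v := by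
  rw [KT, KT, KT, ← Form.K_add]
  congr 1
  exact map_add (Form.pullA (fun p : X × ℝ => (p.1, c * p.2)) (map_scale c)) w v

theorem KT_smul (c r : ℝ) (w : Form (D.prod (Dif.lin ℝ))) : KT c (r • w) = r • KT c w := by
  rw [KT, KT, ← Form.K_smul]
  congr 1
  exact map_smul (Form.pullA (fun p : X × ℝ => (p.1, c * p.2)) (map_scale c)) r w

theorem KT_neg (c : ℝ) (w : Form (D.prod (Dif.lin ℝ))) : KT c (-w) = -KT c w := by
  have := KT_smul c (-1) w
  rwa [neg_one_smul, neg_one_smul] at this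

theorem KT_sub (c : ℝ) (w v : Form (D.prod (Dif.lin ℝ))) : KT c (w - v) = KT c w - KT c v := by
  rw [sub_eq_add_neg, KT_add, KT_neg, sub_eq_add_neg]

theorem KT_zero (c : ℝ) : KT c (0 : Form (D.prod (Dif.lin ℝ))) = 0 := by
  have := KT_smul c (0 : ℝ) (0 : Form (D.prod (Dif.lin ℝ)))
  rwa [zero_smul, zero_smul] at this

theorem scale_pr (c : ℝ) (a : Form D) :
    Form.pull (fun p : X × ℝ => (p.1, c * p.2)) (map_scale c) (pr a) = pr a :=
  pull_pull (map_scale c) Dif.map_fst Dif.map_fst (fun _ => rfl) a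

theorem KT_pr (c : ℝ) (a : Form D) : KT c (pr a) = 0 := by
  rw [KT, scale_pr, K_pr]

theorem KT_pr_mul (c : ℝ) (a : Form D) (w : Form (D.prod (Dif.lin ℝ))) :
    KT c (pr a * w) = a.sg * KT c w := by
  rw [KT, KT, ← K_pr_mul]
  congr 1
  refine (map_mul (Form.pullA (fun p : X × ℝ => (p.1, c * p.2)) (map_scale c)) (pr a) w).trans ?_
  exact congrArg (· * _) (scale_pr c a)

theorem KT_mul_pr (c : ℝ) (a : Form D) (w : Form (D.prod (Dif.lin ℝ))) :
    KT c (w * pr a) = KT c w * a := by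
  rw [KT, KT, ← K_mul_pr]
  congr 1
  refine (map_mul (Form.pullA (fun p : X × ℝ => (p.1, c * p.2)) (map_scale c)) w (pr a)).trans ?_
  exact congrArg (_ * ·) (scale_pr c a)

/-- the homotopy formula -/
theorem KT_homotopy (c : ℝ) (w : Form (D.prod (Dif.lin ℝ))) :
    at_ c w - at_ 0 w = KT c w.d + (KT c w).d := by
  have h := homotopy' (Form.pull (fun p : X × ℝ => (p.1, c * p.2)) (map_scale c) w)
  have h1 : at_ 1 (Form.pull (fun p : X × ℝ => (p.1, c * p.2)) (map_scale c) w) = at_ c w :=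
    pull_pull (Form.map_slice 1) (map_scale c) (Form.map_slice c) (fun x => by simp) w
  have h0 : at_ 0 (Form.pull (fun p : X × ℝ => (p.1, c * p.2)) (map_scale c) w) = at_ 0 w :=
    pull_pull (Form.map_slice 0) (map_scale c) (Form.map_slice 0) (fun x => by simp) w
  rw [h1, h0, ← Form.pull_d] at h
  exact h

theorem KT_dt_mul_pr (c : ℝ) (w : Form D) : KT c (dt * pr w) = c • w :=
  Form.ext_val fun E _ _ _ u x h => by
    rw [KT_val _ _ h, Form.smul_val]
    have : ∀ t : ℝ, co (dt * pr w) u x t = w.val u x := fun t => by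
      rw [co, Form.mul_val, pr, Form.fst_val w h t, dt_val h, at1_dtl_mul, at0_fst]
    simp only [this]
    simp

theorem KT_dt (c : ℝ) : KT c (dt (D := D)) = c • 1 := by
  have h := KT_dt_mul_pr c (1 : Form D)
  rwa [pr_one, mul_one] at h

/-! ### basic forms -/

section Basic

variable {Φ : X × ℝ → X} {hΦ : (D.prod (Dif.lin ℝ)).Map D Φ}

theorem Basic.add {a b : Form D} (ha : Basic Φ hΦ a) (hb : Basic Φ hΦ b) :
    Basic Φ hΦ (a + b) := by
  have h := map_add (Form.pullA Φ hΦ) a b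
  change Form.pull Φ hΦ (a + b) = Form.pull Φ hΦ a + Form.pull Φ hΦ b at h
  rw [basic_def, h, pr_add, ha, hb]

theorem Basic.mul {a b : Form D} (ha : Basic Φ hΦ a) (hb : Basic Φ hΦ b) :
    Basic Φ hΦ (a * b) := by
  have h := map_mul (Form.pullA Φ hΦ) a b
  change Form.pull Φ hΦ (a * b) = Form.pull Φ hΦ a * Form.pull Φ hΦ b at h
  rw [basic_def, h, pr_mul, ha, hb]

theorem Basic.one : Basic Φ hΦ (1 : Form D) := by
  have h := map_one (Form.pullA Φ hΦ)
  change Form.pull Φ hΦ (1 : Form D) = 1 at h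
  rw [basic_def, h, pr_one]

theorem Basic.zero : Basic Φ hΦ (0 : Form D) := by
  have h := map_zero (Form.pullA Φ hΦ)
  change Form.pull Φ hΦ (0 : Form D) = 0 at h
  rw [basic_def, h, pr_zero]

theorem Basic.smul (c : ℝ) {a : Form D} (ha : Basic Φ hΦ a) : Basic Φ hΦ (c • a) := by
  have h := map_smul (Form.pullA Φ hΦ) c a
  change Form.pull Φ hΦ (c • a) = c • Form.pull Φ hΦ a at h
  rw [basic_def, h, pr_smul, ha]

theorem Basic.neg {a : Form D} (ha : Basic Φ hΦ a) : Basic Φ hΦ (-a) := by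
  rw [← neg_one_smul ℝ a]
  exact Basic.smul _ ha

theorem Basic.sub {a b : Form D} (ha : Basic Φ hΦ a) (hb : Basic Φ hΦ b) :
    Basic Φ hΦ (a - b) := by
  rw [sub_eq_add_neg]
  exact Basic.add ha (Basic.neg hb)

theorem Basic.pow {a : Form D} (ha : Basic Φ hΦ a) (n : ℕ) : Basic Φ hΦ (a ^ n) := by
  induction n with
  | zero => rw [pow_zero]; exact Basic.one
  | succ n ih => rw [pow_succ]; exact Basic.mul ih ha

theorem Basic.sum {ι : Type*} (s : Finset ι) {a : ι → Form D} (ha : ∀ i ∈ s, Basic Φ hΦ (a i)) :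
    Basic Φ hΦ (∑ i ∈ s, a i) := by
  classical
  induction s using Finset.induction_on with
  | empty => rw [Finset.sum_empty]; exact Basic.zero
  | insert i s hi ih =>
    rw [Finset.sum_insert hi]
    exact Basic.add (ha i (Finset.mem_insert_self _ _))
      (ih fun j hj => ha j (Finset.mem_insert_of_mem hj))

theorem Basic.d {a : Form D} (ha : Basic Φ hΦ a) : Basic Φ hΦ a.d := by
  rw [basic_def, Form.pull_d, ha, pr_d]

theorem Basic.hh {a b : Form D} (ha : Basic Φ hΦ a) (hb : Basic Φ hΦ b) (n : ℕ) :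
    Basic Φ hΦ (W.hh n a b) :=
  Basic.sum _ fun i _ => Basic.mul (Basic.pow ha _) (Basic.pow hb _)

theorem J_of_basic (c : ℝ) {a : Form D} (ha : Basic Φ hΦ a) : J Φ hΦ c a = 0 := by
  rw [J_def, ha, KT_pr]

theorem J_mul_basic (c : ℝ) (w : Form D) {b : Form D} (hb : Basic Φ hΦ b) :
    J Φ hΦ c (w * b) = J Φ hΦ c w * b := by
  rw [J_def, J_def, ← KT_mul_pr]
  congr 1
  rw [← hb]
  exact map_mul (Form.pullA Φ hΦ) w b

theorem J_sub (c : ℝ) (w v : Form D) : J Φ hΦ c (w - v) = J Φ hΦ c w - J Φ hΦ c v := by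
  rw [J_def, J_def, J_def, ← KT_sub]
  congr 1
  exact map_sub (Form.pullA Φ hΦ) w v

theorem J_add (c : ℝ) (w v : Form D) : J Φ hΦ c (w + v) = J Φ hΦ c w + J Φ hΦ c v := by
  rw [J_def, J_def, J_def, ← KT_add]
  congr 1
  exact map_add (Form.pullA Φ hΦ) w v

theorem J_smul (c r : ℝ) (w : Form D) : J Φ hΦ c (r • w) = r • J Φ hΦ c w := by
  rw [J_def, J_def, ← KT_smul]
  congr 1
  exact map_smul (Form.pullA Φ hΦ) r w

theorem J_neg (c : ℝ) (w : Form D) : J Φ hΦ c (-w) = -J Φ hΦ c w := by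
  have := J_smul (Φ := Φ) (hΦ := hΦ) c (-1) w
  rwa [neg_one_smul, neg_one_smul] at this

end Basic

/-! ### periodic flows -/

section Flow

variable {c : ℝ} {Φ : X × ℝ → X} (h : IsFlow D c Φ)
include h

theorem flow_at_zero (w : Form D) : at_ 0 (Form.pull Φ h.map w) = w :=
  (pull_pull (k := fun x => x) (Form.map_slice 0) h.map (fun h => h) h.zero w).trans
    (Form.pull_id _ w)

theorem flow_at_per (w : Form D) : at_ c (Form.pull Φ h.map w) = w :=
  (pull_pull (k := fun x => x) (Form.map_slice c) h.map (fun h => h) h.per w).trans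
    (Form.pull_id _ w)

/-- `J` anticommutes with `d` -/
theorem J_d (w : Form D) : J Φ h.map c w.d = -(J Φ h.map c w).d := by
  have h1 := KT_homotopy c (Form.pull Φ h.map w)
  rw [flow_at_zero h, flow_at_per h, sub_self, ← Form.pull_d] at h1
  exact eq_neg_of_add_eq_zero_left h1.symm

theorem flow_periodic (w : Form D) : Form.pull (fun p : X × ℝ => (p.1, p.2 + c)) (map_trans c)
    (Form.pull Φ h.map w) = Form.pull Φ h.map w :=
  pull_pull (map_trans c) h.map h.map (fun p => by
    rw [add_comm, ← h.add, h.per]) w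

theorem flow_shft (a : ℝ) (w : Form D) :
    Form.pull Φ h.map (KT a (Form.pull Φ h.map w)) =
      Form.K (Form.pull (shft a) (map_shft a) (Form.pull Φ h.map w)) := by
  rw [KT, ← K_nat h.map]
  congr 1
  refine (pull_pull (k := fun p : (X × ℝ) × ℝ => (Φ p.1, a * p.2)) (map_cyl h.map)
    (map_scale a) (fun {E} _ _ _ {u x} hh => map_scale a (map_cyl h.map hh))
    (fun p => rfl) _).trans ?_
  refine (pull_pull (k := fun p : (X × ℝ) × ℝ => Φ (p.1.1, p.1.2 + a * p.2)) _ h.map
    (fun {E} _ _ _ {u x} hh => h.map (map_shft a hh)) (fun p => ?_) w).trans ?_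
  · exact h.add _ _ _
  · exact (pull_pull (map_shft a) h.map _ (fun p => rfl) w).symm

/-- `J` has basic values -/
theorem J_basic (w : Form D) : Basic Φ h.map (J Φ h.map c w) := by
  rw [basic_def, J_def, flow_shft h, K_shft_periodic (flow_periodic h w)]

/-- the contraction kills partial orbit integrals -/
theorem J_KT (a : ℝ) (w : Form D) : J Φ h.map c (KT a (Form.pull Φ h.map w)) = 0 := by
  rw [J_def, flow_shft h, KT_K_shft]

end Flow

end Vale.Agent.P231.H584
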