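import Vale.Agent.P231.H584.Box
import Vale.Agent.P231.H584.Int
import Vale.Agent.P231.Co.Thom

/-!
# P231, stage 3, integrality (thin cycles): the tower of boxes

`Bt D` is a box in `D`: a compact convex set `A ⊆ E`, an oriented basis of `E`, a global plot
`G : E → X` whose range is `G '' A`. `Bt.Good`: the box integral kills the differentials of basic
forms, on every invariant subset containing the range. One step: `Bt.next`.
-/

set_option linter.unusedSectionVars false
set_option linter.unusedVariables false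

open MeasureTheory Set Module Filter Topology
open scoped ContDiff Real

namespace Vale.Agent.P231.H584

open Fm W BX
open Fm.Form (IsDeg part isDeg_part part_add part_smul part_succ_d part_pull part_K)

/-! ### thin maps -/

/-- locally, `f` factors through a plot of dimension at most `k` -/
structure ThinMap {X Y : Type*} (D : Dif X) (D' : Dif Y) (f : X → Y) (k : ℕ) : Prop where
  out : ∀ {E : Type} [NormedAddCommGroup E] [NormedSpace ℝ E] [FiniteDimensional ℝ E]
    {u : E → X} {x : E}, D.At u x → ∃ (F : Type) (_ : NormedAddCommGroup F)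
      (_ : NormedSpace ℝ F) (_ : FiniteDimensional ℝ F) (v : F → Y) (g : E → F),
      Module.finrank ℝ F ≤ k ∧ Sm g x ∧ D'.At v (g x) ∧ (fun y => f (u y)) =ᶠ[𝓝 x] v ∘ g

section Thin

variable {X Y Z : Type*} {D : Dif X} {D' : Dif Y} {D'' : Dif Z}

theorem ThinMap.mono {f : X → Y} {k k' : ℕ} (h : ThinMap D D' f k) (hk : k ≤ k') :
    ThinMap D D' f k' := ⟨fun hu => by
  obtain ⟨F, i1, i2, i3, v, g, hF, h1⟩ := h.out hu
  exact ⟨F, i1, i2, i3, v, g, hF.trans hk, h1⟩⟩

theorem ThinMap.comp_left {f : X → Y} {k : ℕ} (h : ThinMap D D' f k) {g : Y → Z}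
    (hg : D'.Map D'' g) : ThinMap D D'' (fun x => g (f x)) k := ⟨fun hu => by
  obtain ⟨F, i1, i2, i3, v, c, hF, h1, h2, h3⟩ := h.out hu
  exact ⟨F, i1, i2, i3, g ∘ v, c, hF, h1, hg h2, h3.mono fun y hy => congrArg g hy⟩⟩

theorem ThinMap.comp_right {f : Y → Z} {k : ℕ} (h : ThinMap D' D'' f k) {g : X → Y}
    (hg : D.Map D' g) : ThinMap D D'' (fun x => f (g x)) k := ⟨fun hu => h.out (hg hu)⟩

/-- a map through a space of small dimension is thin -/
theorem ThinMap.of_dimLE {k : ℕ} (hY : WA.DimLE D' k) {f : X → Y} (hf : D.Map D' f) {g : Y → Z}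
    (hg : D'.Map D'' g) : ThinMap D D'' (fun x => g (f x)) k := ⟨fun hu => by
  obtain ⟨F, i1, i2, i3, v, c, hF, h1, h2, h3⟩ := hY (hf hu)
  exact ⟨F, i1, i2, i3, g ∘ v, c, hF, h1, hg h2, h3.mono fun y hy => congrArg g hy⟩⟩

/-- constant maps are thin -/
theorem ThinMap.const {f : X → Y} (hm : D.Map D' f) {y : Y} (hf : ∀ x, f x = y) (k : ℕ) :
    ThinMap D D' f k := ⟨fun {E} _ _ _ {u x} hu => by
    refine ⟨EuclideanSpace ℝ (Fin 0), inferInstance, inferInstance, inferInstance, fun _ => y,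
      fun _ => 0, by simp, Sm.of_contDiff contDiff_const _, ?_,
      Eventually.of_forall fun z => hf _⟩
    have h1 := D'.comp (u := f ∘ u) (g := fun _ : EuclideanSpace ℝ (Fin 0) => x) (x := 0)
      (hm hu) (Sm.of_contDiff contDiff_const _)
    exact D'.congr h1 (Eventually.of_forall fun z => hf _)⟩

/-- thin maps kill the forms of higher degree -/
theorem ThinMap.pull_eq_zero {f : X → Y} {k : ℕ} (h : ThinMap D D' f k) {O : Set Y}
    (hO : Co.IsO D' O) (hf : D.Map (D'.on O) f) {j : ℕ} (hj : k < j) {w : Form (D'.on O)}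
    (hw : IsDeg j w) : Form.pull f hf w = 0 := Form.ext_val fun E _ _ _ u x hu => by
  obtain ⟨F, _, _, _, v, g, hF, hg, hv, huv⟩ := h.out hu
  have h1 : f (u x) ∈ O := (hf hu).2.self_of_nhds
  have h0 : f (u x) = v (g x) := huv.self_of_nhds
  have h2 : (D'.on O).At v (g x) := ⟨hv, hO.out hv (h0 ▸ h1)⟩
  rw [Form.pull_val hf w hu, w.congr (hf hu) huv, w.nat h2 hg, ← hw.part_eq, Form.part_val,
    WA.prt_eq_zero (by omega), map_zero]
  rfl

end Thin

/-- a smooth step: `0` for `s ≤ 0`, `1` for `s ≥ 1` -/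
noncomputable def stp (s : ℝ) : ℝ := Real.smoothTransition s

theorem stp_zero {s : ℝ} (h : s ≤ 0) : stp s = 0 := Real.smoothTransition.zero_of_nonpos h

theorem stp_one {s : ℝ} (h : 1 ≤ s) : stp s = 1 := Real.smoothTransition.one_of_one_le h

/-- the frontier of `A` is contained in a finite union of hyperplanes -/
def Faces {E : Type*} [NormedAddCommGroup E] [NormedSpace ℝ E] (A : Set E) : Prop :=
  ∃ s : Set ((E →L[ℝ] ℝ) × ℝ), s.Finite ∧ (∀ p ∈ s, p.1 ≠ 0) ∧
    ∀ x ∈ frontier A, ∃ p ∈ s, p.1 x = p.2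

theorem Faces.prod_Icc {E : Type*} [NormedAddCommGroup E] [NormedSpace ℝ E] {A : Set E}
    (h : Faces A) : Faces (A ×ˢ Icc (0 : ℝ) 1) := by
  obtain ⟨s, hs, hs0, hsA⟩ := h
  have hsn : ContinuousLinearMap.snd ℝ E ℝ ≠ 0 := fun h0 => by
    have := DFunLike.congr_fun h0 ((0 : E), (1 : ℝ))
    simp at this
  refine ⟨(fun p : (E →L[ℝ] ℝ) × ℝ => (p.1.comp (ContinuousLinearMap.fst ℝ E ℝ), p.2)) '' s ∪
    {(ContinuousLinearMap.snd ℝ E ℝ, 0), (ContinuousLinearMap.snd ℝ E ℝ, 1)},
    (hs.image _).union (by simp), ?_, ?_⟩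
  · rintro q (⟨p, hp, rfl⟩ | hq)
    · intro h0
      refine hs0 p hp (ContinuousLinearMap.ext fun x => ?_)
      have := DFunLike.congr_fun h0 (x, (0 : ℝ))
      simpa using this
    · rcases hq with rfl | rfl <;> exact hsn
  · intro x hx
    rw [frontier_prod_eq] at hx
    rcases hx with hx | hx
    · have h1 := hx.2
      rw [frontier_Icc zero_le_one] at h1
      rcases h1 with h1 | h1
      · exact ⟨_, Or.inr (Or.inl rfl), h1⟩
      · exact ⟨_, Or.inr (Or.inr rfl), h1⟩
    · obtain ⟨p, hp, hpx⟩ := hsA _ hx.1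
      exact ⟨_, Or.inl ⟨p, hp, rfl⟩, hpx⟩

/-- a box in a diffeological space -/
structure Bt {X : Type*} (D : Dif X) where
  /-- the ambient space -/
  E : Type
  [i1 : NormedAddCommGroup E]
  [i2 : NormedSpace ℝ E]
  [i3 : FiniteDimensional ℝ E]
  [i4 : MeasurableSpace E]
  [i5 : BorelSpace E]
  N : ℕ
  b : Basis (Fin N) ℝ E
  A : Set E
  cpt : IsCompact A
  cvx : Convex ℝ A
  faces : Faces A
  G : E → X
  plot : ∀ x, D.At G x
  rng : range G ⊆ G '' A

attribute [instance] Bt.i1 Bt.i2 Bt.i3 Bt.i4 Bt.i5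

namespace Bt

variable {X : Type*} {D : Dif X} (B : Bt D)

theorem finrank_E : finrank ℝ B.E = B.N := by
  rw [finrank_eq_card_basis B.b, Fintype.card_fin]

theorem null_frontier : B.b.addHaar (frontier B.A) = 0 := B.cvx.addHaar_frontier _

theorem plot_on {O : Set X} (hO : ∀ x, B.G x ∈ O) (x : B.E) : (D.on O).At B.G x :=
  ⟨B.plot x, Eventually.of_forall hO⟩

/-- the functional of a box -/
noncomputable def L : Form D →ₗ[ℝ] ℝ := bxL B.b B.cpt B.plot

/-- the functional of a box, on a subset -/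
noncomputable def LO {O : Set X} (hO : ∀ x, B.G x ∈ O) : Form (D.on O) →ₗ[ℝ] ℝ :=
  bxL B.b B.cpt (B.plot_on hO)

theorem L_eq (w : Form D) : B.L w = JD B.b B.A (w.val B.G) := rfl

theorem L_int (w : Form D) : B.L w = ∫ x in B.A, evalForm (w.val B.G x) B.b ∂B.b.addHaar := rfl

theorem LO_res {O : Set X} (hO : ∀ x, B.G x ∈ O) (w : Form D) :
    B.LO hO (Form.res O w) = B.L w := by
  rw [LO, L, bxL_eq, bxL_eq]
  refine integral_congr_ae (Eventually.of_forall fun x => ?_)
  change evalForm ((Form.res O w).val B.G x) B.b = evalForm (w.val B.G x) B.b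
  rw [Form.res_val w (B.plot_on hO x)]

theorem L_part (w : Form D) : B.L (part B.N w) = B.L w := bxL_part _ _ _ w

variable {T : ℝ} {Φ : X × ℝ → X} (h : IsFlow D T Φ)

/-- the box integral kills differentials of basic forms, on every open invariant subset -/
def Good : Prop := ∀ (O : Set X) (_ : Co.IsO D O) (hO : ∀ x, B.G x ∈ O)
  (hi : ∀ x ∈ O, ∀ t, Φ (x, t) ∈ O), Tf (D.on O) Φ (isFlow_on h hi).map B.N (B.LO hO)

variable {B h}

theorem Good.tf (hB : B.Good h) : Tf D Φ h.map B.N B.L where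
  deg w := B.L_part w
  bas w hw := by
    have hi : ∀ x ∈ (univ : Set X), ∀ t, Φ (x, t) ∈ (univ : Set X) := fun _ _ _ => mem_univ _
    have h1 := (hB univ ⟨fun _ _ => Eventually.of_forall fun _ => mem_univ _⟩
      (fun x => mem_univ _) hi).bas _ (basic_res h hi hw)
    rwa [Form.res_d, LO_res] at h1

variable (h)

/-- a one point box is good -/
theorem good_zero (hB : B.N = 0) : B.Good h := by
  intro O _ hO hi
  refine ⟨fun w => bxL_part _ _ _ w, fun w _ => ?_⟩
  have h1 : B.LO hO w.d = B.LO hO (part B.N w.d) := (bxL_part _ _ _ _).symm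
  rw [h1, hB, Form.part_zero_d, map_zero]

theorem stp_clamp (s : ℝ) : stp (max 0 (min s 1)) = stp s := by
  rcases le_total s 0 with h1 | h1
  · rw [stp_zero h1, show max 0 (min s 1) = 0 by simp [h1], stp_zero le_rfl]
  · rcases le_total s 1 with h2 | h2
    · rw [show max 0 (min s 1) = s by simp [h1, h2]]
    · rw [stp_one h2, show max 0 (min s 1) = 1 by simp [h2], stp_one le_rfl]

include h in
theorem phi_fract (y : X) (t : ℝ) : Φ (y, T * Int.fract t) = Φ (y, T * t) := by
  have h1 : ∀ (n : ℤ) (y : X) (t : ℝ), Φ (y, t + n * T) = Φ (y, t) := by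
    intro n y t
    induction n using Int.induction_on with
    | zero => simp
    | succ n ih =>
      have h2 := h.per (Φ (y, t + ((n : ℕ) : ℤ) * T))
      rw [h.add] at h2
      rw [← ih, ← h2]
      congr 2
      push_cast
      ring
    | pred n ih =>
      have h2 := h.per (Φ (y, t + (-n - 1 : ℤ) * T))
      rw [h.add] at h2
      rw [← ih, ← h2]
      congr 2
      push_cast
      ring
  rw [← h1 ⌊t⌋ y (T * Int.fract t)]
  congr 2
  rw [← Int.self_sub_floor]
  ring

section Next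

variable (B) {O : Set X} (hG : ∀ x, B.G x ∈ O) {H : X × ℝ → X}
  (hH : ((D.on O).prod (Dif.lin ℝ)).Map D H) (hO : ∀ x ∈ O, ∀ t, Φ (x, t) ∈ O)

/-- the flattened homotopy -/
noncomputable def fl (H : X × ℝ → X) (p : X × ℝ) : X := H (p.1, stp p.2)

theorem map_fl {D₁ : Dif X} (hH : (D₁.prod (Dif.lin ℝ)).Map D H) :
    (D₁.prod (Dif.lin ℝ)).Map D (fl H) := fun {E} _ _ _ {u x} hu =>
  hH ⟨hu.1, Sm.comp (f := stp) (g := fun y => (u y).2)
    (Sm.of_contDiff Real.smoothTransition.contDiff _) hu.2⟩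

/-- the next box -/
noncomputable def next : Bt D where
  E := (B.E × ℝ) × ℝ
  N := B.N + 2
  b := bB B.b
  A := bA B.A
  cpt := (B.cpt.prod isCompact_Icc).prod isCompact_Icc
  cvx := (B.cvx.prod (convex_Icc 0 1)).prod (convex_Icc 0 1)
  faces := B.faces.prod_Icc.prod_Icc
  G := nG Φ T (fl H) B.G
  plot p := nG_plot (isFlow_on h hO).map (map_fl hH) T (B.plot_on hG _)
  rng := by
    rintro _ ⟨p, rfl⟩
    obtain ⟨x, hx, hxG⟩ := B.rng ⟨p.1.1, rfl⟩
    let s : ℝ := max 0 (min p.2 1)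
    have hs : s ∈ Icc (0 : ℝ) 1 := ⟨le_max_left _ _, max_le zero_le_one (min_le_right _ _)⟩
    have hs' : stp s = stp p.2 := stp_clamp p.2
    have ht : Φ (B.G x, T * Int.fract p.1.2) = Φ (B.G p.1.1, T * p.1.2) := by
      rw [hxG, phi_fract h]
    refine ⟨((x, Int.fract p.1.2), s), ⟨⟨hx, (Int.fract_nonneg _), (Int.fract_lt_one _).le⟩,
      hs⟩, ?_⟩
    change H (Φ (B.G x, T * Int.fract p.1.2), stp s) = H (Φ (B.G p.1.1, T * p.1.2), stp p.2)
    rw [hs', ht]

theorem next_L (w : Form D) : (B.next h hG hH hO).L w =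
    JD (bB B.b) (bA B.A) (w.val (nG Φ T (fl H) B.G)) := rfl

theorem next_G (p : (B.E × ℝ) × ℝ) : (B.next h hG hH hO).G p =
    H (Φ (B.G p.1.1, T * p.1.2), stp p.2) := rfl

/-- the points whose orbit stays in `O'` during the homotopy -/
def pre (Φ : X × ℝ → X) (H : X × ℝ → X) (O O' : Set X) : Set X :=
  {v | v ∈ O ∧ ∀ t s, H (Φ (v, t), stp s) ∈ O'}

variable {O' : Set X} (hT : T ≠ 0) (hOo : Co.IsO D O) (hOo' : Co.IsO D O')
include hG hH hO hT hOo hOo'

include h in
omit hG in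
/-- the tube lemma -/
theorem isO_pre : Co.IsO D (pre Φ H O O') := ⟨fun {E} _ _ _ {u x} hu hx => by
  have h1 : (D.on O).At u x := ⟨hu, hOo.out hu hx.1⟩
  have h2 : ∀ q ∈ Icc (0 : ℝ) 1 ×ˢ Icc (0 : ℝ) 1, ∀ᶠ z : E × (ℝ × ℝ) in 𝓝 (x, q),
      nG Φ T (fl H) u ((z.1, z.2.1), z.2.2) ∈ O' := by
    intro q _
    have h3 : D.At (nG Φ T (fl H) u) ((x, q.1), q.2) :=
      nG_plot (isFlow_on h hO).map (map_fl hH) T h1
    have h4 := hOo'.out h3 (hx.2 (T * q.1) q.2)
    have h5 : ContinuousAt (fun z : E × (ℝ × ℝ) => ((z.1, z.2.1), z.2.2)) (x, q) := by fun_prop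
    exact h5.eventually h4
  have h3 := (isCompact_Icc.prod isCompact_Icc).eventually_forall_of_forall_eventually
    (P := fun (y : E) (q : ℝ × ℝ) => nG Φ T (fl H) u ((y, q.1), q.2) ∈ O') h2
  filter_upwards [h3, h1.2] with y hy hyO
  refine ⟨hyO, fun t s => ?_⟩
  let s' : ℝ := max 0 (min s 1)
  have hs : s' ∈ Icc (0 : ℝ) 1 := ⟨le_max_left _ _, max_le zero_le_one (min_le_right _ _)⟩
  have hs' : stp s' = stp s := stp_clamp s
  have ht : Φ (u y, T * Int.fract (t / T)) = Φ (u y, t) := by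
    rw [phi_fract h, mul_div_cancel₀ _ hT]
  have h6 := hy (Int.fract (t / T), s') ⟨⟨Int.fract_nonneg _, (Int.fract_lt_one _).le⟩, hs⟩
  change H (Φ (u y, T * Int.fract (t / T)), stp s') ∈ O' at h6
  rwa [ht, hs'] at h6⟩

omit hT hOo hOo' hG hH in
include h in
theorem pre_inv : ∀ v ∈ pre Φ H O O', ∀ t, Φ (v, t) ∈ pre Φ H O O' := fun v hv t =>
  ⟨hO v hv.1 t, fun t' s => by
    rw [h.add]
    exact hv.2 _ s⟩

omit hOo' in
/-- **the next box is good** -/
theorem Good.next (hB : B.Good h) (hH0 : ∀ x, H (x, 0) = x)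
    (thin : ThinMap (D.on O) D (fun x => H (x, 1)) B.N) : (B.next h hG hH hO).Good h := by
  intro O' hOo' hG' hi
  have hpo : Co.IsO D (pre Φ H O O') := isO_pre h hH hO hT hOo hOo'
  have hpi := pre_inv (O' := O') (H := H) h hO
  have hGp : ∀ x, B.G x ∈ pre Φ H O O' := fun x => ⟨hG x, fun t s => by
    have h1 := hG' ((x, t / T), s)
    change H (Φ (B.G x, T * (t / T)), stp s) ∈ O' at h1
    rwa [mul_div_cancel₀ _ hT] at h1⟩
  have hsub : pre Φ H O O' ⊆ O' := fun v hv => by
    have h1 := hv.2 0 0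
    rwa [h.zero, stp_zero le_rfl, hH0] at h1
  have hι : (D.on (pre Φ H O O')).Map (D.on O') id := Dif.map_on_mono hsub
  have hHp : ((D.on (pre Φ H O O')).prod (Dif.lin ℝ)).Map (D.on O') (fl H) :=
    fun {E} _ _ _ {u x} hu => by
      refine ⟨map_fl hH ⟨⟨hu.1.1, hu.1.2.mono fun y hy => hy.1⟩, hu.2⟩, ?_⟩
      filter_upwards [hu.1.2] with y hy
      have h1 := hy.2 0 (u y).2
      rwa [h.zero] at h1
  have h0 : ∀ x, fl H (x, 0) = id x := fun x => by
    change H (x, stp 0) = x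
    rw [stp_zero le_rfl, hH0]
  have hm1 : (D.on (pre Φ H O O')).Map (D.on O') (fun x => fl H (x, 1)) := map_at hHp 1
  have hthin : ∀ w : Form (D.on O'), IsDeg (B.N + 1) w →
      Form.pull (fun x => fl H (x, 1)) (map_at hHp 1) w = 0 := by
    intro w hw
    have h1 : ThinMap (D.on (pre Φ H O O')) D (fun x => fl H (x, 1)) B.N := ⟨fun hu => by
      obtain ⟨F, i1, i2, i3, v, g, h1, h2, h3, h4⟩ :=
        thin.out (u := _) ⟨hu.1, hu.2.mono fun y hy => hy.1⟩
      refine ⟨F, i1, i2, i3, v, g, h1, h2, h3, ?_⟩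
      filter_upwards [h4] with y hy
      rw [← hy]
      change H (_, stp 1) = H (_, 1)
      rw [stp_one le_rfl]⟩
    exact h1.pull_eq_zero hOo' _ (Nat.lt_succ_self _) hw
  have h2 := nxt_Tf (isFlow_on h hpi) (isFlow_on h hi) hι (fun x t => rfl) hHp h0
    (hB _ hpo hGp hpi) hthin
  have h3 : nxt (isFlow_on h hpi) hHp (B.LO hGp) = (B.next h hG hH hO).LO hG' := by
    refine LinearMap.ext fun w => ?_
    exact nxt_bxL (isFlow_on h hpi) hHp B.b B.cpt (B.next h hG hH hO).cpt (B.plot_on hGp) w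
  rw [h3] at h2
  exact h2

omit hOo' in
/-- **the functional of the next box kills `d w` if the orbit integral of `w` vanishes** -/
theorem next_L_d (hB : B.Good h) (hH0 : ∀ x, H (x, 0) = x)
    (thin : ThinMap (D.on O) D (fun x => H (x, 1)) B.N) (w : Form D) :
    (B.next h hG hH hO).L w.d = B.L (J Φ h.map T w) := by
  have hι : (D.on O).Map D id := Dif.map_on
  have h0 : ∀ x, fl H (x, 0) = id x := fun x => by
    change H (x, stp 0) = x
    rw [stp_zero le_rfl, hH0]
  have hthin : ∀ w : Form D, IsDeg (B.N + 1) w →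
      Form.pull (fun x => fl H (x, 1)) (map_at (map_fl hH) 1) w = 0 := by
    intro w hw
    have hU : Co.IsO D (univ : Set X) := ⟨fun _ _ => Eventually.of_forall fun _ => mem_univ _⟩
    have h1 : ThinMap (D.on O) D (fun x => fl H (x, 1)) B.N := ⟨fun hu => by
      obtain ⟨F, i1, i2, i3, v, g, h1, h2, h3, h4⟩ := thin.out hu
      refine ⟨F, i1, i2, i3, v, g, h1, h2, h3, ?_⟩
      filter_upwards [h4] with y hy
      rw [← hy]
      change H (_, stp 1) = H (_, 1)
      rw [stp_one le_rfl]⟩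
    have hm : (D.on O).Map (D.on univ) (fun x => fl H (x, 1)) :=
      Dif.Map.to_on (map_at (map_fl hH) 1) fun x => mem_univ _
    have h2 := h1.pull_eq_zero hU hm (Nat.lt_succ_self _) (w := Form.res univ w)
      (IsDeg.pull hw _ _)
    rw [Form.res, pull_pull hm Dif.map_on (map_at (map_fl hH) 1) (fun x => rfl)] at h2
    exact h2
  have h3 : ∀ w : Form D, (B.next h hG hH hO).L w =
      nxt (isFlow_on h hO) (map_fl hH) (B.LO hG) w := fun w =>
    (nxt_bxL (isFlow_on h hO) (map_fl hH) B.b B.cpt (B.next h hG hH hO).cpt (B.plot_on hG)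
      w).symm
  have hl := hB O hOo hG hO
  have h4 : (B.next h hG hH hO).L w.d = (B.next h hG hH hO).L (part (B.N + 1) w).d := by
    rw [← part_succ_d]
    exact ((B.next h hG hH hO).L_part w.d).symm
  rw [h4, h3, nxt_d (isFlow_on h hO) hι (map_fl hH) h0 hl hthin (isDeg_part _ w),
    ← pull_J (isFlow_on h hO).map h.map hι (fun x t => rfl), ← part_J h.map T]
  change B.LO hG (Form.res O (part B.N (J Φ h.map T w))) = _
  rw [LO_res, L_part]

omit hOo' in
/-- **(Q)**: the functional kills `d w` if the orbit integral of `w` vanishes -/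
theorem next_Q (hB : B.Good h) (hH0 : ∀ x, H (x, 0) = x)
    (thin : ThinMap (D.on O) D (fun x => H (x, 1)) B.N) {w : Form D} (hw : J Φ h.map T w = 0) :
    (B.next h hG hH hO).L w.d = 0 := by
  rw [next_L_d B h hG hH hO hT hOo hB hH0 thin, hw, map_zero]

omit hOo' in
/-- **multiplication by the Euler form** -/
theorem next_e (hB : B.Good h) (hH0 : ∀ x, H (x, 0) = x)
    (thin : ThinMap (D.on O) D (fun x => H (x, 1)) B.N) {α : Form D}
    (hα : Form.pull Φ h.map α = pr α + dt) {w : Form D} (hwc : w.d = 0)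
    (hwb : Basic Φ h.map w) : (B.next h hG hH hO).L ((T⁻¹ • α.d) * w) = B.L w := by
  have h1 : (T⁻¹ • α.d) * w = ((T⁻¹ • α) * w).d := by
    rw [d_mul_closed _ hwc, Form.d_smul]
  rw [h1, next_L_d B h hG hH hO hT hOo hB hH0 thin, J_theta h hT hα hwb]

end Next

/-! ### chains of boxes -/

/-- `B'` is obtained from `B` by `i` steps -/
structure Ch {T : ℝ} {Φ : X × ℝ → X} (h : IsFlow D T Φ) (e : Form D) (B B' : Bt D) (i : ℕ) :
    Prop where
  N : B'.N = B.N + 2 * i
  mul : ∀ w : Form D, w.d = 0 → Basic Φ h.map w → B'.L (e ^ i * w) = B.L w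

theorem Ch.refl {T : ℝ} {Φ : X × ℝ → X} (h : IsFlow D T Φ) (e : Form D) (B : Bt D) :
    Ch h e B B 0 := ⟨rfl, fun w _ _ => by rw [pow_zero, one_mul]⟩

theorem Ch.trans {T : ℝ} {Φ : X × ℝ → X} {h : IsFlow D T Φ} {e : Form D} (hed : e.d = 0)
    (hes : e.sg = e) (heb : Basic Φ h.map e) {B B' B'' : Bt D} {i j : ℕ} (h1 : Ch h e B B' i)
    (h2 : Ch h e B' B'' j) : Ch h e B B'' (i + j) where
  N := by rw [h2.N, h1.N]; ring
  mul w hw hb := by
    have h3 : (e ^ i * w).d = 0 := mul_closed (pow_closed hed i) hw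
    rw [add_comm i j, pow_add, mul_assoc, h2.mul _ h3 (Basic.mul (Basic.pow heb i) hb),
      h1.mul w hw hb]

theorem Ch.one {T : ℝ} {Φ : X × ℝ → X} {h : IsFlow D T Φ} {e : Form D} (hed : e.d = 0)
    (heb : Basic Φ h.map e) {B B' : Bt D} {i : ℕ} (h1 : Ch h e B B' i) :
    B'.L (e ^ i) = B.L 1 := by
  have h2 : (1 : Form D).d = 0 := Form.d_one
  have := h1.mul 1 h2 Basic.one
  rwa [mul_one] at this

/-- **one step of the tower**, from a homotopy (defined on the open invariant set `O`) to a thin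
map -/
theorem exists_next {T : ℝ} {Φ : X × ℝ → X} (h : IsFlow D T Φ) (hT : T ≠ 0) {α : Form D}
    (hα : Form.pull Φ h.map α = pr α + dt) (B : Bt D) (hB : B.Good h) {O : Set X}
    (hOo : Co.IsO D O) (hO : ∀ x ∈ O, ∀ t, Φ (x, t) ∈ O) (hG : ∀ x, B.G x ∈ O) {H : X × ℝ → X}
    (hH : ((D.on O).prod (Dif.lin ℝ)).Map D H) (hH0 : ∀ x ∈ O, H (x, 0) = x)
    (thin : ThinMap (D.on O) D (fun x => H (x, 1)) B.N) :
    ∃ B' : Bt D, B'.Good h ∧ Ch h (T⁻¹ • α.d) B B' 1 ∧
      (∀ w : Form D, J Φ h.map T w = 0 → B'.L w.d = 0) ∧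
      ∀ y, ∃ x t s, B'.G y = H (Φ (B.G x, t), s) := by
  classical
  let H' : X × ℝ → X := fun p => if p.1 ∈ O then H p else p.1
  have he : ∀ p : X × ℝ, p.1 ∈ O → H' p = H p := fun p hp => if_pos hp
  have hH' : ((D.on O).prod (Dif.lin ℝ)).Map D H' := fun {E} _ _ _ {u x} hu =>
    D.congr (hH hu) (by
      filter_upwards [hu.1.2] with y hy
      exact (he _ hy).symm)
  have hH0' : ∀ x, H' (x, 0) = x := fun x => by
    by_cases hx : x ∈ O
    · rw [he _ hx, hH0 x hx]
    · exact if_neg hx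
  have thin' : ThinMap (D.on O) D (fun x => H' (x, 1)) B.N := ⟨fun {E} _ _ _ {u x} hu => by
    obtain ⟨F, i1, i2, i3, v, g, h1, h2, h3, h4⟩ := thin.out hu
    refine ⟨F, i1, i2, i3, v, g, h1, h2, h3, ?_⟩
    filter_upwards [h4, hu.2] with y hy hyO
    rw [← hy]
    exact he _ hyO⟩
  exact ⟨B.next h hG hH' hO, Good.next B h hG hH' hO hT hOo hB hH0' thin',
    ⟨rfl, fun w hw hb => by
      rw [pow_one]
      exact next_e B h hG hH' hO hT hOo hB hH0' thin' hα hw hb⟩,
    fun w hw => next_Q B h hG hH' hO hT hOo hB hH0' thin' hw,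
    fun y => ⟨y.1.1, T * y.1.2, stp y.2, he _ (hO _ (hG _) _)⟩⟩

section Closed

theorem pull_zero_map {E E' : Type*} [NormedAddCommGroup E] [NormedSpace ℝ E]
    [FiniteDimensional ℝ E] [NormedAddCommGroup E'] [NormedSpace ℝ E'] [FiniteDimensional ℝ E']
    (w : Lam E') : Fm.pull (0 : E →L[ℝ] E') w = algebraMap ℝ (Lam E) (aug w) := by
  have h : Fm.pull (0 : E →L[ℝ] E') = (Algebra.ofId ℝ (Lam E)).comp (aug : Lam E' →ₐ[ℝ] ℝ) :=
    Lam.algHom_ext fun a => by
      rw [pull_dxl, ContinuousLinearMap.comp_zero, map_zero, AlgHom.comp_apply]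
      have : aug (dxl a : Lam E') = 0 := aug_dx a
      rw [this, map_zero]
  rw [h]
  rfl

/-- a form of positive degree vanishes where the plot is locally constant -/
theorem val_const {w : Form D} {j : ℕ} {V : Type} [NormedAddCommGroup V] [NormedSpace ℝ V]
    [FiniteDimensional ℝ V] {u : V → X} {x : V} (h : D.At u x)
    (hc : ∀ᶠ y in 𝓝 x, u y = u x) : WA.prt (j + 1) (w.val u x) = 0 := by
  have h1 : w.val u x = w.val (u ∘ fun _ : V => x) x := w.congr h hc
  have h2 := (part (j + 1) w).nat (u := u) (g := fun _ : V => x) (x := x) h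
    (Sm.of_contDiff contDiff_const _)
  have h3 : fderiv ℝ (fun _ : V => x) x = 0 := by simp
  rw [h3, Form.part_val, Form.part_val, pull_zero_map] at h2
  rw [h1]
  refine h2.trans ?_
  have h4 : WA.prt 0 (WA.prt (j + 1) (w.val u x)) = algebraMap ℝ (Lam V)
      (aug (WA.prt (j + 1) (w.val u x))) := WA.prt_zero _
  rw [← h4, WA.prt_prt_of_ne (by omega)]

variable {B : Bt D} {K : Set B.E} (hK : IsCompact K) (hKA : K ⊆ B.A)
  (hc : ∀ x ∉ K, ∀ᶠ y in 𝓝 x, B.G y = B.G x) {k : ℕ} (hN : B.N = k + 2)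
include hK hKA hc hN

/-- **Stokes for a closed box** -/
theorem LO_d_of_const {O : Set X} (hO : ∀ x, B.G x ∈ O) (w : Form (D.on O)) :
    B.LO hO w.d = 0 := by
  obtain ⟨E, N, b, A, cpt, cvx, faces, G, plot, rng⟩ := B
  dsimp only at hK hKA hc hN hO K
  subst hN
  have hp : ∀ x, (D.on O).At G x := fun x => ⟨plot x, Eventually.of_forall hO⟩
  have h0 : ∀ x ∉ K, WA.prt (k + 1) (w.val G x) = 0 := fun x hx => val_const (hp x) (hc x hx)
  change ∫ x in A, evalForm (w.d.val G x) b ∂b.addHaar = 0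
  have h1 : ∀ x, evalForm (w.d.val G x) b = evalForm (extd (w.val G) x) b := fun x => by
    rw [Form.d_val w (hp x)]
  simp only [h1]
  rw [setIntegral_eq_integral_of_forall_compl_eq_zero]
  · exact TW.stokes_prt b.addHaar b (contDiff_iff_contDiffAt.2 fun x =>
      (w.smooth (hp x)).of_le (by simp)) hK h0
  · intro x hx
    have hxK : x ∉ K := fun h => hx (hKA h)
    rw [← WA.evalForm_prt]
    have h2 : WA.prt (k + 2) (extd (w.val G) x) = 0 := by
      have h3 : (fun y => WA.prt (k + 1) (w.val G y)) =ᶠ[𝓝 x] fun _ => 0 := by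
        filter_upwards [hK.isClosed.isOpen_compl.mem_nhds hxK] with y hy using h0 y hy
      have h4 : HasFDerivAt (fun x => WA.prtL (k + 1) (w.val G x))
          (WA.prtL (k + 1) ∘L fderiv ℝ (w.val G) x) x :=
        (WA.prtL (E := E) (k + 1)).hasFDerivAt.comp x
          ((w.smooth (hp x)).differentiableAt (by simp)).hasFDerivAt
      rw [extd, WA.prt_succ_dLin, ← h4.fderiv]
      have h5 : fderiv ℝ (fun x => WA.prtL (k + 1) (w.val G x)) x = 0 := by
        have h6 : (fun x => WA.prtL (k + 1) (w.val G x)) =ᶠ[𝓝 x] fun _ => 0 := h3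
        rw [h6.fderiv_eq]
        simp
      rw [h5, map_zero]
    rw [h2]
    exact map_zero (evalL (b : Fin (k + 2) → E))

theorem good_of_const {T : ℝ} {Φ : X × ℝ → X} (h : IsFlow D T Φ) : B.Good h :=
  fun O _ hO hi => ⟨fun w => bxL_part _ _ _ w, fun w _ => LO_d_of_const hK hKA hc hN hO w⟩

theorem L_d_of_const (w : Form D) : B.L w.d = 0 := by
  rw [← B.LO_res (O := univ) (fun x => mem_univ _), ← Form.res_d]
  exact LO_d_of_const hK hKA hc hN _ _

end Closed

section Pt

/-- the one point box -/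
noncomputable def pt (v : X) (hv : D.At (fun _ : EuclideanSpace ℝ (Fin 0) => v) 0) : Bt D where
  E := EuclideanSpace ℝ (Fin 0)
  N := 0
  b := (EuclideanSpace.basisFun (Fin 0) ℝ).toBasis
  A := {0}
  cpt := isCompact_singleton
  cvx := convex_singleton 0
  faces := ⟨∅, finite_empty, by simp, fun x hx => by
    have h1 : ({0} : Set (EuclideanSpace ℝ (Fin 0))) = univ := by
      ext y
      simp [Subsingleton.elim y 0]
    rw [h1, frontier_univ] at hx
    exact hx.elim⟩
  G := fun _ => v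
  plot := fun x => by rwa [Subsingleton.elim x 0]
  rng := by
    rintro _ ⟨x, rfl⟩
    exact ⟨0, rfl, rfl⟩

theorem pt_one (v : X) (hv : D.At (fun _ : EuclideanSpace ℝ (Fin 0) => v) 0) :
    (pt v hv).L 1 = 1 := by
  rw [L_int]
  have h1 : ∀ x : (pt v hv).E, evalForm ((1 : Form D).val (pt v hv).G x) (pt v hv).b = 1 := by
    intro x
    rw [Form.one_val ((pt v hv).plot x), evalForm_apply]
    exact map_one aug
  simp only [h1]
  rw [setIntegral_const]
  have h2 : (pt v hv).b.addHaar (pt v hv).A = 1 := by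
    have h3 : parallelepiped ((pt v hv).b : Fin (pt v hv).N → (pt v hv).E) = (pt v hv).A := by
      have : Subsingleton (pt v hv).E :=
        inferInstanceAs (Subsingleton (EuclideanSpace ℝ (Fin 0)))
      ext x
      constructor
      · intro _
        exact Subsingleton.elim (α := EuclideanSpace ℝ (Fin 0)) x 0
      · intro _
        rw [mem_parallelepiped_iff]
        exact ⟨fun _ => 0, ⟨fun _ => le_rfl, fun _ => zero_le_one⟩,
          Subsingleton.elim (α := EuclideanSpace ℝ (Fin 0)) _ _⟩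
    rw [← h3]
    exact Basis.addHaar_self _
  rw [measureReal_def, h2]
  simp

end Pt

end Bt

namespace Sys

variable {B U M : Type*} {dB : Dif B} {dU : Dif U} {dM : Dif M} {D c : ℝ}
  (S : Sys dB dU dM 1 D c)

/-- the two functionals of a chain of boxes -/
theorem twr {B4 B6 : Bt dU} (h6 : B6.Good S.hφU) (hc : Bt.Ch S.hφU S.eU B4 B6 2) :
    S.Twr B4.L B6.L where
  bas6 := h6.tf.bas
  mul w _ hw hb := hc.mul w hw hb

end Sys

end Vale.Agent.P231.H584
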