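import Vale.Agent.P231.H584.BoxT

/-!
# P231, stage 3, integrality: the assembly

The integrality of `a / κ² - (μ / κ) m` and of `2 μ / κ` for a system `S`, from the integrality of
the push-forward numbers (`Z2`, `Z4`, `Z6`) on the two towers of boxes, from `b₁² ~ ± κ² p₃` and
from the value of `P(b₁ G₁)`.
-/

set_option linter.unusedSectionVars false
set_option linter.unusedVariables false

open MeasureTheory Set Module Filter Topology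
open scoped ContDiff Real

namespace Vale.Agent.P231.H584

open Fm W BX
open Fm.Form (IsDeg part isDeg_part part_add part_smul part_succ_d part_pull part_K)

namespace Sys

variable {B U M : Type*} {dB : Dif B} {dU : Dif U} {dM : Dif M} {D c : ℝ}
  (S : Sys dB dU dM 1 D c)

/-- the numbers of the eighth power -/
def Z2 (L : Form dU →ₗ[ℝ] ℝ) (p1 : Form dU) : Prop :=
  ∃ n : ℤ, 28 * L (S.eU ^ 2) + L p1 = n

/-- the numbers of the tenth power -/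
def Z4 (L : Form dU →ₗ[ℝ] ℝ) (p1 p2 : Form dU) : Prop :=
  ∃ n : ℤ, 210 * L (S.eU ^ 4) + 45 * L (S.eU ^ 2 * p1) + L (p1 ^ 2 - p2) = n

/-- the numbers of the twelfth power -/
def Z6 (L : Form dU →ₗ[ℝ] ℝ) (p1 p2 p3 : Form dU) : Prop :=
  ∃ n : ℤ, 924 * L (S.eU ^ 6) + 495 * L (S.eU ^ 4 * p1) +
    66 * L (S.eU ^ 2 * (p1 ^ 2 - p2)) + L (p1 ^ 3 - 2 * p1 * p2 + p3) = n

/-- closed even basic forms on `U` -/
structure CE (p : Form dU) : Prop where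
  sg : p.sg = p
  d : p.d = 0
  bas : Basic S.φU S.hφU.map p

variable {S}

theorem CE.mul {p q : Form dU} (hp : S.CE p) (hq : S.CE q) : S.CE (p * q) :=
  ⟨by rw [Form.sg_mul, hp.sg, hq.sg], mul_closed hp.d hq.d, Basic.mul hp.bas hq.bas⟩

theorem CE.sub {p q : Form dU} (hp : S.CE p) (hq : S.CE q) : S.CE (p - q) :=
  ⟨by rw [sub_eq_add_neg, Form.sg_add, Form.sg_neg, hp.sg, hq.sg],
    by rw [sub_eq_add_neg, Form.d_add, Form.d_neg, hp.d, hq.d, neg_zero, add_zero],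
    Basic.sub hp.bas hq.bas⟩

theorem CE.pow {p : Form dU} (hp : S.CE p) (n : ℕ) : S.CE (p ^ n) :=
  ⟨pow_even hp.sg n, pow_closed hp.d n, Basic.pow hp.bas n⟩

theorem CE.eU : S.CE S.eU := ⟨S.eU_sg, S.eU_d, S.eU_basic⟩

/-- a functional which kills the differentials of basic forms -/
theorem L_mul_eqv {L : Form dU →ₗ[ℝ] ℝ} (hL : ∀ w, Basic S.φU S.hφU.map w → L w.d = 0)
    {a₁ : ℝ} {p1 : Form dU} (h1 : Eqv S.hφU.map p1 (a₁ • S.eU ^ 2)) {w : Form dU}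
    (hw : S.CE w) : L (p1 * w) = a₁ * L (S.eU ^ 2 * w) := by
  obtain ⟨u, hu, rfl⟩ := h1
  rw [add_mul, map_add, smul_mul_assoc, map_smul, smul_eq_mul, ← d_mul_closed _ hw.d,
    hL _ (Basic.mul hu hw.bas), add_zero]

/-- the value of `b₁³`, in terms of `p₃` -/
theorem L_cube (hP : S.PP) (hFd : IsDeg 8 S.F) {ε : ℝ} {l : Form dB}
    (hl : S.b1 = ε • S.b0 + l.d) {s κ : ℝ} {p3 : Form dU}
    (hp : Eqv S.hφ.map (S.b1 ^ 2) ((s * κ ^ 2) • Form.pull S.pi S.hpi p3))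
    {L : Form dU →ₗ[ℝ] ℝ} (hL : ∀ w, Basic S.φU S.hφU.map w → L w.d = 0) :
    L (S.P (S.b1 ^ 3)) = s * κ ^ 2 * (ε * S.k) * L p3 := by
  obtain ⟨u, hu, hu'⟩ := hp
  have h1 : S.b1 ^ 3 = (s * κ ^ 2) • (S.b1 * Form.pull S.pi S.hpi p3) + (u * S.b1).d := by
    rw [pow_succ, hu', add_mul, smul_mul_assoc, d_mul_closed _ S.b1_d,
      (even_comm S.b1_sg (Form.pull S.pi S.hpi p3)).eq]
  rw [h1, map_add, map_smul, S.hPm, P_b1 hP hFd hl, S.hPd, map_add, map_smul,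
    hL _ (hP.bas _ (Basic.mul hu S.b1_basic)), smul_mul_assoc, one_mul, map_smul, smul_eq_mul,
    smul_eq_mul, add_zero]
  ring

/-- the numbers `p₁`, `p₂`, `p₃` of the first tower -/
theorem ints_one {p1 p2 p3 : Form dU} (c1 : S.CE p1) (c2 : S.CE p2) (c3 : S.CE p3) {a₁ : ℝ}
    (h1 : Eqv S.hφU.map p1 (a₁ • S.eU ^ 2)) {B2 B4 B6 : Bt dU} (g2 : B2.Good S.hφU)
    (g4 : B4.Good S.hφU) (g6 : B6.Good S.hφU) (c24 : Bt.Ch S.hφU S.eU B2 B4 2)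
    (c46 : Bt.Ch S.hφU S.eU B4 B6 2) (e2 : B2.L (S.eU ^ 2) = 1) (z2 : S.Z2 B2.L p1)
    (z4 : S.Z4 B4.L p1 p2) (z6 : S.Z6 B6.L p1 p2 p3) :
    (∃ n : ℤ, a₁ = n) ∧ (∃ n : ℤ, B4.L p2 = n) ∧ ∃ n : ℤ, B6.L p3 = n := by
  obtain ⟨n2, z2⟩ := z2
  obtain ⟨n4, z4⟩ := z4
  obtain ⟨n6, z6⟩ := z6
  have ce : S.CE (S.eU ^ 2) := CE.eU.pow 2
  -- powers of `e`
  have e4 : B4.L (S.eU ^ 4) = 1 := by
    rw [show S.eU ^ 4 = S.eU ^ 2 * S.eU ^ 2 by rw [← pow_add], c24.mul _ ce.d ce.bas, e2]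
  have e6 : B6.L (S.eU ^ 6) = 1 := by
    rw [show S.eU ^ 6 = S.eU ^ 2 * S.eU ^ 4 by rw [← pow_add],
      c46.mul _ (CE.eU.pow 4).d (CE.eU.pow 4).bas, e4]
  -- `L2 p1`
  have l1 : B2.L p1 = a₁ := by
    have := L_mul_eqv g2.tf.bas h1 (w := 1) ⟨Form.sg_one, Form.d_one, Basic.one⟩
    rwa [mul_one, mul_one, e2, mul_one] at this
  have m4 : ∀ w, S.CE w → B4.L (p1 * w) = a₁ * B2.L w := fun w hw => by
    rw [L_mul_eqv g4.tf.bas h1 hw, c24.mul w hw.d hw.bas]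
  have m6 : ∀ w, S.CE w → B6.L (p1 * w) = a₁ * B4.L w := fun w hw => by
    rw [L_mul_eqv g6.tf.bas h1 hw, c46.mul w hw.d hw.bas]
  have k1 : B4.L (S.eU ^ 2 * p1) = a₁ := by rw [c24.mul _ c1.d c1.bas, l1]
  have k2 : B4.L (p1 ^ 2) = a₁ ^ 2 := by rw [pow_two, m4 _ c1, l1, pow_two]
  have k3 : B6.L (S.eU ^ 4 * p1) = a₁ := by
    rw [show S.eU ^ 4 * p1 = S.eU ^ 2 * (S.eU ^ 2 * p1) by rw [← mul_assoc, ← pow_add],
      c46.mul _ (ce.mul c1).d (ce.mul c1).bas, k1]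
  have c12 : S.CE (p1 ^ 2 - p2) := (c1.pow 2).sub c2
  have k4 : B6.L (S.eU ^ 2 * (p1 ^ 2 - p2)) = a₁ ^ 2 - B4.L p2 := by
    rw [c46.mul _ c12.d c12.bas, map_sub, k2]
  have k5 : B6.L (p1 ^ 3 - 2 * p1 * p2 + p3) = a₁ ^ 3 - 2 * (a₁ * B4.L p2) + B6.L p3 := by
    rw [map_add, map_sub, show p1 ^ 3 = p1 * p1 ^ 2 by rw [← pow_succ'], m6 _ (c1.pow 2), k2,
      show (2 : Form dU) * p1 * p2 = (2 : ℝ) • (p1 * p2) by
        rw [mul_assoc, two_mul, two_smul], map_smul, m6 _ c2, smul_eq_mul]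
    ring
  rw [e2, l1] at z2
  have ha : a₁ = ((n2 - 28 : ℤ) : ℝ) := by
    push_cast
    linarith
  rw [e4, k1, map_sub, k2] at z4
  have hp2 : B4.L p2 = ((210 + 45 * (n2 - 28) + (n2 - 28) ^ 2 - n4 : ℤ) : ℝ) := by
    push_cast
    rw [ha] at z4
    push_cast at z4
    linarith
  refine ⟨⟨_, ha⟩, ⟨_, hp2⟩, n6 - 924 - 495 * (n2 - 28) -
    66 * ((n2 - 28) ^ 2 - (210 + 45 * (n2 - 28) + (n2 - 28) ^ 2 - n4)) -
    ((n2 - 28) ^ 3 - 2 * ((n2 - 28) * (210 + 45 * (n2 - 28) + (n2 - 28) ^ 2 - n4))), ?_⟩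
  rw [e6, k3, k4, k5, hp2, ha] at z6
  push_cast at z6 ⊢
  linarith

/-- the numbers `p₂`, `p₃` of the second tower -/
theorem ints_two {p1 p2 p3 : Form dU} (c1 : S.CE p1) (c2 : S.CE p2) (c3 : S.CE p3) {n₁ : ℤ}
    (h1 : Eqv S.hφU.map p1 ((n₁ : ℝ) • S.eU ^ 2)) {B4 B6 : Bt dU}
    (g4 : B4.Good S.hφU) (g6 : B6.Good S.hφU) (c46 : Bt.Ch S.hφU S.eU B4 B6 2)
    (e6 : B6.L (S.eU ^ 6) = 0) (z4 : S.Z4 B4.L p1 p2) (z6 : S.Z6 B6.L p1 p2 p3) :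
    ∃ n : ℤ, B6.L p3 = n := by
  obtain ⟨n4, z4⟩ := z4
  obtain ⟨n6, z6⟩ := z6
  have ce : S.CE (S.eU ^ 2) := CE.eU.pow 2
  have e4 : B4.L (S.eU ^ 4) = 0 := by
    rw [← c46.mul _ (CE.eU.pow 4).d (CE.eU.pow 4).bas, ← pow_add, e6]
  have k1 : B4.L (S.eU ^ 2 * p1) = 0 := by
    rw [(even_comm c1.sg (S.eU ^ 2)).symm.eq, L_mul_eqv g4.tf.bas h1 ce, ← pow_add, e4, mul_zero]
  have k2 : B4.L (p1 ^ 2) = 0 := by
    rw [pow_two, L_mul_eqv g4.tf.bas h1 c1, k1, mul_zero]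
  have m6 : ∀ w, S.CE w → B6.L (p1 * w) = n₁ * B4.L w := fun w hw => by
    rw [L_mul_eqv g6.tf.bas h1 hw, c46.mul w hw.d hw.bas]
  have k3 : B6.L (S.eU ^ 4 * p1) = 0 := by
    rw [show S.eU ^ 4 * p1 = S.eU ^ 2 * (S.eU ^ 2 * p1) by rw [← mul_assoc, ← pow_add],
      c46.mul _ (ce.mul c1).d (ce.mul c1).bas, k1]
  have c12 : S.CE (p1 ^ 2 - p2) := (c1.pow 2).sub c2
  have k4 : B6.L (S.eU ^ 2 * (p1 ^ 2 - p2)) = -B4.L p2 := by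
    rw [c46.mul _ c12.d c12.bas, map_sub, k2, zero_sub]
  have k5 : B6.L (p1 ^ 3 - 2 * p1 * p2 + p3) = -(2 * (n₁ * B4.L p2)) + B6.L p3 := by
    rw [map_add, map_sub, show p1 ^ 3 = p1 * p1 ^ 2 by rw [← pow_succ'], m6 _ (c1.pow 2), k2,
      show (2 : Form dU) * p1 * p2 = (2 : ℝ) • (p1 * p2) by
        rw [mul_assoc, two_mul, two_smul], map_smul, m6 _ c2, smul_eq_mul]
    ring
  rw [e4, k1, map_sub, k2] at z4
  have hp2 : B4.L p2 = ((-n4 : ℤ) : ℝ) := by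
    push_cast
    linarith
  refine ⟨n6 + 66 * -n4 + 2 * (n₁ * -n4), ?_⟩
  rw [e6, k3, k4, k5, hp2] at z6
  push_cast at z6 ⊢
  linarith

/-- the sign of `ε k` -/
theorem cube_int {ε k κ s : ℝ} (hε : ε ^ 2 = 1) (hk : k ^ 2 = 4 * κ ^ 2) (hs : s ^ 2 = 1)
    {N : ℤ} : ∃ N' : ℤ, s * κ ^ 2 * (ε * k) * N = 2 * κ ^ 3 * N' := by
  have h2 : (s * (ε * k)) ^ 2 = (2 * κ) ^ 2 := by rw [mul_pow, mul_pow, hs, hε, hk]; ring
  rcases sq_eq_sq_iff_eq_or_eq_neg.1 h2 with h3 | h3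
  · refine ⟨N, ?_⟩
    calc s * κ ^ 2 * (ε * k) * N = κ ^ 2 * (s * (ε * k)) * N := by ring
      _ = _ := by rw [h3]; ring
  · refine ⟨-N, ?_⟩
    push_cast
    calc s * κ ^ 2 * (ε * k) * N = κ ^ 2 * (s * (ε * k)) * N := by ring
      _ = _ := by rw [h3]; ring

/-- **S3-INT, assembled** -/
theorem int_asm (hP : S.PP) (hFd : IsDeg 8 S.F) {a μ : ℝ} {ρ : Form dB}
    (hρ : Basic S.φ S.hφ.map ρ)
    (hrel : S.b1 ^ 2 = a • S.e ^ 6 + μ • (S.e ^ 2 * (S.G1 + S.G2)) + ρ.d)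
    {ε : ℝ} (hε : ε ^ 2 = 1) {l : Form dB} (hl : S.b1 = ε • S.b0 + l.d) {κ : ℝ} (hκ : 0 < κ)
    (hk : S.k ^ 2 = 4 * κ ^ 2)
    -- the Pontryagin forms
    {p1 p2 p3 : Form dU} (c1 : S.CE p1) (c2 : S.CE p2) (c3 : S.CE p3) {a₁ : ℝ}
    (h1 : Eqv S.hφU.map p1 (a₁ • S.eU ^ 2)) {s : ℝ} (hs : s ^ 2 = 1)
    (hp : Eqv S.hφ.map (S.b1 ^ 2) ((s * κ ^ 2) • Form.pull S.pi S.hpi p3))
    -- the first tower
    {B2 B4 B6 : Bt dU} (g2 : B2.Good S.hφU) (g4 : B4.Good S.hφU) (g6 : B6.Good S.hφU)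
    (c24 : Bt.Ch S.hφU S.eU B2 B4 2) (c46 : Bt.Ch S.hφU S.eU B4 B6 2)
    (e2 : B2.L (S.eU ^ 2) = 1) (z2 : S.Z2 B2.L p1) (z4 : S.Z4 B4.L p1 p2)
    (z6 : S.Z6 B6.L p1 p2 p3) {m : ℤ} (hm : B4.L (S.P (S.b1 * S.G1)) = κ ^ 2 * m)
    -- the second tower
    {B4' B6' : Bt dU} (g4' : B4'.Good S.hφU) (g6' : B6'.Good S.hφU)
    (c46' : Bt.Ch S.hφU S.eU B4' B6' 2) (hd' : ∀ w : Form dU, B4'.L w.d = 0)
    (hx' : (B4'.L S.Fx) ^ 2 = κ ^ 2) (e6' : B6'.L (S.eU ^ 6) = 0) (z4' : S.Z4 B4'.L p1 p2)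
    (z6' : S.Z6 B6'.L p1 p2 p3) :
    (∃ N' m' : ℤ, (m' = m ∨ m' = -m) ∧ a / κ ^ 2 = N' + μ / κ * m') ∧
      ∃ n : ℤ, 2 * μ / κ = n := by
  obtain ⟨⟨n₁, rfl⟩, -, ⟨N, hN⟩⟩ := ints_one c1 c2 c3 h1 g2 g4 g6 c24 c46 e2 z2 z4 z6
  obtain ⟨N', hN'⟩ := ints_two c1 c2 c3 h1 g4' g6' c46' e6' z4' z6'
  have e6 : B6.L (S.eU ^ 6) = 1 := by
    rw [show S.eU ^ 6 = S.eU ^ 2 * (S.eU ^ 2 * S.eU ^ 2) by rw [← pow_add, ← pow_add],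
      c46.mul _ (CE.mul (CE.eU.pow 2) (CE.eU.pow 2)).d (CE.mul (CE.eU.pow 2) (CE.eU.pow 2)).bas,
      c24.mul _ (CE.eU.pow 2).d (CE.eU.pow 2).bas, e2]
  refine ⟨?_, ?_⟩
  · obtain ⟨N1, h2⟩ := cube_int (N := N) hε hk hs
    refine int_one hP hFd hρ hrel hε hl (S.twr g6 c46) hκ hk e6 (N := N1) ?_ hm
    rw [L_cube hP hFd hl hp g6.tf.bas, hN, h2]
  · obtain ⟨N1, h2⟩ := cube_int (N := N') hε hk hs
    refine int_two hP hFd hρ hrel hε hl (S.twr g6' c46') hd' hκ hk e6' (N := N1) ?_ hx'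
    rw [L_cube hP hFd hl hp g6'.tf.bas, hN', h2]

end Sys

end Vale.Agent.P231.H584
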