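import Vale.Agent.P231.H584.Side
import Vale.Agent.P231.A3.Num

/-!
# P231, stages 2 and 3: the volume bound from the Phi-side
-/

set_option linter.unusedSectionVars false
set_option linter.unusedVariables false

open Finset

namespace Vale.Agent.P231.H584

/-- closed form of the coefficients of helper936 -/
theorem bc_eq (x y : ℝ) (k : ℕ) : ∀ j, A3.bc x y (k + 1) j =
    ((k - j).choose j : ℝ) * x ^ (k - 2 * j) * y ^ j := by
  induction k using Nat.strong_induction_on with
  | _ k ih =>
    match k with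
    | 0 =>
      intro j
      cases j with
      | zero => simp [A3.bc]
      | succ j => simp [A3.bc]
    | 1 =>
      intro j
      cases j with
      | zero => simp [A3.bc]
      | succ j =>
        rw [A3.bc]
        have h1 : A3.bc x y (0 + 1) (j + 1) = 0 := by simp [A3.bc]
        have h2 : A3.bc x y 0 j = 0 := by cases j <;> rfl
        have h3 : (1 - (j + 1)).choose (j + 1) = 0 := Nat.choose_eq_zero_of_lt (by omega)
        rw [h1, h2, h3]
        simp
    | k + 2 =>
      intro j
      cases j with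
      | zero =>
        have h1 := ih (k + 1) (by omega) 0
        rw [A3.bc, h1]
        simp
        ring
      | succ j =>
        have h1 := ih (k + 1) (by omega) (j + 1)
        have h2 := ih k (by omega) j
        rw [A3.bc, h1, h2]
        have e1 : k + 1 - (j + 1) = k - j := by omega
        have e2 : k + 1 - 2 * (j + 1) = k - 2 * j - 1 := by omega
        have e3 : k + 2 - 2 * (j + 1) = k - 2 * j := by omega
        rw [e1, e2, e3]
        rcases Nat.lt_or_ge k (2 * j) with h | h
        · have h3 : (k - j).choose j = 0 := Nat.choose_eq_zero_of_lt (by omega)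
          have h4 : (k - j).choose (j + 1) = 0 := Nat.choose_eq_zero_of_lt (by omega)
          have h5 : (k + 2 - (j + 1)).choose (j + 1) = 0 := Nat.choose_eq_zero_of_lt (by omega)
          rw [h3, h4, h5]
          simp
        · have e4 : k + 2 - (j + 1) = (k - j) + 1 := by omega
          rw [e4, Nat.choose_succ_succ, Nat.cast_add]
          rcases Nat.eq_or_lt_of_le h with h' | h'
          · have h4 : (k - j).choose (j + 1) = 0 := Nat.choose_eq_zero_of_lt (by omega)
            rw [h4, pow_succ]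
            simp
            ring
          · have e5 : k - 2 * j = (k - 2 * j - 1) + 1 := by omega
            rw [e5, Nat.add_sub_cancel, pow_succ, pow_succ]
            ring

theorem K_eq_KK (i j : ℕ) : A3.K i (j + 1) = -2 * KK i j := by
  rw [A3.K_eq, KK]
  have h1 : ((2 * (j + 1)).factorial : ℝ) = (2 * j + 2) * (2 * j + 1).factorial := by
    rw [show 2 * (j + 1) = (2 * j + 1) + 1 by ring, Nat.factorial_succ]
    push_cast
    ring
  have h2 : ((j + 1).factorial : ℝ) = (j + 1) * j.factorial := by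
    rw [Nat.factorial_succ]
    push_cast
    ring
  have e : i + (j + 1) = i + j + 1 := by ring
  rw [h1, h2, e, pow_succ]
  have h3 : (i.factorial : ℝ) ≠ 0 := by positivity
  have h4 : (j.factorial : ℝ) ≠ 0 := by positivity
  have h5 : ((i + j + 1).factorial : ℝ) ≠ 0 := by positivity
  have h6 : ((j : ℝ) + 1) ≠ 0 := by positivity
  field_simp

theorem P_eq_cs (lam c : ℝ) (n : ℕ) : A3.P lam c (n + 1) = -2 * cs n (2 * c / lam) lam⁻¹ := by
  rw [A3.P_eq lam c (by omega), cs, ← Finset.Nat.sum_antidiagonal_swap, mul_sum,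
    Finset.Nat.sum_antidiagonal_eq_sum_range_succ_mk]
  have e0 : 2 * (n + 1) - 1 = 2 * n + 1 := by omega
  rw [e0]
  have hsub : range (n + 1) ⊆ range (2 * n + 1) := by
    intro i hi
    rw [mem_range] at hi ⊢
    omega
  rw [← sum_subset hsub]
  · refine sum_congr rfl fun j hj => ?_
    have hj' : j ≤ n := Nat.lt_succ_iff.1 (mem_range.1 hj)
    have e1 : n + 1 - 1 - j = n - j := by omega
    rw [if_pos (by omega), e1, K_eq_KK, bc_eq]
    have e3 : 2 * n - j = 2 * (n - j) + j := by omega
    have e4 : 2 * n - 2 * j = 2 * (n - j) := by omega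
    simp only [Prod.swap_prod_mk]
    rw [e3, e4, pow_mul (-(2 * c / lam)), neg_sq, ← pow_mul, one_div]
    ring
  · intro j _ hj
    rw [mem_range] at hj
    rw [if_neg hj, mul_zero]

/-- the bound of the coefficient for `m = 4` -/
theorem coef4_le (n : ℕ) {a μ : ℝ} (ha : 1 ≤ |a|) (hμ : |μ| ≤ 2) :
    |2 * (a⁻¹ * cs n (μ / a) a⁻¹)| ≤
      ((4 * (n + 1)).choose (2 * (n + 1)) : ℝ) / (2 * (n + 1 : ℕ) + 1) := by
  have h1 := P_eq_cs a (μ / 2) n
  have h2 : 2 * (μ / 2) / a = μ / a := by ring
  rw [h2] at h1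
  have h3 : 2 * (a⁻¹ * cs n (μ / a) a⁻¹) = -(a⁻¹ * A3.P a (μ / 2) (n + 1)) := by
    rw [h1]
    ring
  have h4 : |μ / 2| ≤ 1 := by
    rw [abs_div, abs_two]
    linarith
  have h5 := A3.abs_P_le' (n := n + 1) (by omega) ha h4
  have ha0 : 0 < |a| := lt_of_lt_of_le one_pos ha
  rw [h3, abs_neg, abs_mul, abs_inv]
  refine le_trans ?_ h5
  have h6 : |a|⁻¹ ≤ 1 := inv_le_one_of_one_le₀ ha
  calc |a|⁻¹ * |A3.P a (μ / 2) (n + 1)| ≤ 1 * |A3.P a (μ / 2) (n + 1)| :=
        mul_le_mul_of_nonneg_right h6 (abs_nonneg _)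
    _ = _ := one_mul _

/-- the bound of the coefficient for `m = 8` -/
theorem coef8_le {a μ : ℝ} (ha : 1 ≤ |a|) (hμ : |μ| ≤ 6) :
    |2 * (-3 / a ^ 2 + μ ^ 2 / a ^ 3)| ≤ 78 := by
  have ha0 : 0 < |a| := lt_of_lt_of_le one_pos ha
  have h1 : |(-3 : ℝ) / a ^ 2| ≤ 3 := by
    rw [abs_div, abs_pow, abs_neg]
    have : (1 : ℝ) ≤ |a| ^ 2 := one_le_pow₀ ha
    rw [div_le_iff₀ (by positivity)]
    norm_num
    nlinarith
  have h2 : |μ ^ 2 / a ^ 3| ≤ 36 := by
    rw [abs_div, abs_pow, abs_pow]
    have h3 : (1 : ℝ) ≤ |a| ^ 3 := one_le_pow₀ ha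
    have h4 : |μ| ^ 2 ≤ 36 := by nlinarith [abs_nonneg μ]
    rw [div_le_iff₀ (by positivity)]
    nlinarith
  rw [abs_mul, abs_two]
  have h3 := abs_add_le ((-3 : ℝ) / a ^ 2) (μ ^ 2 / a ^ 3)
  linarith

end Vale.Agent.P231.H584
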