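import Vale.Agent.P231.H584.Tow
import Vale.Agent.P231.BX.Core

/-!
# P231, stage 3, integrality (thin cycles): the functionals as box integrals

`bxL b A G` is the integral of a form over the compact domain `A` of a plot `G`, in the orientation
of the basis `b`. One step of the tower: `G' ((x, t), s) = H (Φ (G x, T t), s)` over
`(A × [0,1]) × [0,1]`, oriented by `bB b`.
-/

set_option linter.unusedSectionVars false
set_option linter.unusedVariables false

open MeasureTheory Set Module Filter Topology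
open scoped ContDiff Real

namespace Vale.Agent.P231.H584

open Fm W BX
open Fm.Form (IsDeg part isDeg_part part_add part_smul part_succ_d part_pull part_K)

section Bas

variable {E : Type*} [NormedAddCommGroup E] [NormedSpace ℝ E] [FiniteDimensional ℝ E]
  [MeasurableSpace E] [BorelSpace E] {N : ℕ}

/-- the basis `((0, 1), (b₀, 0), …)` of `E × ℝ` -/
noncomputable def cB (b : Basis (Fin N) ℝ E) : Basis (Fin (N + 1)) ℝ (E × ℝ) :=
  (TW.pB b (Basis.singleton (Fin 1) ℝ)).reindex (finCongr (Nat.add_comm 1 N))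

theorem cB_zero (b : Basis (Fin N) ℝ E) : cB b 0 = (0, 1) := by
  have h1 : (finCongr (Nat.add_comm 1 N)).symm 0 = Fin.castAdd N (0 : Fin 1) := by
    ext
    simp
  rw [cB, Basis.reindex_apply, h1, TW.pB_castAdd]
  simp

theorem cB_succ (b : Basis (Fin N) ℝ E) (i : Fin N) : cB b i.succ = (b i, 0) := by
  have h1 : (finCongr (Nat.add_comm 1 N)).symm i.succ = Fin.natAdd 1 i := by
    ext
    simp [Nat.add_comm]
  rw [cB, Basis.reindex_apply, h1, TW.pB_natAdd]

theorem addHaar_singleton : (Basis.singleton (Fin 1) ℝ).addHaar = (volume : Measure ℝ) := by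
  rw [Basis.addHaar_eq_iff]
  have h1 : ((Basis.singleton (Fin 1) ℝ).parallelepiped : Set ℝ) = Icc 0 1 := by
    rw [Basis.coe_parallelepiped]
    ext t
    rw [mem_parallelepiped_iff]
    constructor
    · rintro ⟨f, hf, rfl⟩
      have h2 := hf.1 0
      have h3 := hf.2 0
      simp only [Pi.zero_apply, Pi.one_apply] at h2 h3
      simpa using ⟨h2, h3⟩
    · intro ht
      exact ⟨fun _ => t, ⟨fun _ => ht.1, fun _ => ht.2⟩, by simp⟩
  rw [h1, Real.volume_Icc]
  simp

theorem addHaar_cB (b : Basis (Fin N) ℝ E) :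
    (cB b).addHaar = b.addHaar.prod (volume : Measure ℝ) := by
  rw [cB, Basis.addHaar_reindex, TW.pB, Basis.addHaar_reindex, Basis.prod_addHaar,
    addHaar_singleton]

theorem evalForm_cB (b : Basis (Fin N) ℝ E) (W : Lam (E × ℝ)) :
    evalForm W (cB b) = evalForm (at1 W) b := by
  rw [evalForm_apply, cont_succ, cB_zero, at1_apply, evalForm_apply]
  have h1 : (fun i : Fin N => cB b i.succ) = fun i => ContinuousLinearMap.inl ℝ E ℝ (b i) := by
    funext i
    rw [cB_succ]
    rfl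
  rw [h1, ← evalForm_apply, ← evalForm_pull]
  rfl

/-- the basis of `(E × ℝ) × ℝ` in the order `∂_t, ∂_s, b` -/
noncomputable def bB (b : Basis (Fin N) ℝ E) : Basis (Fin (N + 2)) ℝ ((E × ℝ) × ℝ) :=
  (cB (cB b)).reindex (Equiv.swap 0 1)

theorem bB_zero (b : Basis (Fin N) ℝ E) : bB b 0 = ((0, 1), 0) := by
  rw [bB, Basis.reindex_apply, Equiv.symm_swap, Equiv.swap_apply_left]
  exact (cB_succ (cB b) 0).trans (by rw [cB_zero])

theorem bB_one (b : Basis (Fin N) ℝ E) : bB b 1 = ((0, 0), 1) := by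
  rw [bB, Basis.reindex_apply, Equiv.symm_swap, Equiv.swap_apply_right]
  exact cB_zero (cB b)

theorem bB_succ (b : Basis (Fin N) ℝ E) (i : Fin N) : bB b i.succ.succ = ((b i, 0), 0) := by
  rw [bB, Basis.reindex_apply, Equiv.symm_swap,
    Equiv.swap_apply_of_ne_of_ne (Fin.succ_ne_zero _) (by
      intro h
      exact Fin.succ_ne_zero i (Fin.succ_injective _ h))]
  rw [cB_succ, cB_succ]

theorem addHaar_bB (b : Basis (Fin N) ℝ E) :
    (bB b).addHaar = (b.addHaar.prod (volume : Measure ℝ)).prod (volume : Measure ℝ) := by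
  rw [bB, Basis.addHaar_reindex, addHaar_cB, addHaar_cB]

theorem evalForm_bB (b : Basis (Fin N) ℝ E) (W : Lam ((E × ℝ) × ℝ)) :
    evalForm W (bB b) = -evalForm (at1 (at1 W)) b := by
  have h1 : (bB b : Fin (N + 2) → (E × ℝ) × ℝ) = (cB (cB b)) ∘ Equiv.swap 0 1 := by
    funext i
    rw [bB, Basis.reindex_apply, Equiv.symm_swap]
    rfl
  rw [h1, AlternatingMap.map_swap _ _ (by simp), evalForm_cB, evalForm_cB]

end Bas

/-- the box `(A × [0,1]) × [0,1]` -/
def bA {E : Type*} (A : Set E) : Set ((E × ℝ) × ℝ) := (A ×ˢ Icc 0 1) ×ˢ Icc 0 1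

section Int

variable {E : Type} [NormedAddCommGroup E] [NormedSpace ℝ E] [FiniteDimensional ℝ E]
  [MeasurableSpace E] [BorelSpace E] {N : ℕ} {X : Type*} {D : Dif X}

theorem continuous_val (w : Form D) {G : E → X} (hG : ∀ x, D.At G x) : Continuous (w.val G) :=
  continuous_iff_continuousAt.2 fun x => (w.smooth (hG x)).continuousAt

theorem continuous_evalForm (w : Form D) {G : E → X} (hG : ∀ x, D.At G x) (b : Fin N → E) :
    Continuous fun x => evalForm (w.val G x) b := by
  have h1 := (evalL b).continuous.comp (continuous_val w hG)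
  exact h1

/-- the integral of a form over a compact piece of a plot -/
noncomputable def bxL (b : Basis (Fin N) ℝ E) {A : Set E} (hA : IsCompact A) {G : E → X}
    (hG : ∀ x, D.At G x) : Form D →ₗ[ℝ] ℝ where
  toFun w := JD b A (w.val G)
  map_add' v w := by
    unfold JD
    rw [← integral_add ((continuous_evalForm v hG b).continuousOn.integrableOn_compact hA)
      ((continuous_evalForm w hG b).continuousOn.integrableOn_compact hA)]
    refine integral_congr_ae (Eventually.of_forall fun x => ?_)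
    change evalL b ((v + w).val G x) = evalL b (v.val G x) + evalL b (w.val G x)
    rw [← map_add]
    rfl
  map_smul' r w := by
    unfold JD
    rw [RingHom.id_apply, smul_eq_mul, ← integral_const_mul]
    refine integral_congr_ae (Eventually.of_forall fun x => ?_)
    change evalL b ((r • w).val G x) = r * evalL b (w.val G x)
    rw [← smul_eq_mul, ← map_smul]
    rfl

theorem bxL_apply (b : Basis (Fin N) ℝ E) {A : Set E} (hA : IsCompact A) {G : E → X}
    (hG : ∀ x, D.At G x) (w : Form D) : bxL b hA hG w = JD b A (w.val G) := rfl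

theorem bxL_eq (b : Basis (Fin N) ℝ E) {A : Set E} (hA : IsCompact A) {G : E → X}
    (hG : ∀ x, D.At G x) (w : Form D) :
    bxL b hA hG w = ∫ x in A, evalForm (w.val G x) b ∂b.addHaar := rfl

theorem bxL_part (b : Basis (Fin N) ℝ E) {A : Set E} (hA : IsCompact A) {G : E → X}
    (hG : ∀ x, D.At G x) (w : Form D) : bxL b hA hG (part N w) = bxL b hA hG w := by
  rw [bxL_eq, bxL_eq]
  refine integral_congr_ae (Eventually.of_forall fun x => ?_)
  exact WA.evalForm_prt _ _

end Int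

section Plot

variable {E : Type} [NormedAddCommGroup E] [NormedSpace ℝ E] [FiniteDimensional ℝ E]
variable {X₁ X₂ : Type*} {D₁ : Dif X₁} {D₂ : Dif X₂} {Φ₁ : X₁ × ℝ → X₁} {H : X₁ × ℝ → X₂}

/-- the next plot -/
def nG {E X₁ X₂ : Type*} (Φ₁ : X₁ × ℝ → X₁) (T : ℝ) (H : X₁ × ℝ → X₂) (G : E → X₁)
    (p : (E × ℝ) × ℝ) : X₂ :=
  H (Φ₁ (G p.1.1, T * p.1.2), p.2)

theorem nG_plot1 (h : (D₁.prod (Dif.lin ℝ)).Map D₁ Φ₁) (T : ℝ) {G : E → X₁}
    {p : E × ℝ} (hG : D₁.At G p.1) : D₁.At (fun p : E × ℝ => Φ₁ (G p.1, T * p.2)) p :=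
  h (map_scale T (Form.cyl_at hG p.2))

theorem nG_plot (h : (D₁.prod (Dif.lin ℝ)).Map D₁ Φ₁) (hH : (D₁.prod (Dif.lin ℝ)).Map D₂ H)
    (T : ℝ) {G : E → X₁} {p : (E × ℝ) × ℝ} (hG : D₁.At G p.1.1) : D₂.At (nG Φ₁ T H G) p :=
  hH (Form.cyl_at (nG_plot1 h T hG) p.2)

end Plot

section Step

variable {E : Type} [NormedAddCommGroup E] [NormedSpace ℝ E] [FiniteDimensional ℝ E]
  [MeasurableSpace E] [BorelSpace E] {N : ℕ}
variable {X₁ X₂ : Type*} {D₁ : Dif X₁} {D₂ : Dif X₂} {T : ℝ} {Φ₁ : X₁ × ℝ → X₁}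
  {H : X₁ × ℝ → X₂}

theorem JK_val (h : (D₁.prod (Dif.lin ℝ)).Map D₁ Φ₁) (hH : (D₁.prod (Dif.lin ℝ)).Map D₂ H)
    (T : ℝ) {G : E → X₁} (hG : ∀ x, D₁.At G x) (w : Form D₂) (x : E) (b : Basis (Fin N) ℝ E) :
    -evalForm ((J Φ₁ h T (Form.K (Form.pull H hH w))).val G x) b =
      ∫ t in (0 : ℝ)..1, ∫ s in (0 : ℝ)..1,
        evalForm (w.val (nG Φ₁ T H G) ((x, t), s)) (bB b) := by
  have hc := continuous_val w (fun p => nG_plot h hH T (p := p) (hG p.1.1))
  have h1 : ∀ t : ℝ, (Form.K (Form.pull H hH w)).val (fun p : E × ℝ => Φ₁ (G p.1, T * p.2))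
      (x, t) = ∫ s in (0 : ℝ)..1, at1 (w.val (nG Φ₁ T H G) ((x, t), s)) := by
    intro t
    rw [Form.K_val _ (nG_plot1 h T (p := (x, t)) (hG x)), kop]
    refine intervalIntegral.integral_congr fun s _ => ?_
    change at1 _ = at1 _
    rw [Form.pull_val hH w (Form.cyl_at (nG_plot1 h T (p := (x, t)) (hG x)) s)]
    rfl
  have h2 : (J Φ₁ h T (Form.K (Form.pull H hH w))).val G x =
      ∫ t in (0 : ℝ)..1, at1 (∫ s in (0 : ℝ)..1, at1 (w.val (nG Φ₁ T H G) ((x, t), s))) := by
    rw [J_def, KT, Form.K_val _ (hG x), kop]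
    refine intervalIntegral.integral_congr fun t _ => ?_
    change at1 _ = at1 _
    rw [Form.pull_val _ _ (Form.cyl_at (hG x) t), Form.pull_val h _
      (map_scale T (Form.cyl_at (hG x) t)), ← h1]
    rfl
  have hci : Continuous fun t : ℝ => ∫ s in (0 : ℝ)..1, at1 (w.val (nG Φ₁ T H G) ((x, t), s)) := by
    refine intervalIntegral.continuous_parametric_intervalIntegral_of_continuous' (μ := volume)
      (f := fun t s => at1 (w.val (nG Φ₁ T H G) ((x, t), s))) ?_ 0 1
    exact (at1 (E := E × ℝ)).continuous.comp (hc.comp (by fun_prop))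
  rw [h2]
  change -(evalL b (∫ t in (0 : ℝ)..1, at1 (∫ s in (0 : ℝ)..1,
    at1 (w.val (nG Φ₁ T H G) ((x, t), s))))) = _
  have h5 : evalL b (∫ t in (0 : ℝ)..1, at1 (∫ s in (0 : ℝ)..1,
      at1 (w.val (nG Φ₁ T H G) ((x, t), s)))) = ∫ t in (0 : ℝ)..1, evalL b (at1 (∫ s in (0 : ℝ)..1,
      at1 (w.val (nG Φ₁ T H G) ((x, t), s)))) :=
    (ContinuousLinearMap.intervalIntegral_comp_comm (evalL (b : Fin N → E))
      (((at1 (E := E)).continuous.comp hci).intervalIntegrable _ _)).symm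
  rw [h5, ← intervalIntegral.integral_neg]
  refine intervalIntegral.integral_congr fun t _ => ?_
  change -(evalL b (at1 (∫ s in (0 : ℝ)..1, at1 (w.val (nG Φ₁ T H G) ((x, t), s))))) = _
  have h3 : evalL b (at1 (∫ s in (0 : ℝ)..1, at1 (w.val (nG Φ₁ T H G) ((x, t), s)))) =
      ∫ s in (0 : ℝ)..1, evalL b (at1 (at1 (w.val (nG Φ₁ T H G) ((x, t), s)))) := by
    have h4 : Continuous fun s : ℝ => at1 (w.val (nG Φ₁ T H G) ((x, t), s)) :=
      (at1 (E := E × ℝ)).continuous.comp (hc.comp (by fun_prop))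
    exact (ContinuousLinearMap.intervalIntegral_comp_comm ((evalL b).comp (at1 (E := E)))
      (h4.intervalIntegrable _ _)).symm
  rw [h3, ← intervalIntegral.integral_neg]
  refine intervalIntegral.integral_congr fun s _ => ?_
  change -(evalL b (at1 (at1 (w.val (nG Φ₁ T H G) ((x, t), s))))) = _
  rw [evalL_apply, evalForm_bB]

/-- Fubini for the box -/
theorem box_fubini (b : Basis (Fin N) ℝ E) {A : Set E} (hA : IsCompact A)
    {f : (E × ℝ) × ℝ → ℝ} (hf : Continuous f) :
    ∫ p in bA A, f p ∂(bB b).addHaar =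
      ∫ x in A, (∫ t in (0 : ℝ)..1, ∫ s in (0 : ℝ)..1, f ((x, t), s)) ∂b.addHaar := by
  have hAI : IsCompact (A ×ˢ Icc (0 : ℝ) 1) := hA.prod isCompact_Icc
  have h1 : ∀ q : E × ℝ, ∫ s in Icc (0 : ℝ) 1, f (q, s) = ∫ s in (0 : ℝ)..1, f (q, s) := by
    intro q
    rw [intervalIntegral.integral_of_le zero_le_one, integral_Icc_eq_integral_Ioc]
  have hc : Continuous fun q : E × ℝ => ∫ s in (0 : ℝ)..1, f (q, s) :=
    intervalIntegral.continuous_parametric_intervalIntegral_of_continuous' (μ := volume)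
      (f := fun q s => f (q, s)) (hf.comp (by fun_prop)) 0 1
  rw [addHaar_bB, bA, setIntegral_prod _ (by
    rw [← addHaar_cB, ← addHaar_singleton, ← Basis.prod_addHaar]
    exact hf.continuousOn.integrableOn_compact (hAI.prod isCompact_Icc))]
  simp only [h1]
  rw [setIntegral_prod _ (by
    rw [← addHaar_cB]
    exact hc.continuousOn.integrableOn_compact hAI)]
  refine integral_congr_ae (Eventually.of_forall fun x => ?_)
  change ∫ t in Icc (0 : ℝ) 1, ∫ s in (0 : ℝ)..1, f ((x, t), s) =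
    ∫ t in (0 : ℝ)..1, ∫ s in (0 : ℝ)..1, f ((x, t), s)
  rw [intervalIntegral.integral_of_le zero_le_one (f := fun t => ∫ s in (0 : ℝ)..1, f ((x, t), s)),
    integral_Icc_eq_integral_Ioc]

/-- **one step of the tower is a box integral** -/
theorem nxt_bxL (h₁ : IsFlow D₁ T Φ₁) (hH : (D₁.prod (Dif.lin ℝ)).Map D₂ H)
    (b : Basis (Fin N) ℝ E) {A : Set E} (hA : IsCompact A) (hA' : IsCompact (bA A)) {G : E → X₁}
    (hG : ∀ x, D₁.At G x) (w : Form D₂) :
    nxt h₁ hH (bxL b hA hG) w =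
      bxL (bB b) hA' (fun p => nG_plot h₁.map hH T (p := p) (hG p.1.1)) w := by
  rw [nxt_apply, bxL_eq, bxL_eq, ← integral_neg]
  simp only [JK_val h₁.map hH T hG w _ b]
  exact (box_fubini b hA (continuous_evalForm w (fun p => nG_plot h₁.map hH T (p := p)
    (hG p.1.1)) (bB b))).symm

end Step

end Vale.Agent.P231.H584
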