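import Vale.Agent.P231.H584.Phi

/-!
# P231, stages 2 and 3: the formal theorem for higher multiplicity (Phi-side)

`U` is the unit tangent bundle with its geodesic flow `φU` of period `T = 2 D`, `pi : B → U` is the
sphere bundle of the field of null planes, with the lifted geodesic flow `φ`, the rotation flow
`ψ` and the deck transformation `σ` (half period of the geodesic flow composed with the antipodal
map of the fibre), `P` is integration along the fibres of `pi`.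
-/

set_option linter.unusedSectionVars false
set_option linter.unusedVariables false

open MeasureTheory Set Module Filter Topology
open scoped ContDiff Real

namespace Vale.Agent.P231.H584

open Fm W

variable {B U M : Type*} {dB : Dif B} {dU : Dif U} {dM : Dif M}

theorem pull_pr {X Y : Type*} {D : Dif X} {D' : Dif Y} {f : X → Y} (hf : D.Map D' f)
    (w : Form D') : Form.pull (fun p : X × ℝ => (f p.1, p.2)) (map_cyl hf) (pr w) =
      pr (Form.pull f hf w) :=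
  (pull_pull (map_cyl hf) Dif.map_fst (map_comp_fst hf) (fun p => rfl) w).trans
    (pull_pull Dif.map_fst hf (map_comp_fst hf) (fun p => rfl) w).symm

theorem pull_fn {X Y : Type*} {D : Dif X} {D' : Dif Y} {f : X → Y} (hf : D.Map D' f)
    {h : Y → ℝ} (hh : D'.Map (Dif.lin ℝ) h) (hk : D.Map (Dif.lin ℝ) (fun x => h (f x))) :
    Form.pull f hf (Form.fn h hh) = Form.fn (fun x => h (f x)) hk :=
  Form.ext_val fun E _ _ _ u x hu => by
    rw [Form.pull_val _ _ hu, Form.fn_val _ _ (hf hu), Form.fn_val _ _ hu]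
    rfl

theorem pull_dt {X Y : Type*} {D : Dif X} {D' : Dif Y} {f : X → Y} (hf : D.Map D' f) :
    Form.pull (fun p : X × ℝ => (f p.1, p.2)) (map_cyl hf) dt = dt := by
  rw [dt, Form.pull_d, pull_fn (map_cyl hf) Dif.map_snd Dif.map_snd, dt]

/-- `J` commutes with maps commuting with the flows -/
theorem pull_J {X Y : Type*} {D : Dif X} {D' : Dif Y} {φ : X × ℝ → X} {φ' : Y × ℝ → Y}
    (hφ : (D.prod (Dif.lin ℝ)).Map D φ) (hφ' : (D'.prod (Dif.lin ℝ)).Map D' φ') {f : X → Y}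
    (hf : D.Map D' f) (hc : ∀ x t, f (φ (x, t)) = φ' (f x, t)) (c : ℝ) (w : Form D') :
    Form.pull f hf (J φ' hφ' c w) = J φ hφ c (Form.pull f hf w) := by
  have h1 : (D.prod (Dif.lin ℝ)).Map (D'.prod (Dif.lin ℝ)) (fun p => (f p.1, c * p.2)) :=
    fun {E} _ _ _ {u x} hh => map_scale c (map_cyl hf hh)
  have h2 : (D.prod (Dif.lin ℝ)).Map D' (fun p => φ' (f p.1, c * p.2)) :=
    fun {E} _ _ _ {u x} hh => hφ' (h1 hh)
  have h3 : (D.prod (Dif.lin ℝ)).Map D' (fun p => φ' (f p.1, p.2)) :=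
    fun {E} _ _ _ {u x} hh => hφ' (map_cyl hf hh)
  rw [J_def, J_def, KT, KT, ← K_nat hf]
  congr 1
  rw [pull_pull (map_cyl hf) (map_scale c) h1 (fun p => rfl),
    pull_pull h1 hφ' h2 (fun p => rfl), pull_pull hφ hf h3 (fun p => hc _ _),
    pull_pull (map_scale c) h3 h2 (fun p => rfl)]

/-- **Formal theorem, higher multiplicity.** -/
theorem phi_side {n p q N : ℕ} {D : ℝ} (hD : 0 < D)
    {φU : U × ℝ → U} (hφU : IsFlow dU (2 * D) φU)
    {φ ψ : B × ℝ → B} (hφ : IsFlow dB (2 * D) φ) {c : ℝ} (hψ : IsFlow dB c ψ)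
    {pi : B → U} (hpi : dB.Map dU pi) (hpφ : ∀ b t, pi (φ (b, t)) = φU (pi b, t))
    {foot : U → M} (hfoot : dU.Map dM foot)
    (hfψ : ∀ b t, foot (pi (ψ (b, t))) = foot (pi b))
    (hfψ' : ∀ b t, foot (φU (pi (ψ (b, t)), D)) = foot (φU (pi b, D)))
    {σ : B → B} (hσ : dB.Map dB σ) (hσσ : ∀ b, σ (σ b) = b)
    (hσφ : ∀ b t, σ (φ (b, t)) = φ (σ b, t)) (hσπ : ∀ b, pi (σ b) = φU (pi b, D))
    {g : B × ℝ → M} (hg : (dB.prod (Dif.lin ℝ)).Map dM g)
    (hg0 : ∀ b, g (b, 0) = foot (pi b)) (hg1 : ∀ b t, g (φ (b, t), 1) = g (b, 1))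
    {F : Form dM} (hFe : F.sg = F) (hF : F.d = 0) (hFn : F ^ (n + 2) = 0)
    {α : Form dU} (hαo : α.sg = -α) (hα : Form.pull φU hφU.map α = pr α + dt)
    {I : Form dU →ₗ[ℝ] ℝ} {P : Form dB →ₗ[ℝ] Form dU}
    (hId : ∀ w : Form dB, I (P w.d) = 0) (hIφ : ∀ w : Form dB, Basic φ hφ.map w → I (P w) = 0)
    (hIψ : ∀ w : Form dB, Basic ψ hψ.map w → I (P w) = 0)
    (hIσ : ∀ w : Form dB, I (P (Form.pull σ hσ w)) = -I (P w))
    (hPd : ∀ w : Form dB, P w.d = (P w).d)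
    (hPm : ∀ (w : Form dB) (v : Form dU), P (w * Form.pull pi hpi v) = P w * v)
    (hαN : α.d ^ (N + 1) = 0)
    {B0 : Form dU} (hB0 : B0 = KT D (Form.pull (fun p => foot (φU p))
      (Dif.Map.comp (f := φU) (g := foot) hfoot hφU.map) F))
    {k : ℝ} (hk : k ≠ 0) (hk0 : P (J ψ hψ.map c (Form.pull pi hpi B0)) = k • 1)
    {b1 : Form dB} (hb1 : b1 = J φ hφ.map (2 * D) (Form.K (Form.pull g hg F) -
      Form.pull σ hσ (Form.K (Form.pull g hg F))))
    {ε : ℝ} (hε : ε ≠ 0) {l : Form dB}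
    (hl : b1 = ε • J ψ hψ.map c (Form.pull pi hpi B0) + l.d)
    {a μ C : ℝ} {ρ : Form dB} (hρ : Basic φ hφ.map ρ)
    (hrel : b1 ^ 2 = a • ((2 * D)⁻¹ • Form.pull pi hpi α.d) ^ p +
      μ • (((2 * D)⁻¹ • Form.pull pi hpi α.d) ^ q *
        (Form.pull (fun b => g (b, 1)) (map_at hg 1) F +
          Form.pull σ hσ (Form.pull (fun b => g (b, 1)) (map_at hg 1) F))) + ρ.d)
    (hcoef : ∀ e b x y : Bas φ hφ.map ⧸ Exa φ hφ.map, x ^ (n + 2) = 0 → y ^ (n + 2) = 0 →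
      x - y = e * b → b ^ 2 = a • e ^ p + μ • (e ^ q * (x + y)) →
      e ^ N * b = C • (b ^ 2 * WW x y n)) :
    I (α * α.d ^ N) = -2 * (2 * D) ^ (N + 1) * C *
      I (B0 * (Form.pull foot hfoot F ^ (n + 1) *
        Form.pull (fun v => foot (φU (v, D)))
          (Dif.Map.comp (f := fun v => φU (v, D)) (g := foot) hfoot (map_at hφU.map D)) F ^
            n)) := by
  set T := 2 * D with hTD
  have hT : T ≠ 0 := by positivity
  have hpD : dU.Map dM (fun v => foot (φU (v, D))) :=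
    Dif.Map.comp (f := fun v => φU (v, D)) (g := foot) hfoot (map_at hφU.map D)
  have hgam : (dU.prod (Dif.lin ℝ)).Map dM (fun p => foot (φU p)) :=
    Dif.Map.comp (f := φU) (g := foot) hfoot hφU.map
  obtain ⟨hx1, hx2, hx3⟩ := pull_good hF hFe hFn hfoot
  obtain ⟨hd1, hd2, hd3⟩ := pull_good hF hFe hFn hpD
  obtain ⟨hm1, hm2, hm3⟩ := pull_good hF hFe hFn hgam
  obtain ⟨hp1, hp2, hp3⟩ := pull_good hF hFe hFn hg
  set Fx := Form.pull foot hfoot F with hFx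
  set Fb := Form.pull (fun v => foot (φU (v, D))) hpD F with hFb
  -- the path on `U`
  have hPB : Pth (n + 1) Fx Fb B0 := by
    have h := Pth.of_cyl D hm1 hm2 hm3
    have h0 : at_ 0 (Form.pull (fun p => foot (φU p)) hgam F) = Fx :=
      pull_pull (Form.map_slice 0) hgam hfoot (fun v => by rw [hφU.zero]) F
    have hDD : at_ D (Form.pull (fun p => foot (φU p)) hgam F) = Fb := at_pull_of hgam D F
    rw [hB0]
    rwa [h0, hDD] at h
  -- objects on `B`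
  set F1 := Form.pull g hg F with hF1
  set F2 := Form.pull (fun p : B × ℝ => (σ p.1, p.2)) (map_cyl hσ) F1 with hF2
  set Bx := Form.pull pi hpi Fx with hBx
  set Bb := Form.pull pi hpi Fb with hBb
  set B1 := Form.pull pi hpi B0 with hB1
  have hpx : dB.Map dM (fun b => foot (pi b)) := Dif.Map.comp (f := pi) (g := foot) hfoot hpi
  have hBx' : Bx = Form.pull (fun b => foot (pi b)) hpx F :=
    pull_pull hpi hfoot hpx (fun b => rfl) F
  have hpb : dB.Map dM (fun b => foot (φU (pi b, D))) :=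
    Dif.Map.comp (f := pi) (g := fun v => foot (φU (v, D))) hpD hpi
  have hBb' : Bb = Form.pull (fun b => foot (φU (pi b, D))) hpb F :=
    pull_pull hpi hpD hpb (fun b => rfl) F
  have hσx : Form.pull σ hσ Bx = Bb := by
    rw [hBx', hBb']
    exact pull_pull hσ hpx hpb (fun b => by rw [hσπ]) F
  have hPp : Pth (n + 1) (pr Bx) F1 (Pm F1) := by
    rw [hBx']
    exact Pth.of_homotopy hF hFe hFn hg hpx hg0
  have hPp2 := hPp.pull (map_cyl hσ)
  rw [pull_pr hσ, hσx] at hPp2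
  set Am := Form.pull (fun p : B × ℝ => (σ p.1, p.2)) (map_cyl hσ) (Pm F1) with hAm
  have hPB2 : Pth (n + 1) (pr Bx) (pr Bb) (pr B1) := (hPB.pull hpi).pull Dif.map_fst
  have hβ : Pth (n + 1) F2 F1 (-Am + -pr B1 + Pm F1) := (hPp2.symm.trans hPB2.symm).trans hPp
  set β := -Am + -pr B1 + Pm F1 with hβdef
  have hn1 : ∀ s (w : Form (dB.prod (Dif.lin ℝ))), at_ s (-w) = -at_ s w := fun s w =>
    map_neg (Form.pullA (fun x : B => (x, s)) (Form.map_slice s)) w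
  have hAs : ∀ s, at_ s Am = Form.pull σ hσ (at_ s (Pm F1)) := fun s => at_pull_cyl s hσ _
  have hFs : ∀ s, at_ s F2 = Form.pull σ hσ (at_ s F1) := fun s => at_pull_cyl s hσ _
  have hβ0 : at_ 0 β = -B1 := by
    rw [hβdef, at_add, at_add, hn1, hn1, at_pr, hAs, Pm_zero]
    have : Form.pull σ hσ (0 : Form dB) = 0 := map_zero (Form.pullA _ hσ)
    rw [this, neg_zero, zero_add, add_zero]
  have hβ1 : at_ 1 β = Form.K F1 - Form.pull σ hσ (Form.K F1) - B1 := by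
    rw [hβdef, at_add, at_add, hn1, hn1, at_pr, hAs, Pm_at, KT_one]
    abel
  have hF10 : at_ 0 F1 = Bx := by
    rw [hBx']
    exact pull_pull (Form.map_slice 0) hg hpx hg0 F
  have hF20 : at_ 0 F2 = Bb := by rw [hFs, hF10, hσx]
  set G1 := Form.pull (fun b => g (b, 1)) (map_at hg 1) F with hG1
  have hF11 : at_ 1 F1 = G1 := at_pull_of hg 1 F
  have hF21 : at_ 1 F2 = Form.pull σ hσ G1 := by rw [hFs, hF11]
  set G2 := Form.pull σ hσ G1 with hG2
  have hG1b : Basic φ hφ.map G1 := basic_pull (map_at hg 1) hg1 F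
  have hG2b : Basic φ hφ.map G2 := by
    have h1 : dB.Map dM (fun b => g (σ b, 1)) := fun h => map_at hg 1 (hσ h)
    have h2 : G2 = Form.pull (fun b => g (σ b, 1)) h1 F :=
      pull_pull hσ (map_at hg 1) h1 (fun b => rfl) F
    rw [h2]
    exact basic_pull h1 (fun b t => by rw [hσφ, hg1]) F
  have hσG2 : Form.pull σ hσ G2 = G1 := by
    rw [hG2]
    exact (pull_pull (k := fun b : B => b) hσ hσ (fun h => h) hσσ G1).trans (Form.pull_id _ G1)
  have hBxψ : Basic ψ hψ.map Bx := by rw [hBx']; exact basic_pull hpx hfψ F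
  have hBbψ : Basic ψ hψ.map Bb := by rw [hBb']; exact basic_pull hpb hfψ' F
  -- the value of `J` at time one
  have hJB : J φ hφ.map T B1 = 0 := by
    rw [hB1, ← pull_J hφ.map hφU.map hpi hpφ, hB0]
    have h1 : Form.pull (fun p => foot (φU p)) hgam F = Form.pull φU hφU.map Fx :=
      (pull_pull hφU.map hfoot hgam (fun p => rfl) F).symm
    rw [h1, J_KT hφU]
    exact map_zero (Form.pullA pi hpi)
  have hJ1 : J φ hφ.map T (at_ 1 β) = b1 := by rw [hβ1, J_sub, hJB, sub_zero, hb1]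
  have hJ0 : J ψ hψ.map c (at_ 0 β) = -J ψ hψ.map c B1 := by rw [hβ0, J_neg]
  set b0 := J ψ hψ.map c B1 with hb0
  have hB1o : B1.sg = -B1 := (hPB.pull hpi).o
  have hB1d : B1.d = Bb - Bx := (hPB.pull hpi).db
  have hJe : ∀ {Ψ : B × ℝ → B} (hΨ : (dB.prod (Dif.lin ℝ)).Map dB Ψ) (r : ℝ) (w : Form dB),
      w.sg = -w → (J Ψ hΨ r w).sg = J Ψ hΨ r w := fun {Ψ} hΨ r w hw => by
    rw [J_def, KT_sg, ← Form.pull_sg, hw]
    have : Form.pull Ψ hΨ (-w) = -Form.pull Ψ hΨ w := map_neg (Form.pullA Ψ hΨ) w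
    rw [this, KT_neg, neg_neg]
  have hb0e : b0.sg = b0 := hJe hψ.map c B1 hB1o
  have hb0d : b0.d = 0 := by
    have h3 := J_d hψ B1
    rw [hB1d, J_of_basic c (Basic.sub hBbψ hBxψ)] at h3
    exact neg_eq_zero.1 h3.symm
  have hβ1o : (at_ 1 β).sg = -at_ 1 β := by rw [← at_sg, hβ.o, hn1]
  have hβ1d : (at_ 1 β).d = G1 - G2 := by rw [← at_d, hβ.db, at_sub, hF11, hF21]
  have hb1e : b1.sg = b1 := by
    rw [← hJ1]
    exact hJe hφ.map T _ hβ1o
  have hb1b : Basic φ hφ.map b1 := by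
    rw [← hJ1]
    exact J_basic hφ _
  obtain ⟨bh, hbe, hbd, hbh0, hbh1⟩ := exists_interp (b0 := ε • b0) (b1 := b1) (l := l)
    (by rw [Form.d_smul, hb0d, smul_zero]) (by rw [Form.sg_smul, hb0e]) hb1e hl
  -- exactness of `F_x ^ n`
  obtain ⟨ζ, hζ⟩ : ∃ ζ : Form dU, hh (n + 1) Fb Fx = ζ.d := by
    obtain ⟨m, hm⟩ := hPB.symm.ex
    have h1 := congrArg (Form.pull pi hpi) hm
    have h2 : Form.pull pi hpi (-B0 * hh (n + 1) Fb Fx) =
        -(B1 * Form.pull pi hpi (hh (n + 1) Fb Fx)) := by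
      refine (map_mul (Form.pullA pi hpi) (-B0) _).trans ?_
      have h3 : Form.pullA pi hpi (-B0) = -B1 := map_neg (Form.pullA pi hpi) B0
      rw [h3, neg_mul]
      rfl
    rw [h2, Form.pull_d, pull_hh] at h1
    have h4 := congrArg (J ψ hψ.map c) h1
    rw [J_neg, J_mul_basic _ _ (Basic.hh hBbψ hBxψ _), J_d hψ, neg_inj] at h4
    have h5 := congrArg P h4
    rw [← pull_hh, hPm, hk0, hPd, smul_mul_assoc, one_mul] at h5
    refine ⟨k⁻¹ • P (J ψ hψ.map c (Form.pull pi hpi m)), ?_⟩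
    rw [Form.d_smul, ← h5, smul_smul, inv_mul_cancel₀ hk, one_smul]
  obtain ⟨η0, hη0⟩ := pow_exact hd1 hx1 hd2 hPB.db hζ
  obtain ⟨η, hη⟩ : ∃ η : Form (dB.prod (Dif.lin ℝ)), F1 ^ (n + 1) = η.d := by
    obtain ⟨m, hm⟩ := pow_sub_exact hp1 hPp.d₀ hp2 hPp.db (n + 1)
    refine ⟨m + pr (Form.pull pi hpi η0), ?_⟩
    have h1 : Bx ^ (n + 1) = (Form.pull pi hpi η0).d := by
      rw [← Form.pull_d, ← hη0]
      exact (map_pow (Form.pullA pi hpi) Fx (n + 1)).symm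
    rw [Form.d_add, ← hm, ← pr_d, ← h1, pr_pow]
    abel
  have hF2n : F2 ^ (n + 2) = 0 := by
    refine (map_pow (Form.pullA _ (map_cyl hσ)) F1 (n + 2)).symm.trans ?_
    rw [hp3]
    exact map_zero (Form.pullA _ (map_cyl hσ))
  -- the bridge
  have hbr := bridge hφ hψ (I := I.comp P) (n := n) (ε := -ε) hId hIφ hIψ hβ hp3 hF2n hη
    (by rw [hF11]; exact hG1b) (by rw [hF21]; exact hG2b) (by rw [hF10]; exact hBxψ)
    (by rw [hF20]; exact hBbψ) hbe hbd (by rw [hbh1, hJ1]) (by rw [hbh0, hJ0, smul_neg, neg_smul,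
      neg_neg])
  rw [hF11, hF21, hF10, hF20, hbh1, hbh0, hβ0] at hbr
  have hcb0 : ∀ w, Commute b0 w := fun w => even_comm hb0e w
  have hend0 : (I.comp P) (-B1 * ε • b0 * (Bx ^ (n + 1) * Bb ^ n)) =
      -(ε * k * I (B0 * (Fx ^ (n + 1) * Fb ^ n))) := by
    have h1 : -B1 * ε • b0 * (Bx ^ (n + 1) * Bb ^ n) =
        (-ε) • (b0 * Form.pull pi hpi (B0 * (Fx ^ (n + 1) * Fb ^ n))) := by
      have h2 : Form.pull pi hpi (B0 * (Fx ^ (n + 1) * Fb ^ n)) =
          B1 * (Bx ^ (n + 1) * Bb ^ n) := by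
        refine (map_mul (Form.pullA pi hpi) B0 _).trans ?_
        rw [map_mul, map_pow, map_pow]
        rfl
      rw [h2, mul_smul_comm, smul_mul_assoc, neg_mul, neg_mul, smul_neg, neg_smul,
        ← (hcb0 B1).eq, mul_assoc]
    rw [h1, map_smul, LinearMap.comp_apply, hPm, hk0, smul_mul_assoc, one_mul, map_smul,
      smul_eq_mul, smul_eq_mul]
    ring
  rw [hend0] at hbr
  -- averaging
  set αB := Form.pull pi hpi α with hαB
  have hαBd : αB.d = Form.pull pi hpi α.d := (Form.pull_d _ _ _).symm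
  have hαBo : αB.sg = -αB := by
    rw [hαB, ← Form.pull_sg, hαo]
    exact map_neg (Form.pullA pi hpi) α
  have hαBf : Form.pull φ hφ.map αB = pr αB + dt := by
    have h0 : (dB.prod (Dif.lin ℝ)).Map dU (fun p => φU (pi p.1, p.2)) :=
      fun h => hφU.map (map_cyl hpi h)
    have h1 : Form.pull φ hφ.map αB = Form.pull (fun p : B × ℝ => (pi p.1, p.2)) (map_cyl hpi)
        (Form.pull φU hφU.map α) :=
      (pull_pull (k := fun p : B × ℝ => φU (pi p.1, p.2)) hφ.map hpi h0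
        (fun p => hpφ _ _) α).trans
          (pull_pull (map_cyl hpi) hφU.map h0 (fun p => rfl) α).symm
    rw [h1, hα]
    refine (map_add (Form.pullA _ (map_cyl hpi)) (pr α) dt).trans ?_
    congr 1
    · exact pull_pr hpi α
    · exact pull_dt hpi
  have hσα : Form.pull σ hσ αB = αB := by
    have h0 : dU.Map dU (fun v => φU (v, D)) := map_at hφU.map D
    have h1 : Form.pull (fun v => φU (v, D)) h0 α = α := by
      have h2 := congrArg (at_ D) hα
      rw [at_add, at_pr, at_dt, add_zero] at h2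
      rw [← at_pull_of hφU.map D α, h2]
    have h3 : dB.Map dU (fun b => φU (pi b, D)) := fun h => h0 (hpi h)
    have h4 : Form.pull σ hσ αB = Form.pull pi hpi (Form.pull (fun v => φU (v, D)) h0 α) :=
      (pull_pull hσ hpi h3 hσπ α).trans (pull_pull hpi h0 h3 (fun b => rfl) α).symm
    rw [h4, h1]
  have hσb1 : Form.pull σ hσ b1 = -b1 := by
    have h1 : Form.pull σ hσ (Form.pull σ hσ (Form.K F1)) = Form.K F1 :=
      (pull_pull (k := fun b : B => b) hσ hσ (fun h => h) hσσ _).trans (Form.pull_id _ _)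
    have h2 : Form.pull σ hσ (Form.K F1 - Form.pull σ hσ (Form.K F1)) =
        -(Form.K F1 - Form.pull σ hσ (Form.K F1)) := by
      refine (map_sub (Form.pullA σ hσ) _ _).trans ?_
      change Form.pull σ hσ (Form.K F1) - Form.pull σ hσ (Form.pull σ hσ (Form.K F1)) = _
      rw [h1]
      abel
    rw [hb1, pull_J hφ.map hφ.map hσ hσφ, h2, J_neg]
  have hG1g : G1.d = 0 ∧ G1.sg = G1 ∧ G1 ^ (n + 2) = 0 := pull_good hF hFe hFn (map_at hg 1)
  have hG2g : G2.d = 0 ∧ G2.sg = G2 ∧ G2 ^ (n + 2) = 0 := pull_good hG1g.1 hG1g.2.1 hG1g.2.2 hσ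
  have hGb : Basic φ hφ.map (G1 ^ (n + 1) * G2 ^ n) :=
    Basic.mul (Basic.pow hG1b _) (Basic.pow hG2b _)
  have hb1d : b1.d = 0 := by rw [hl, Form.d_add, Form.d_smul, hb0d, Form.d_d, smul_zero, add_zero]
  have havg : T * (I.comp P) (at_ 1 β * b1 * (G1 ^ (n + 1) * G2 ^ n)) =
      (I.comp P) (αB * (b1 ^ 2 * (G1 ^ (n + 1) * G2 ^ n))) := by
    have h1 : Basic φ hφ.map (at_ 1 β * b1 * (G1 ^ (n + 1) * G2 ^ n)).d := by
      rw [d_mul_closed _ (mul_closed (pow_closed hG1g.1 _) (pow_closed hG2g.1 _)),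
        d_mul_closed _ hb1d, hβ1d]
      exact Basic.mul (Basic.mul (Basic.sub hG1b hG2b) hb1b) hGb
    have h2 := avg hφ hαBf hαBo (I := I.comp P) hId hIφ h1
    rw [h2, J_mul_basic _ _ hGb, J_mul_basic _ _ hb1b, hJ1, sq]
  have hWW : (I.comp P) (αB * (b1 ^ 2 * (G1 ^ (n + 1) * G2 ^ n - G1 ^ n * G2 ^ (n + 1)))) =
      2 * (I.comp P) (αB * (b1 ^ 2 * (G1 ^ (n + 1) * G2 ^ n))) := by
    have h1 : Form.pull σ hσ (αB * (b1 ^ 2 * (G1 ^ (n + 1) * G2 ^ n))) =
        αB * (b1 ^ 2 * (G1 ^ n * G2 ^ (n + 1))) := by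
      refine (map_mul (Form.pullA σ hσ) _ _).trans ?_
      rw [map_mul, map_mul, map_pow, map_pow, map_pow]
      change Form.pull σ hσ αB * (Form.pull σ hσ b1 ^ 2 * (G2 ^ (n + 1) *
        Form.pull σ hσ G2 ^ n)) = _
      have c1 : Commute (G2 ^ (n + 1)) (G1 ^ n) := even_comm (pow_even hG2g.2.1 _) _
      rw [hσα, hσb1, hσG2, neg_sq, c1.eq]
    have h2 := hIσ (αB * (b1 ^ 2 * (G1 ^ (n + 1) * G2 ^ n)))
    rw [h1] at h2
    rw [mul_sub, mul_sub, map_sub, LinearMap.comp_apply, LinearMap.comp_apply, h2]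
    ring
  have hβ1d' : (at_ 1 β).d = G1 - G2 := hβ1d
  have hring := phi_ring hφ hT hαBf hαBo (I := I.comp P) hId hIφ hcoef hG1g.2.1 hG1g.1 hG1b
    hG2g.2.1 hG2g.1 hG2b hG1g.2.2 hG2g.2.2 hβ1o hβ1d hρ (by rw [hJ1, hαBd]; exact hrel)
  rw [hJ1, hWW, ← havg, hbr] at hring
  -- the left hand side
  have hleft : (I.comp P) (αB * (αB.d ^ N * b1)) = ε * k * I (α * α.d ^ N) := by
    have h1 : (I.comp P) (αB * (αB.d ^ N * l.d)) = 0 := by
      have h2 := hId (αB.sg * αB.d ^ N * l)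
      have h3 : (αB.sg * αB.d ^ N * l).d = (αB.sg * αB.d ^ N).sg * l.d := by
        rw [Form.d_mul, Form.d_mul, Form.d_sg, d_even hαBo, pow_closed (Form.d_d _), mul_zero,
          add_zero, neg_mul, ← pow_succ', hαBd]
        have h4 : Form.pull pi hpi α.d ^ (N + 1) = 0 := by
          refine (map_pow (Form.pullA pi hpi) α.d (N + 1)).symm.trans ?_
          rw [hαN]
          exact map_zero (Form.pullA pi hpi)
        rw [h4, neg_zero, zero_mul, zero_add]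
      rw [h3, Form.sg_mul, Form.sg_sg, pow_even (d_even hαBo), mul_assoc] at h2
      exact h2
    have h5 : αB * (αB.d ^ N * b0) = b0 * Form.pull pi hpi (α * α.d ^ N) := by
      have h6 : Form.pull pi hpi (α * α.d ^ N) = αB * αB.d ^ N := by
        refine (map_mul (Form.pullA pi hpi) α _).trans ?_
        rw [map_pow, hαBd]
        rfl
      rw [h6, (hcb0 _).eq, mul_assoc]
    rw [hl, mul_add, mul_add, map_add, h1, add_zero, mul_smul_comm, mul_smul_comm, map_smul, h5,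
      LinearMap.comp_apply, hPm, hk0, smul_mul_assoc, one_mul, map_smul, smul_eq_mul,
      smul_eq_mul]
    ring
  rw [hleft] at hring
  have hεk : ε * k ≠ 0 := mul_ne_zero hε hk
  apply mul_left_cancel₀ hεk
  rw [hring]
  ring

/-- **Quaternionic case** (`dim M = 4 (n + 1)`). -/
theorem phi_side4 {n : ℕ} {D : ℝ} (hD : 0 < D)
    {φU : U × ℝ → U} (hφU : IsFlow dU (2 * D) φU)
    {φ ψ : B × ℝ → B} (hφ : IsFlow dB (2 * D) φ) {c : ℝ} (hψ : IsFlow dB c ψ)
    {pi : B → U} (hpi : dB.Map dU pi) (hpφ : ∀ b t, pi (φ (b, t)) = φU (pi b, t))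
    {foot : U → M} (hfoot : dU.Map dM foot)
    (hfψ : ∀ b t, foot (pi (ψ (b, t))) = foot (pi b))
    (hfψ' : ∀ b t, foot (φU (pi (ψ (b, t)), D)) = foot (φU (pi b, D)))
    {σ : B → B} (hσ : dB.Map dB σ) (hσσ : ∀ b, σ (σ b) = b)
    (hσφ : ∀ b t, σ (φ (b, t)) = φ (σ b, t)) (hσπ : ∀ b, pi (σ b) = φU (pi b, D))
    {g : B × ℝ → M} (hg : (dB.prod (Dif.lin ℝ)).Map dM g)
    (hg0 : ∀ b, g (b, 0) = foot (pi b)) (hg1 : ∀ b t, g (φ (b, t), 1) = g (b, 1))
    {F : Form dM} (hFe : F.sg = F) (hF : F.d = 0) (hFn : F ^ (n + 2) = 0)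
    {α : Form dU} (hαo : α.sg = -α) (hα : Form.pull φU hφU.map α = pr α + dt)
    {I : Form dU →ₗ[ℝ] ℝ} {P : Form dB →ₗ[ℝ] Form dU}
    (hId : ∀ w : Form dB, I (P w.d) = 0) (hIφ : ∀ w : Form dB, Basic φ hφ.map w → I (P w) = 0)
    (hIψ : ∀ w : Form dB, Basic ψ hψ.map w → I (P w) = 0)
    (hIσ : ∀ w : Form dB, I (P (Form.pull σ hσ w)) = -I (P w))
    (hPd : ∀ w : Form dB, P w.d = (P w).d)
    (hPm : ∀ (w : Form dB) (v : Form dU), P (w * Form.pull pi hpi v) = P w * v)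
    (hαN : α.d ^ (4 * n + 4) = 0)
    {B0 : Form dU} (hB0 : B0 = KT D (Form.pull (fun p => foot (φU p))
      (Dif.Map.comp (f := φU) (g := foot) hfoot hφU.map) F))
    {k : ℝ} (hk : k ≠ 0) (hk0 : P (J ψ hψ.map c (Form.pull pi hpi B0)) = k • 1)
    {b1 : Form dB} (hb1 : b1 = J φ hφ.map (2 * D) (Form.K (Form.pull g hg F) -
      Form.pull σ hσ (Form.K (Form.pull g hg F))))
    {ε : ℝ} (hε : ε ≠ 0) {l : Form dB}
    (hl : b1 = ε • J ψ hψ.map c (Form.pull pi hpi B0) + l.d)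
    {a μ : ℝ} (ha : a ≠ 0) {ρ : Form dB} (hρ : Basic φ hφ.map ρ)
    (hrel : b1 ^ 2 = a • ((2 * D)⁻¹ • Form.pull pi hpi α.d) ^ 2 +
      μ • (Form.pull (fun b => g (b, 1)) (map_at hg 1) F +
          Form.pull σ hσ (Form.pull (fun b => g (b, 1)) (map_at hg 1) F)) + ρ.d) :
    I (α * α.d ^ (4 * n + 3)) = -2 * (2 * D) ^ (4 * n + 4) * (a⁻¹ * cs n (μ / a) a⁻¹) *
      I (B0 * (Form.pull foot hfoot F ^ (n + 1) *
        Form.pull (fun v => foot (φU (v, D)))
          (Dif.Map.comp (f := fun v => φU (v, D)) (g := foot) hfoot (map_at hφU.map D)) F ^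
            n)) :=
  phi_side (p := 2) (q := 0) hD hφU hφ hψ hpi hpφ hfoot hfψ hfψ' hσ hσσ hσφ hσπ hg hg0 hg1 hFe
    hF hFn hαo hα hId hIφ hIψ hIσ hPd hPm hαN hB0 hk hk0 hb1 hε hl hρ
    (by rw [pow_zero, one_mul]; exact hrel) (fun e b x y hx hy hxy hb =>
      top4 hx hy hxy ha (by rw [hb, pow_zero, one_mul]))

/-- **Cayley plane case** (`dim M = 16`). -/
theorem phi_side8 {D : ℝ} (hD : 0 < D)
    {φU : U × ℝ → U} (hφU : IsFlow dU (2 * D) φU)
    {φ ψ : B × ℝ → B} (hφ : IsFlow dB (2 * D) φ) {c : ℝ} (hψ : IsFlow dB c ψ)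
    {pi : B → U} (hpi : dB.Map dU pi) (hpφ : ∀ b t, pi (φ (b, t)) = φU (pi b, t))
    {foot : U → M} (hfoot : dU.Map dM foot)
    (hfψ : ∀ b t, foot (pi (ψ (b, t))) = foot (pi b))
    (hfψ' : ∀ b t, foot (φU (pi (ψ (b, t)), D)) = foot (φU (pi b, D)))
    {σ : B → B} (hσ : dB.Map dB σ) (hσσ : ∀ b, σ (σ b) = b)
    (hσφ : ∀ b t, σ (φ (b, t)) = φ (σ b, t)) (hσπ : ∀ b, pi (σ b) = φU (pi b, D))
    {g : B × ℝ → M} (hg : (dB.prod (Dif.lin ℝ)).Map dM g)
    (hg0 : ∀ b, g (b, 0) = foot (pi b)) (hg1 : ∀ b t, g (φ (b, t), 1) = g (b, 1))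
    {F : Form dM} (hFe : F.sg = F) (hF : F.d = 0) (hFn : F ^ 3 = 0)
    {α : Form dU} (hαo : α.sg = -α) (hα : Form.pull φU hφU.map α = pr α + dt)
    {I : Form dU →ₗ[ℝ] ℝ} {P : Form dB →ₗ[ℝ] Form dU}
    (hId : ∀ w : Form dB, I (P w.d) = 0) (hIφ : ∀ w : Form dB, Basic φ hφ.map w → I (P w) = 0)
    (hIψ : ∀ w : Form dB, Basic ψ hψ.map w → I (P w) = 0)
    (hIσ : ∀ w : Form dB, I (P (Form.pull σ hσ w)) = -I (P w))
    (hPd : ∀ w : Form dB, P w.d = (P w).d)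
    (hPm : ∀ (w : Form dB) (v : Form dU), P (w * Form.pull pi hpi v) = P w * v)
    (hαN : α.d ^ 16 = 0)
    {B0 : Form dU} (hB0 : B0 = KT D (Form.pull (fun p => foot (φU p))
      (Dif.Map.comp (f := φU) (g := foot) hfoot hφU.map) F))
    {k : ℝ} (hk : k ≠ 0) (hk0 : P (J ψ hψ.map c (Form.pull pi hpi B0)) = k • 1)
    {b1 : Form dB} (hb1 : b1 = J φ hφ.map (2 * D) (Form.K (Form.pull g hg F) -
      Form.pull σ hσ (Form.K (Form.pull g hg F))))
    {ε : ℝ} (hε : ε ≠ 0) {l : Form dB}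
    (hl : b1 = ε • J ψ hψ.map c (Form.pull pi hpi B0) + l.d)
    {a μ : ℝ} (ha : a ≠ 0) {ρ : Form dB} (hρ : Basic φ hφ.map ρ)
    (hrel : b1 ^ 2 = a • ((2 * D)⁻¹ • Form.pull pi hpi α.d) ^ 6 +
      μ • (((2 * D)⁻¹ • Form.pull pi hpi α.d) ^ 2 *
        (Form.pull (fun b => g (b, 1)) (map_at hg 1) F +
          Form.pull σ hσ (Form.pull (fun b => g (b, 1)) (map_at hg 1) F))) + ρ.d) :
    I (α * α.d ^ 15) = -2 * (2 * D) ^ 16 * (-3 / a ^ 2 + μ ^ 2 / a ^ 3) *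
      I (B0 * (Form.pull foot hfoot F ^ 2 *
        Form.pull (fun v => foot (φU (v, D)))
          (Dif.Map.comp (f := fun v => φU (v, D)) (g := foot) hfoot (map_at hφU.map D)) F)) := by
  have h := phi_side (p := 6) (q := 2) (n := 1) (N := 15) hD hφU hφ hψ hpi hpφ hfoot hfψ hfψ' hσ
    hσσ hσφ hσπ hg hg0 hg1 hFe hF hFn hαo hα hId hIφ hIψ hIσ hPd hPm hαN hB0 hk hk0 hb1 hε hl hρ
    hrel (fun e b x y hx hy hxy hb => top8 hx hy hxy ha hb)
  rw [pow_one] at h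
  exact h

end Vale.Agent.P231.H584
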