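import Vale.Agent.P231.H584.Lev2
import Vale.Agent.P231.H584.Side

/-!
# P231, stage 3: the two numbers of the system

`I(θ e¹⁵) = (6/a² - 2μ²/a³) I₀` and `I(P(θ e¹⁰ G₁²)) = (ε k μ / a²) I₀`, `I₀ = I(B₀ F_x² F_b)`.
-/

set_option linter.unusedSectionVars false
set_option linter.unusedVariables false

open MeasureTheory Set Module Filter Topology
open scoped ContDiff Real

namespace Vale.Agent.P231.H584

open Fm W
open Fm.Form (IsDeg part isDeg_part part_add part_smul part_succ_d)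

theorem ef_alg {R : Type*} [CommRing R] {E u ψ p q : R}
    (hA : 4 * ψ ^ 2 = p * E ^ 6 + 2 * q * (E ^ 2 * u)) (hB : ψ * (3 * u ^ 2 + E ^ 2 * ψ ^ 2) = 0)
    (hC : (u + E * ψ) ^ 3 = 0) (hD : (u - E * ψ) ^ 3 = 0) :
    (3 * p - q ^ 2) * (E ^ 10 * ((u + E * ψ) ^ 2 - (u - E * ψ) ^ 2)) =
      q * p * (E ^ 15 * (2 * ψ)) := by
  linear_combination (9 * E ^ 3 * ψ) * hC + (9 * E ^ 3 * ψ) * hD +
    (-6 * u * E ^ 3 - 8 * q * E ^ 7) * hB + (-12 * u * E ^ 5 * ψ + 2 * q * E ^ 9 * ψ) * hA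

theorem ef_rel {R : Type*} [CommRing R] [Algebra ℝ R] {E x1 x2 b : R} {a μ : ℝ}
    (r2 : x1 - x2 = E * b) (r4 : b ^ 2 = a • E ^ 6 + μ • (E ^ 2 * (x1 + x2)))
    (r5 : b * (x2 ^ 2 + x2 * x1 + x1 ^ 2) = 0) (h1 : x1 ^ 3 = 0) (h2 : x2 ^ 3 = 0) :
    (3 * a - μ ^ 2) • (E ^ 10 * (x1 ^ 2 - x2 ^ 2)) = (μ * a) • (E ^ 15 * b) := by
  obtain ⟨p, hp⟩ : ∃ p : R, p = algebraMap ℝ R a := ⟨_, rfl⟩
  obtain ⟨q, hq⟩ : ∃ q : R, q = algebraMap ℝ R μ := ⟨_, rfl⟩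
  simp only [Algebra.smul_def] at r4 ⊢
  have e3 : algebraMap ℝ R (3 * a - μ ^ 2) = 3 * p - q ^ 2 := by
    rw [map_sub, map_mul, map_pow, map_ofNat, ← hp, ← hq]
  have e4 : algebraMap ℝ R (μ * a) = q * p := by rw [map_mul, ← hp, ← hq]
  rw [← hp, ← hq] at r4
  rw [e3, e4]
  obtain ⟨ψ, hψ⟩ : ∃ ψ : R, 2 * ψ = b := ⟨(1 / 2 : ℝ) • b, two_half b⟩
  obtain ⟨u, hu⟩ : ∃ u : R, u = x1 - E * ψ := ⟨_, rfl⟩
  have hx1 : x1 = u + E * ψ := by rw [hu]; ring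
  have hx2 : x2 = u - E * ψ := by linear_combination hx1 - r2 + E * hψ
  have hh : 2 * ((1 / 2 : ℝ) • (ψ * (3 * u ^ 2 + E ^ 2 * ψ ^ 2))) =
      ψ * (3 * u ^ 2 + E ^ 2 * ψ ^ 2) := two_half _
  have hB : ψ * (3 * u ^ 2 + E ^ 2 * ψ ^ 2) = 0 := by
    rw [hx1, hx2, ← hψ] at r5
    have h3 : (2 : R) * (ψ * (3 * u ^ 2 + E ^ 2 * ψ ^ 2)) = 0 := by linear_combination r5
    have h4 := congrArg (fun z : R => (1 / 2 : ℝ) • z) h3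
    simp only [smul_zero] at h4
    rw [← mul_smul_comm, two_half] at h4
    exact h4
  rw [hx1, hx2, ← hψ]
  rw [hx1] at h1
  rw [hx2] at h2
  refine ef_alg ?_ hB h1 h2
  rw [hx1, hx2, ← hψ] at r4
  linear_combination r4

namespace Sys

variable {B U M : Type*} {dB : Dif B} {dU : Dif U} {dM : Dif M} {D c : ℝ}
  (S : Sys dB dU dM 1 D c)

theorem σe : Form.pull S.σ S.hσ S.e = S.e := by
  rw [S.e_eq, pull_smul, Form.pull_d, S.σαB]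

/-- the functional `w ↦ I(P(α w))` kills the differentials of basic forms -/
theorem IPα_d {m : Form dB} (hm : Basic S.φ S.hφ.map m) : S.I (S.P (S.αB * m.d)) = 0 := by
  have h1 : (S.αB * m).d = S.αB.d * m - S.αB * m.d := by
    rw [Form.d_mul, S.αB_sg, neg_mul]
    abel
  have h2 : S.αB * m.d = S.αB.d * m - (S.αB * m).d := by rw [h1]; abel
  have h3 : Basic S.φ S.hφ.map (S.αB.d * m) :=
    Basic.mul (basic_d_contact S.hφ S.αB_flow) hm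
  rw [h2, map_sub, map_sub, S.hIφ _ h3, S.hId, sub_zero]

theorem IPα_eqv {v w : Form dB} (h : Eqv S.hφ.map v w) :
    S.I (S.P (S.αB * v)) = S.I (S.P (S.αB * w)) := by
  obtain ⟨m, hm, rfl⟩ := h
  rw [mul_add, map_add, map_add, S.IPα_d hm, add_zero]

/-- the two top classes -/
theorem top_eqv {a μ : ℝ} {ρ : Form dB} (hρ : Basic S.φ S.hφ.map ρ)
    (hrel : S.b1 ^ 2 = a • S.e ^ 6 + μ • (S.e ^ 2 * (S.G1 + S.G2)) + ρ.d) :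
    Eqv S.hφ.map ((3 * a - μ ^ 2) • (S.e ^ 10 * (S.G1 ^ 2 - S.G2 ^ 2)))
      ((μ * a) • (S.e ^ 15 * S.b1)) := by
  let x1 : Bas S.φ S.hφ.map := ⟨S.G1, S.G1_good.2.1, S.G1_good.1, S.G1_basic⟩
  let x2 : Bas S.φ S.hφ.map := ⟨S.G2, S.G2_good.2.1, S.G2_good.1, S.G2_basic⟩
  let b' : Bas S.φ S.hφ.map := ⟨S.b1, S.b1_sg, S.b1_d, S.b1_basic⟩
  let e' : Bas S.φ S.hφ.map := ⟨S.e, S.e_sg, S.e_d, S.e_basic⟩
  set Q := Ideal.Quotient.mkₐ ℝ (Exa S.φ S.hφ.map) with hQ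
  have hsm : ∀ (r : ℝ) (w : Bas S.φ S.hφ.map), Q (r • w) = r • Q w := fun r w => rfl
  have r2 : Q x1 - Q x2 = Q e' * Q b' := by
    obtain ⟨u, hu, hu'⟩ := S.gysin1
    rw [← map_sub, ← map_mul]
    exact eq_quot S.φ S.hφ.map hu hu'
  have r4 : Q b' ^ 2 = a • Q e' ^ 6 + μ • (Q e' ^ 2 * (Q x1 + Q x2)) := by
    have h5 : Q (b' ^ 2) = Q (a • e' ^ 6 + μ • (e' ^ 2 * (x1 + x2))) :=
      eq_quot S.φ S.hφ.map hρ hrel
    rw [map_pow, map_add, hsm, hsm, map_mul, map_pow, map_pow, map_add] at h5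
    exact h5
  have r5 : Q b' * (Q x2 ^ 2 + Q x2 * Q x1 + Q x1 ^ 2) = 0 := by
    obtain ⟨u, hu, hu'⟩ := S.b1_hh
    have h5 : Q (b' * (x2 ^ 2 + x2 * x1 + x1 ^ 2)) = Q 0 := by
      refine eq_quot S.φ S.hφ.map hu ?_
      refine Eq.trans hu' ?_
      exact (zero_add u.d).symm
    rw [map_zero, map_mul, map_add, map_add, map_pow, map_mul, map_pow] at h5
    exact h5
  have h1 : Q x1 ^ 3 = 0 := by
    have h2 : x1 ^ 3 = 0 := Subtype.ext S.G1_good.2.2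
    rw [← map_pow, h2, map_zero]
  have h2 : Q x2 ^ 3 = 0 := by
    have h2 : x2 ^ 3 = 0 := Subtype.ext S.G2_good.2.2
    rw [← map_pow, h2, map_zero]
  have h3 := ef_rel r2 r4 r5 h1 h2
  have h4 : Q ((3 * a - μ ^ 2) • (e' ^ 10 * (x1 ^ 2 - x2 ^ 2))) =
      Q ((μ * a) • (e' ^ 15 * b')) := by
    rw [hsm, hsm, map_mul, map_mul, map_pow, map_sub, map_pow, map_pow, map_pow]
    exact h3
  exact quot_eq S.φ S.hφ.map h4

variable {S}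

/-- the number of the top class `e¹⁵ b₁` -/
theorem IP_b1 (hFd : IsDeg 8 S.F) (hP : S.PP) {ε : ℝ} {l : Form dB}
    (hl : S.b1 = ε • S.b0 + l.d) (N : ℕ) :
    S.I (S.P (S.αB * (S.e ^ N * S.b1))) = ε * S.k * S.I (S.α * S.eU ^ N) := by
  have h1 : S.αB * (S.e ^ N * S.b1) = S.b1 * Form.pull S.pi S.hpi (S.α * S.eU ^ N) := by
    rw [pull_mul, pull_pow, S.pi_eU, (even_comm S.b1_sg _).eq]
    change S.αB * (S.e ^ N * S.b1) = S.αB * S.e ^ N * S.b1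
    rw [mul_assoc]
  rw [h1, S.hPm, P_b1 hP hFd hl, smul_mul_assoc, one_mul, map_smul, smul_eq_mul]

/-- `I(P(α e¹⁰ G₁²))` in terms of `I(α e¹⁵)` -/
theorem f_rel (hFd : IsDeg 8 S.F) (hP : S.PP) {a μ : ℝ} {ρ : Form dB}
    (hρ : Basic S.φ S.hφ.map ρ)
    (hrel : S.b1 ^ 2 = a • S.e ^ 6 + μ • (S.e ^ 2 * (S.G1 + S.G2)) + ρ.d) {ε : ℝ} {l : Form dB}
    (hl : S.b1 = ε • S.b0 + l.d) :
    2 * (3 * a - μ ^ 2) * S.I (S.P (S.αB * (S.e ^ 10 * S.G1 ^ 2))) =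
      μ * a * (ε * S.k * S.I (S.α * S.eU ^ 15)) := by
  have h1 := S.IPα_eqv (S.top_eqv hρ hrel)
  have h2 : S.I (S.P (S.αB * (S.e ^ 10 * S.G2 ^ 2))) =
      -S.I (S.P (S.αB * (S.e ^ 10 * S.G1 ^ 2))) := by
    rw [← S.hIσ, pull_mul, pull_mul, pull_pow, pull_pow, S.σαB, S.σe, S.σG1]
  rw [mul_smul_comm, mul_smul_comm, map_smul, map_smul, map_smul, map_smul, mul_sub, mul_sub,
    map_sub, map_sub, h2, IP_b1 hFd hP hl, smul_eq_mul, smul_eq_mul] at h1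
  linarith

theorem I_eU (N : ℕ) : S.I (S.α * S.eU ^ N) =
    ((2 * D)⁻¹) ^ N * S.I (S.α * S.α.d ^ N) := by
  rw [eU, _root_.smul_pow, mul_smul_comm, map_smul, smul_eq_mul]

/-- the two numbers, before normalisation -/
theorem ef_val (hFd : IsDeg 8 S.F) (hP : S.PP) (hαN : S.α.d ^ 16 = 0)
    (hV : S.I (S.α * S.α.d ^ 15) ≠ 0) {a μ : ℝ} (ha : a ≠ 0) {ρ : Form dB}
    (hρ : Basic S.φ S.hφ.map ρ)
    (hrel : S.b1 ^ 2 = a • S.e ^ 6 + μ • (S.e ^ 2 * (S.G1 + S.G2)) + ρ.d) {ε : ℝ}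
    (hε : ε ≠ 0) {l : Form dB} (hl : S.b1 = ε • S.b0 + l.d) :
    S.I (((2 * D)⁻¹ • S.α) * S.eU ^ 15) =
      (6 / a ^ 2 - 2 * μ ^ 2 / a ^ 3) * S.I (S.B0 * (S.Fx ^ 2 * S.Fb)) ∧
    S.I (S.P (((2 * D)⁻¹ • S.αB) * (S.e ^ 10 * S.G1 ^ 2))) =
      ε * S.k * μ / a ^ 2 * S.I (S.B0 * (S.Fx ^ 2 * S.Fb)) := by
  have hD2 := S.T2
  have hD0 : D ≠ 0 := S.hD.ne'
  have h1 := phi_side8 S.hD S.hφU S.hφ S.hψ S.hpi S.hpφ S.hfoot S.hfψ S.hfψ' S.hσ S.hσσ S.hσφ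
    S.hσπ S.hg S.hg0 S.hg1 S.hFe S.hF S.hFn S.hαo S.hα S.hId S.hIφ S.hIψ S.hIσ S.hPd S.hPm hαN
    (B0 := S.B0) rfl S.hk S.hk0 (b1 := S.b1) rfl hε hl ha hρ hrel
  change S.I (S.α * S.α.d ^ 15) = -2 * (2 * D) ^ 16 * (-3 / a ^ 2 + μ ^ 2 / a ^ 3) *
    S.I (S.B0 * (S.Fx ^ 2 * S.Fb)) at h1
  set I0 := S.I (S.B0 * (S.Fx ^ 2 * S.Fb)) with hI0
  have h2 : S.I (S.α * S.eU ^ 15) = 2 * D * ((6 / a ^ 2 - 2 * μ ^ 2 / a ^ 3) * I0) := by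
    rw [I_eU, h1]
    field_simp
    ring
  refine ⟨?_, ?_⟩
  · rw [smul_mul_assoc, map_smul, smul_eq_mul, h2]
    field_simp
  · have h3 := f_rel hFd hP hρ hrel hl
    have h4 : 3 * a - μ ^ 2 ≠ 0 := by
      intro h0
      apply hV
      rw [h1]
      have : (-3 / a ^ 2 + μ ^ 2 / a ^ 3) = -(3 * a - μ ^ 2) / a ^ 3 := by
        field_simp
        ring
      rw [this, h0]
      simp
    have h5 : S.I (S.P (S.αB * (S.e ^ 10 * S.G1 ^ 2))) =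
        2 * D * (ε * S.k * μ / a ^ 2 * I0) := by
      have h6 : (2 * (3 * a - μ ^ 2)) ≠ 0 := mul_ne_zero two_ne_zero h4
      apply mul_left_cancel₀ h6
      rw [h3, h2]
      field_simp
      ring
    rw [smul_mul_assoc, map_smul, map_smul, smul_eq_mul, h5]
    field_simp

end Sys

end Vale.Agent.P231.H584
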