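import Vale.Agent.P231.H584.Main

/-!
# P231, block A: the formal theorem (multiplicity one)

Everything happens on an abstract space `V` (the unit tangent bundle) with two periodic flows
`phi` (geodesic flow) and `rot` (rotation), a map `foot : V → M`, a closed form `F` on `M` with
`F ^ (n + 1) = 0`, two homotopies `gp`, `gm : V × ℝ → M` from `foot` to `phi`-invariant maps, and a
linear functional `I` on forms killing exact and basic forms.
-/

set_option linter.unusedSectionVars false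
set_option linter.unusedVariables false

open MeasureTheory Set Module Filter Topology
open scoped ContDiff

namespace Vale.Agent.P231.H584

open Fm W

section Aux

variable {X Y : Type*} {D : Dif X} {D' : Dif Y}

/-- exactness of the differences of powers -/
theorem pow_sub_exact {a b c : Form D} (ha : a.d = 0) (hb : b.d = 0)
    (hae : a.sg = a) (hc : c.d = a - b) (k : ℕ) : ∃ m : Form D, a ^ k - b ^ k = m.d := by
  cases k with
  | zero => exact ⟨0, by simp⟩
  | succ k =>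
    refine ⟨c * hh k a b, ?_⟩
    rw [d_mul_closed _ (hh_closed ha hb k), hc, sub_mul_hh (even_comm hae _)]

/-- `b ^ n` is exact if `h_n (a, b)` is exact and `a`, `b` are cohomologous -/
theorem pow_exact {a b c ζ : Form D} {n : ℕ} (ha : a.d = 0) (hb : b.d = 0)
    (hae : a.sg = a) (hc : c.d = a - b) (hζ : hh n a b = ζ.d) :
    ∃ m : Form D, b ^ n = m.d := by
  choose m hm using pow_sub_exact ha hb hae hc
  have h1 : hh n a b = ((n : ℝ) + 1) • b ^ n +
      (∑ i ∈ Finset.range (n + 1), m i * b ^ (n - i)).d := by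
    rw [hh, sum_d]
    have h2 : ∀ i ∈ Finset.range (n + 1), a ^ i * b ^ (n - i) =
        b ^ n + (m i * b ^ (n - i)).d := by
      intro i hi
      have hi' : i ≤ n := Nat.lt_succ_iff.1 (Finset.mem_range.1 hi)
      rw [d_mul_closed _ (pow_closed hb _), ← hm, sub_mul, ← pow_add,
        Nat.add_sub_cancel' hi']
      abel
    rw [Finset.sum_congr rfl h2, Finset.sum_add_distrib, Finset.sum_const, Finset.card_range,
      ← Nat.cast_smul_eq_nsmul ℝ]
    push_cast
    rfl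
  have hn : (n : ℝ) + 1 ≠ 0 := by positivity
  refine ⟨((n : ℝ) + 1)⁻¹ • (ζ - ∑ i ∈ Finset.range (n + 1), m i * b ^ (n - i)), ?_⟩
  rw [Form.d_smul, Form.d_sub, ← hζ, h1, add_sub_cancel_right, smul_smul, inv_mul_cancel₀ hn,
    one_smul]

theorem integral_by_parts {I : Form D →ₗ[ℝ] ℝ} (hI : ∀ w : Form D, I w.d = 0) (a b : Form D)
    (ha : a.d.sg = a.d) : I (a * b.d) = I (a.d * b) := by
  have h := hI (a.sg * b)
  rw [Form.d_mul, Form.sg_sg, Form.d_sg, ha, neg_mul, map_add, map_neg] at h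
  linarith

theorem pull_good {n : ℕ} {F : Form D'} (hF : F.d = 0) (hFe : F.sg = F)
    (hFn : F ^ (n + 1) = 0) {f : X → Y} (hf : D.Map D' f) :
    (Form.pull f hf F).d = 0 ∧ (Form.pull f hf F).sg = Form.pull f hf F ∧
      (Form.pull f hf F) ^ (n + 1) = 0 := by
  refine ⟨?_, ?_, ?_⟩
  · rw [← Form.pull_d, hF]
    exact map_zero (Form.pullA f hf)
  · rw [← Form.pull_sg, hFe]
  · refine (map_pow (Form.pullA f hf) F (n + 1)).symm.trans ?_
    rw [hFn]
    exact map_zero (Form.pullA f hf)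

theorem map_comp_fst {f : X → Y} (hf : D.Map D' f) :
    (D.prod (Dif.lin ℝ)).Map D' (fun p => f p.1) := fun h => hf h.1

theorem map_slice_fst (c : ℝ) : (D.prod (Dif.lin ℝ)).Map (D.prod (Dif.lin ℝ))
    (fun p : X × ℝ => (p.1, c)) := fun h => Form.map_slice c h.1

/-- the path of forms on the cylinder attached to a homotopy -/
theorem Pth.of_homotopy {n : ℕ} {F : Form D'} (hF : F.d = 0) (hFe : F.sg = F)
    (hFn : F ^ (n + 1) = 0) {g : X × ℝ → Y} (hg : (D.prod (Dif.lin ℝ)).Map D' g) {f : X → Y}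
    (hf : D.Map D' f) (h0 : ∀ x, g (x, 0) = f x) :
    Pth n (pr (Form.pull f hf F)) (Form.pull g hg F) (Pm (Form.pull g hg F)) := by
  obtain ⟨h1, h2, h3⟩ := pull_good hF hFe hFn hg
  obtain ⟨h4, h5, h6⟩ := pull_good (D := (D.prod (Dif.lin ℝ)).prod (Dif.lin ℝ)) h1 h2 h3
    map_scal
  have h7 := Pth.of_cyl 1 h4 h5 h6
  have h8 : at_ 0 (Form.pull scal map_scal (Form.pull g hg F)) = pr (Form.pull f hf F) := by
    refine (pull_pull (k := fun p : X × ℝ => (p.1, (0 : ℝ))) (Form.map_slice 0) map_scal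
      (map_slice_fst 0) (fun p => by simp [scal]) _).trans ?_
    refine (pull_pull (map_slice_fst 0) hg (map_comp_fst hf) (fun p => h0 _) F).trans ?_
    exact (pull_pull Dif.map_fst hf (map_comp_fst hf) (fun p => rfl) F).symm
  have h9 : at_ 1 (Form.pull scal map_scal (Form.pull g hg F)) = Form.pull g hg F := by
    refine (pull_pull (k := fun p : X × ℝ => p) (Form.map_slice 1) map_scal
      (fun h => h) (fun p => by simp [scal]) _).trans ?_
    exact Form.pull_id _ _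
  have h10 : KT 1 (Form.pull scal map_scal (Form.pull g hg F)) = Pm (Form.pull g hg F) :=
    KT_one _
  rwa [h8, h9, h10] at h7

theorem at_pull_cyl (s : ℝ) {f : X → Y} (hf : D.Map D' f) (w : Form (D'.prod (Dif.lin ℝ))) :
    at_ s (Form.pull (fun p : X × ℝ => (f p.1, p.2)) (map_cyl hf) w) =
      Form.pull f hf (at_ s w) := by
  refine (pull_pull (k := fun x : X => (f x, s)) (Form.map_slice s) (map_cyl hf)
    (fun h => Form.map_slice s (hf h)) (fun p => rfl) w).trans ?_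
  exact (pull_pull hf (Form.map_slice s) _ (fun p => rfl) w).symm

theorem basic_pull {Φ : X × ℝ → X} {hΦ : (D.prod (Dif.lin ℝ)).Map D Φ} {f : X → Y}
    (hf : D.Map D' f) (h : ∀ x t, f (Φ (x, t)) = f x) (F : Form D') :
    Basic Φ hΦ (Form.pull f hf F) := by
  refine (pull_pull hΦ hf (map_comp_fst hf) (fun p => h _ _) F).trans ?_
  exact (pull_pull Dif.map_fst hf (map_comp_fst hf) (fun p => rfl) F).symm

end Aux

section Main

variable {V M : Type*} {dV : Dif V} {dM : Dif M}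

/-- **Formal theorem.** -/
theorem formal {n : ℕ} (hn : 1 ≤ n) {T c D : ℝ} (hT : T ≠ 0) (hTD : T = 2 * D)
    {phi rot : V × ℝ → V} (hphi : IsFlow dV T phi) (hrot : IsFlow dV c rot)
    {foot : V → M} (hfoot : dV.Map dM foot)
    {gam : V × ℝ → M} (hgam : (dV.prod (Dif.lin ℝ)).Map dM gam)
    (hgf : ∀ p, gam p = foot (phi p))
    {gp gm : V × ℝ → M} (hgp : (dV.prod (Dif.lin ℝ)).Map dM gp)
    (hgm : (dV.prod (Dif.lin ℝ)).Map dM gm)
    (hgp0 : ∀ v, gp (v, 0) = foot v) (hgp1 : ∀ v t, gp (phi (v, t), 1) = gp (v, 1))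
    (hgm0 : ∀ v, gm (v, 0) = foot v) (hgm1 : ∀ v t, gm (phi (v, t), 1) = gm (v, 1))
    (hr0 : ∀ v t, foot (rot (v, t)) = foot v) (hr1 : ∀ v t, gam (rot (v, t), D) = gam (v, D))
    {F : Form dM} (hF : F.d = 0) (hFe : F.sg = F) (hFn : F ^ (n + 1) = 0)
    {α : Form dV} (hαo : α.sg = -α) (hα : Form.pull phi hphi.map α = pr α + dt)
    {I : Form dV →ₗ[ℝ] ℝ} (hI : ∀ w : Form dV, I w.d = 0)
    (hIp : ∀ w, Basic phi hphi.map w → I w = 0) (hIr : ∀ w, Basic rot hrot.map w → I w = 0)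
    (hIh : ∀ w, I (Form.pull (fun v => phi (v, D)) (map_at hphi.map D) w) = I w)
    {κ κ' : ℝ} (hκ : κ ≠ 0) (hκ' : κ' ≠ 0)
    (hk : J rot hrot.map c (KT D (Form.pull gam hgam F)) = κ • 1)
    (hk' : J phi hphi.map T (Form.K (Form.pull gp hgp F) -
      Form.pull (fun v => phi (v, D)) (map_at hphi.map D) (Form.K (Form.pull gm hgm F))) =
        κ' • 1) :
    (κ' / T) ^ (2 * n) * I (α * α.d ^ (2 * n - 1)) = (-1) ^ n * ((2 * n).choose n : ℝ) *
      I (KT D (Form.pull gam hgam F) * (Form.pull foot hfoot F ^ n *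
        Form.pull (fun v => gam (v, D)) (map_at hgam D) F ^ (n - 1))) := by
  obtain ⟨hx1, hx2, hx3⟩ := pull_good hF hFe hFn hfoot
  obtain ⟨hb1, hb2, hb3⟩ := pull_good hF hFe hFn (map_at hgam D)
  obtain ⟨hg1, hg2, hg3⟩ := pull_good hF hFe hFn hgam
  obtain ⟨hp1, hp2, hp3⟩ := pull_good hF hFe hFn hgp
  have hhalf : dV.Map dV (fun v => phi (v, D)) := map_at hphi.map D
  set Fx := Form.pull foot hfoot F with hFx
  set Fb := Form.pull (fun v => gam (v, D)) (map_at hgam D) F with hFb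
  set B := KT D (Form.pull gam hgam F) with hB
  -- the path `B₀`
  have hgam0 : at_ 0 (Form.pull gam hgam F) = Fx :=
    pull_pull (Form.map_slice 0) hgam hfoot (fun v => by rw [hgf, hphi.zero]) F
  have hPB : Pth n Fx Fb B := by
    have h := Pth.of_cyl D hg1 hg2 hg3
    have hgamD : at_ D (Form.pull gam hgam F) = Fb := at_pull_of hgam D F
    rwa [hgam0, hgamD] at h
  -- the forms at the two ends
  set F1 := Form.pull gp hgp F with hF1
  set Fm' := Form.pull gm hgm F with hFm'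
  have hPp : Pth n (pr Fx) F1 (Pm F1) := Pth.of_homotopy hF hFe hFn hgp hfoot hgp0
  have hPm : Pth n (pr Fx) Fm' (Pm Fm') := Pth.of_homotopy hF hFe hFn hgm hfoot hgm0
  have hPm2 := hPm.pull (map_cyl hhalf)
  set F2 := Form.pull (fun p : V × ℝ => (phi (p.1, D), p.2)) (map_cyl hhalf) Fm' with hF2
  set Am := Form.pull (fun p : V × ℝ => (phi (p.1, D), p.2)) (map_cyl hhalf) (Pm Fm') with hAm
  have hxb : Form.pull (fun v => phi (v, D)) hhalf Fx = Fb :=
    pull_pull hhalf hfoot (map_at hgam D) (fun v => (hgf _).symm) F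
  have hbx : Form.pull (fun v => phi (v, D)) hhalf Fb = Fx :=
    pull_pull hhalf (map_at hgam D) hfoot (fun v => by
      rw [hgf, hphi.add, ← two_mul, ← hTD, hphi.per]) F
  have hpr : Form.pull (fun p : V × ℝ => (phi (p.1, D), p.2)) (map_cyl hhalf) (pr Fx) =
      pr Fb := by
    rw [← hxb]
    refine (pull_pull (map_cyl hhalf) Dif.map_fst (map_comp_fst hhalf) (fun p => rfl) Fx).trans ?_
    exact (pull_pull Dif.map_fst hhalf (map_comp_fst hhalf) (fun p => rfl) Fx).symm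
  rw [hpr] at hPm2
  have hPB2 : Pth n (pr Fx) (pr Fb) (pr B) := hPB.pull Dif.map_fst
  have hβ : Pth n F2 F1 (-Am + -pr B + Pm F1) := (hPm2.symm.trans hPB2.symm).trans hPp
  set β := -Am + -pr B + Pm F1 with hβdef
  -- values at the two ends
  have hn1 : ∀ s (w : Form (dV.prod (Dif.lin ℝ))), at_ s (-w) = -at_ s w := fun s w =>
    map_neg (Form.pullA (fun x : V => (x, s)) (Form.map_slice s)) w
  have hAs : ∀ s, at_ s Am = Form.pull (fun v => phi (v, D)) hhalf (at_ s (Pm Fm')) :=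
    fun s => at_pull_cyl s hhalf _
  have hFs : ∀ s, at_ s F2 = Form.pull (fun v => phi (v, D)) hhalf (at_ s Fm') :=
    fun s => at_pull_cyl s hhalf _
  have hβ0 : at_ 0 β = -B := by
    rw [hβdef, at_add, at_add, hn1, hn1, at_pr, hAs, Pm_zero, Pm_zero]
    have : Form.pull (fun v => phi (v, D)) hhalf (0 : Form dV) = 0 :=
      map_zero (Form.pullA _ hhalf)
    rw [this, neg_zero, zero_add, add_zero]
  have hβ1 : at_ 1 β = Form.K F1 - Form.pull (fun v => phi (v, D)) hhalf (Form.K Fm') - B := by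
    rw [hβdef, at_add, at_add, hn1, hn1, at_pr, hAs, Pm_at, Pm_at, KT_one, KT_one]
    abel
  have hF10 : at_ 0 F1 = Fx :=
    pull_pull (Form.map_slice 0) hgp hfoot hgp0 F
  have hF20 : at_ 0 F2 = Fb := by
    rw [hFs]
    have : at_ 0 Fm' = Fx := pull_pull (Form.map_slice 0) hgm hfoot hgm0 F
    rw [this, hxb]
  have hG1 : Basic phi hphi.map (at_ 1 F1) := by
    have : at_ 1 F1 = Form.pull (fun v => gp (v, 1)) (map_at hgp 1) F := at_pull_of hgp 1 F
    rw [this]
    exact basic_pull (map_at hgp 1) hgp1 F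
  have hG2 : Basic phi hphi.map (at_ 1 F2) := by
    have : at_ 1 F2 = Form.pull (fun v => gm (v, 1)) (map_at hgm 1) F := by
      rw [hFs]
      have h2 : at_ 1 Fm' = Form.pull (fun v => gm (v, 1)) (map_at hgm 1) F :=
        at_pull_of hgm 1 F
      rw [h2]
      exact pull_pull hhalf (map_at hgm 1) (map_at hgm 1) (fun v => hgm1 _ _) F
    rw [this]
    exact basic_pull (map_at hgm 1) hgm1 F
  have hXr : Basic rot hrot.map Fx := basic_pull hfoot hr0 F
  have hBr : Basic rot hrot.map Fb := basic_pull (map_at hgam D) hr1 F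
  -- the value of `J` at the two ends
  have hJB : J phi hphi.map T B = 0 := by
    have : Form.pull gam hgam F = Form.pull phi hphi.map Fx :=
      (pull_pull hphi.map hfoot hgam (fun p => (hgf p).symm) F).symm
    rw [hB, this]
    exact J_KT hphi D Fx
  have hJ1 : J phi hphi.map T (at_ 1 β) = κ' • 1 := by
    rw [hβ1, J_sub, hJB, sub_zero]
    exact hk'
  obtain ⟨μ, hμ⟩ := hβ.ex
  have hhat : ∀ s, at_ s (hh n F2 F1) = hh n (at_ s F2) (at_ s F1) := fun s =>
    pull_hh _ n F2 F1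
  obtain ⟨ζ0, hζ0, hζ0b⟩ : ∃ ζ, hh n Fb Fx = ζ.d ∧ Basic rot hrot.map ζ := by
    have h1 := congrArg (at_ 0) hμ
    rw [at_mul, hβ0, hhat, hF10, hF20, at_d] at h1
    have h2 := congrArg (J rot hrot.map c) h1
    rw [J_mul_basic _ _ (Basic.hh hBr hXr n), J_neg, hk, J_d hrot, neg_mul, neg_inj,
      smul_mul_assoc, one_mul] at h2
    refine ⟨κ⁻¹ • J rot hrot.map c (at_ 0 μ), ?_, Basic.smul _ (J_basic hrot _)⟩
    rw [Form.d_smul, ← h2, smul_smul, inv_mul_cancel₀ hκ, one_smul]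
  obtain ⟨ζ1, hζ1, hζ1b⟩ : ∃ ζ, hh n (at_ 1 F2) (at_ 1 F1) = ζ.d ∧
      Basic phi hphi.map ζ := by
    have h1 := congrArg (at_ 1) hμ
    rw [at_mul, hhat, at_d] at h1
    have h2 := congrArg (J phi hphi.map T) h1
    rw [J_mul_basic _ _ (Basic.hh hG2 hG1 n), hJ1, J_d hphi, smul_mul_assoc, one_mul] at h2
    refine ⟨κ'⁻¹ • (-J phi hphi.map T (at_ 1 μ)), ?_,
      Basic.smul _ (Basic.neg (J_basic hphi _))⟩
    rw [Form.d_smul, Form.d_neg, ← h2, smul_smul, inv_mul_cancel₀ hκ', one_smul]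
  -- exactness of `F_x ^ n` and of `F₁ ^ n`
  obtain ⟨η0, hη0⟩ := pow_exact hb1 hx1 hb2 hPB.db hζ0
  obtain ⟨η, hη⟩ : ∃ η : Form (dV.prod (Dif.lin ℝ)), F1 ^ n = η.d := by
    obtain ⟨m, hm⟩ := pow_sub_exact hp1 hPp.d₀ hp2 hPp.db n
    refine ⟨m + pr η0, ?_⟩
    rw [Form.d_add, ← hm, ← pr_d, ← hη0, pr_pow]
    abel
  have hmn3 : F2 ^ (n + 1) = 0 := by
    obtain ⟨_, _, h3⟩ := pull_good hF hFe hFn hgm
    refine (map_pow (Form.pullA _ (map_cyl hhalf)) Fm' (n + 1)).symm.trans ?_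
    rw [h3]
    exact map_zero (Form.pullA _ (map_cyl hhalf))
  have hFF : F1 ^ n * F2 ^ n = (η * hh n F2 F1).d := by
    rw [d_mul_closed _ (hh_closed hβ.d₀ hp1 n), ← hη, pow_mul_hh (even_comm hp2 _) hp3]
  have hηe : ∀ s, (at_ s η).d = at_ s F1 ^ n := fun s => by rw [← at_d, ← hη, at_pow]
  have hIK : I (Form.K (F1 ^ n * F2 ^ n)) = 0 := by
    have h1 := congrArg I (homotopy' (η * hh n F2 F1))
    rw [← hFF, map_sub, map_add, hI, add_zero, at_mul, at_mul, hhat, hhat, hF10, hF20, hζ0,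
      hζ1, integral_by_parts hI _ ζ1, integral_by_parts hI _ ζ0, hηe, hηe, hF10,
      hIp _ (Basic.mul (Basic.pow hG1 n) hζ1b), hIr _ (Basic.mul (Basic.pow hXr n) hζ0b),
      sub_zero] at h1
    · exact h1.symm
    · rw [hηe, hF10]
      exact pow_even hx2 n
    · rw [hηe]
      exact pow_even (by rw [← at_sg, hp2]) n
  -- the Chern-Simons form at the two ends
  have hodd : 2 * n - 1 + 1 = 2 * n := by omega
  have hcs : I (at_ 1 (β * β.d ^ (2 * n - 1))) = I (at_ 0 (β * β.d ^ (2 * n - 1))) := by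
    have h1 := congrArg I (homotopy' (β * β.d ^ (2 * n - 1)))
    rw [d_mul_closed _ (pow_closed (Form.d_d _) _), ← pow_succ', hodd, hβ.db,
      sub_pow_even (even_comm hp2 _) hp3 hmn3, map_sub, map_add, hI, add_zero] at h1
    have h2 : Form.K (((-1) ^ n * ((2 * n).choose n : ℤ)) • (F1 ^ n * F2 ^ n)) =
        (((-1) ^ n * ((2 * n).choose n : ℤ) : ℤ) : ℝ) • Form.K (F1 ^ n * F2 ^ n) := by
      rw [← Form.K_smul, Int.cast_smul_eq_zsmul]
    rw [h2, map_smul, hIK, smul_zero] at h1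
    rw [hβ.db]
    linarith
  have hβo : (at_ 1 β).sg = -at_ 1 β := by rw [← at_sg, hβ.o, hn1]
  have hβb : Basic phi hphi.map (at_ 1 β).d := by
    rw [← at_d, hβ.db, at_sub]
    exact Basic.sub hG1 hG2
  have hend1 : I (at_ 1 (β * β.d ^ (2 * n - 1))) =
      (κ' / T) ^ (2 * n) * I (α * α.d ^ (2 * n - 1)) := by
    rw [at_mul, at_pow, at_d, contact_volume hphi hT hα hαo hI hIp hβo hβb hJ1, hodd]
  have hend0 : I (at_ 0 (β * β.d ^ (2 * n - 1))) = I (B * B.d ^ (2 * n - 1)) := by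
    rw [at_mul, at_pow, at_d, hβ0, Form.d_neg, Odd.neg_pow ⟨n - 1, by omega⟩, neg_mul_neg]
  rw [← hend1, hcs, hend0]
  -- the last computation
  obtain ⟨m, rfl⟩ : ∃ m, n = m + 1 := ⟨n - 1, by omega⟩
  have hm1 : 2 * (m + 1) - 1 = 2 * m + 1 := by omega
  have hm2 : m + 1 - 1 = m := by omega
  rw [hm1, hm2, hPB.db, sub_pow_odd (even_comm hb2 _) hb3 hx3]
  have hBo : B.sg = -B := hPB.o
  have hcxb : Commute Fx Fb := even_comm hx2 _
  have hflip : I (B * (Fb ^ (m + 1) * Fx ^ m)) = -I (B * (Fx ^ (m + 1) * Fb ^ m)) := by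
    set B' := Form.pull (fun v => phi (v, D)) hhalf B with hB'
    have hB'o : B'.sg = -B' := by
      rw [hB', ← Form.pull_sg, hBo]
      exact map_neg (Form.pullA _ hhalf) B
    have hB'd : B'.d = Fx - Fb := by
      rw [hB', ← Form.pull_d, hPB.db]
      refine (map_sub (Form.pullA _ hhalf) Fb Fx).trans ?_
      change Form.pull _ hhalf Fb - Form.pull _ hhalf Fx = _
      rw [hxb, hbx]
    have h1 : I (B * (Fb ^ (m + 1) * Fx ^ m)) = I (B' * (Fx ^ (m + 1) * Fb ^ m)) := by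
      rw [← hIh]
      congr 1
      refine (map_mul (Form.pullA _ hhalf) _ _).trans ?_
      rw [map_mul, map_pow, map_pow]
      change B' * (Form.pull _ hhalf Fb ^ (m + 1) * Form.pull _ hhalf Fx ^ m) = _
      rw [hxb, hbx]
    have h2 : ((B + B') * η0 * Fb ^ m).d = -((B + B') * (Fx ^ (m + 1) * Fb ^ m)) := by
      rw [d_mul_closed _ (pow_closed hb1 m), Form.d_mul, Form.d_add, hPB.db, hB'd, Form.sg_add,
        hBo, hB'o, ← hη0]
      noncomm_ring
    have h3 := hI ((B + B') * η0 * Fb ^ m)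
    rw [h2, map_neg, add_mul, map_add] at h3
    linarith
  have hsm : B * (((-1) ^ m * ((2 * m + 1).choose m : ℤ)) •
      (Fb ^ (m + 1) * Fx ^ m - Fb ^ m * Fx ^ (m + 1))) =
      (((-1) ^ m * ((2 * m + 1).choose m : ℤ) : ℤ) : ℝ) •
        (B * (Fb ^ (m + 1) * Fx ^ m) - B * (Fx ^ (m + 1) * Fb ^ m)) := by
    rw [← mul_sub, ← mul_smul_comm, Int.cast_smul_eq_zsmul, (hcxb.pow_pow (m + 1) m).eq]
  rw [hsm, map_smul, map_sub, hflip, smul_eq_mul]
  have hch : (((2 * (m + 1)).choose (m + 1) : ℕ) : ℝ) = 2 * (((2 * m + 1).choose m : ℕ) : ℝ) := by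
    have h1 : 2 * (m + 1) = (2 * m + 1) + 1 := by ring
    have h2 : (2 * m + 1).choose (m + 1) = (2 * m + 1).choose m := by
      rw [← Nat.choose_symm_of_eq_add (show 2 * m + 1 = m + (m + 1) by omega)]
    rw [h1, Nat.choose_succ_succ, h2]
    push_cast
    ring
  rw [hch]
  push_cast
  ring

end Main

end Vale.Agent.P231.H584
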