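import Vale.Agent.P231.H584.Bas

/-!
# P231, Phi-side of stages 2 and 3
-/

set_option linter.unusedSectionVars false
set_option linter.unusedVariables false

open MeasureTheory Set Module Filter Topology
open scoped ContDiff Real

namespace Vale.Agent.P231.H584

open Fm W

section Ring

variable {X : Type*} {D : Dif X} {T : ℝ} {Φ : X × ℝ → X} (h : IsFlow D T Φ) {α : Form D}

theorem WW_coe {n : ℕ} (x y : Bas Φ h.map) :
    ((WW x y n : Bas Φ h.map) : Form D) = (x : Form D) ^ (n + 1) * y ^ n -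
      (x : Form D) ^ n * y ^ (n + 1) := rfl

/-- the reduction in the ring of basic forms -/
theorem phi_ring (hT : T ≠ 0) (hα : Form.pull Φ h.map α = pr α + dt) (hαo : α.sg = -α)
    {I : Form D →ₗ[ℝ] ℝ} (hI : ∀ w : Form D, I w.d = 0)
    (hIb : ∀ w, Basic Φ h.map w → I w = 0) {n p q N : ℕ} {a μ C : ℝ}
    (hcoef : ∀ e b x y : Bas Φ h.map ⧸ Exa Φ h.map, x ^ (n + 2) = 0 → y ^ (n + 2) = 0 →
      x - y = e * b → b ^ 2 = a • e ^ p + μ • (e ^ q * (x + y)) →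
      e ^ N * b = C • (b ^ 2 * WW x y n))
    {x y β ρ : Form D} (hxe : x.sg = x) (hx : x.d = 0) (hxb : Basic Φ h.map x)
    (hye : y.sg = y) (hy : y.d = 0) (hyb : Basic Φ h.map y) (hxn : x ^ (n + 2) = 0)
    (hyn : y ^ (n + 2) = 0) (hβo : β.sg = -β) (hβ : β.d = x - y)
    (hρ : Basic Φ h.map ρ)
    (hrel : J Φ h.map T β ^ 2 = a • (T⁻¹ • α.d) ^ p +
      μ • ((T⁻¹ • α.d) ^ q * (x + y)) + ρ.d) :
    I (α * (α.d ^ N * J Φ h.map T β)) = T ^ N * C *
      I (α * (J Φ h.map T β ^ 2 * (x ^ (n + 1) * y ^ n - x ^ n * y ^ (n + 1)))) := by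
  set b := J Φ h.map T β with hb
  have hβb : Basic Φ h.map β.d := by
    rw [hβ]
    exact Basic.sub hxb hyb
  have hbe : b.sg = b := by
    rw [hb, J_def, KT_sg, ← Form.pull_sg, hβo]
    have : Form.pull Φ h.map (-β) = -Form.pull Φ h.map β := map_neg (Form.pullA Φ h.map) β
    rw [this, KT_neg, neg_neg]
  have hbd : b.d = 0 := by
    have h3 := J_d h β
    rw [J_of_basic T hβb] at h3
    exact neg_eq_zero.1 h3.symm
  have hbb : Basic Φ h.map b := J_basic h β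
  set e := T⁻¹ • α.d with he
  have hee : e.sg = e := by rw [he, Form.sg_smul, d_even hαo]
  have hed : e.d = 0 := by rw [he, Form.d_smul, Form.d_d, smul_zero]
  have heb : Basic Φ h.map e := Basic.smul _ (basic_d_contact h hα)
  let x' : Bas Φ h.map := ⟨x, hxe, hx, hxb⟩
  let y' : Bas Φ h.map := ⟨y, hye, hy, hyb⟩
  let b' : Bas Φ h.map := ⟨b, hbe, hbd, hbb⟩
  let e' : Bas Φ h.map := ⟨e, hee, hed, heb⟩
  set Q := Ideal.Quotient.mk (Exa Φ h.map) with hQ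
  have h1 : Q x' ^ (n + 2) = 0 := by
    rw [← map_pow]
    have : x' ^ (n + 2) = 0 := Subtype.ext hxn
    rw [this, map_zero]
  have h2 : Q y' ^ (n + 2) = 0 := by
    rw [← map_pow]
    have : y' ^ (n + 2) = 0 := Subtype.ext hyn
    rw [this, map_zero]
  have h3 : Q x' - Q y' = Q e' * Q b' := by
    rw [← map_sub, ← map_mul]
    have h4 := gysin_d h hα hαo hβb
    refine eq_quot Φ h.map (u := T⁻¹ • J Φ h.map T (α * β)) (Basic.smul _ (J_basic h _)) ?_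
    have h5 : ((x' - y' : Bas Φ h.map) : Form D) = x - y := rfl
    have h6 : ((e' * b' : Bas Φ h.map) : Form D) = e * b := rfl
    rw [h5, h6, ← hβ, he, smul_mul_assoc, Form.d_smul, ← smul_add, ← h4, smul_smul,
      inv_mul_cancel₀ hT, one_smul]
  have hsm : ∀ (r : ℝ) (w : Bas Φ h.map), Q (r • w) = r • Q w := fun r w => rfl
  have h4 : Q b' ^ 2 = a • Q e' ^ p + μ • (Q e' ^ q * (Q x' + Q y')) := by
    have h5 : Q (b' ^ 2) = Q (a • e' ^ p + μ • (e' ^ q * (x' + y'))) :=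
      eq_quot Φ h.map hρ hrel
    rw [map_pow, map_add, hsm, hsm, map_mul, map_pow, map_pow, map_add] at h5
    exact h5
  have h5 := hcoef _ _ _ _ h1 h2 h3 h4
  have h6 : Q (e' ^ N * b') = Q (C • (b' ^ 2 * WW x' y' n)) := by
    rw [hsm, map_mul, map_pow, h5, map_mul, map_pow, WW, WW, map_sub, map_mul, map_mul, map_pow,
      map_pow, map_pow, map_pow]
  obtain ⟨u, hu, hu'⟩ := quot_eq Φ h.map h6
  have h7 : ((e' ^ N * b' : Bas Φ h.map) : Form D) = e ^ N * b := rfl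
  have h8 : ((C • (b' ^ 2 * WW x' y' n) : Bas Φ h.map) : Form D) =
    C • (b ^ 2 * (x ^ (n + 1) * y ^ n - x ^ n * y ^ (n + 1))) := rfl
  rw [h7, h8] at hu'
  have h9 : I (α * u.d) = 0 := by
    rw [integral_by_parts hI _ _ (d_even hαo)]
    exact hIb _ (Basic.mul (basic_d_contact h hα) hu)
  have h10 := congrArg (fun w => I (α * w)) hu'
  simp only [mul_add, map_add, h9, add_zero, mul_smul_comm, map_smul, smul_eq_mul] at h10
  have h11 : α.d = T • e := by rw [he, smul_smul, mul_inv_cancel₀ hT, one_smul]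
  have h12 : α.d ^ N = T ^ N • e ^ N := by rw [h11, _root_.smul_pow]
  rw [h12, smul_mul_assoc, mul_smul_comm, map_smul, h10, smul_eq_mul]
  ring

end Ring

section Bridge

variable {X : Type*} {D : Dif X}

/-- transport of the Chern-Simons type integral along the homotopy -/
theorem bridge {T c : ℝ} {φ ψ : X × ℝ → X} (hφ : IsFlow D T φ) (hψ : IsFlow D c ψ)
    {I : Form D →ₗ[ℝ] ℝ} (hI : ∀ w : Form D, I w.d = 0)
    (hIφ : ∀ w, Basic φ hφ.map w → I w = 0) (hIψ : ∀ w, Basic ψ hψ.map w → I w = 0)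
    {n : ℕ} {F1 F2 β η bh : Form (D.prod (Dif.lin ℝ))} (hβ : Pth (n + 1) F2 F1 β)
    (h1n : F1 ^ (n + 2) = 0) (h2n : F2 ^ (n + 2) = 0) (hη : F1 ^ (n + 1) = η.d)
    (hG1 : Basic φ hφ.map (at_ 1 F1)) (hG2 : Basic φ hφ.map (at_ 1 F2))
    (hE1 : Basic ψ hψ.map (at_ 0 F1)) (hE2 : Basic ψ hψ.map (at_ 0 F2))
    (hbe : bh.sg = bh) (hbd : bh.d = 0) {ε : ℝ}
    (hb1 : at_ 1 bh = J φ hφ.map T (at_ 1 β)) (hb0 : at_ 0 bh = ε • J ψ hψ.map c (at_ 0 β)) :
    I (at_ 1 β * at_ 1 bh * (at_ 1 F1 ^ (n + 1) * at_ 1 F2 ^ n)) =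
      I (at_ 0 β * at_ 0 bh * (at_ 0 F1 ^ (n + 1) * at_ 0 F2 ^ n)) := by
  obtain ⟨μ, hμ⟩ := hβ.ex
  have hhat : ∀ s, at_ s (hh (n + 1) F2 F1) = hh (n + 1) (at_ s F2) (at_ s F1) := fun s =>
    pull_hh _ (n + 1) F2 F1
  have hcb : ∀ w, Commute bh w := fun w => even_comm hbe w
  have hFF : bh * (F1 ^ (n + 1) * F2 ^ (n + 1)) = (η * (bh * hh (n + 1) F2 F1)).d := by
    rw [d_mul_closed _ (mul_closed hbd (hh_closed hβ.d₀ hβ.d₁ _)), ← hη, ← mul_assoc (F1 ^ (n + 1)),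
      ← (hcb _).eq, mul_assoc, pow_mul_hh (even_comm hβ.e₁ _) h1n]
  have hηe : ∀ s, (at_ s η).d = at_ s F1 ^ (n + 1) := fun s => by rw [← at_d, ← hη, at_pow]
  have hη2 : ∀ s, (at_ s η).d.sg = (at_ s η).d := fun s => by
    rw [hηe]
    exact pow_even (by rw [← at_sg, hβ.e₁]) _
  have h1 : at_ 1 (bh * hh (n + 1) F2 F1) = (-J φ hφ.map T (at_ 1 μ)).d := by
    rw [at_mul, hb1, hhat, ← J_mul_basic _ _ (Basic.hh hG2 hG1 _), ← hhat, ← at_mul, hμ, at_d,
      J_d hφ, Form.d_neg]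
  have h0 : at_ 0 (bh * hh (n + 1) F2 F1) = (-(ε • J ψ hψ.map c (at_ 0 μ))).d := by
    rw [at_mul, hb0, hhat, smul_mul_assoc, ← J_mul_basic _ _ (Basic.hh hE2 hE1 _), ← hhat,
      ← at_mul, hμ, at_d, J_d hψ, Form.d_neg, Form.d_smul, smul_neg]
  have hIK : I (Form.K (bh * (F1 ^ (n + 1) * F2 ^ (n + 1)))) = 0 := by
    have h2 := congrArg I (homotopy' (η * (bh * hh (n + 1) F2 F1)))
    rw [← hFF, map_sub, map_add, hI, add_zero, at_mul 1 η, at_mul 0 η, h1, h0,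
      integral_by_parts hI _ _ (hη2 1), integral_by_parts hI _ _ (hη2 0), hηe, hηe,
      hIφ _ (Basic.mul (Basic.pow hG1 _) (Basic.neg (J_basic hφ _))),
      hIψ _ (Basic.mul (Basic.pow hE1 _) (Basic.neg (Basic.smul _ (J_basic hψ _)))),
      sub_zero] at h2
    exact h2.symm
  have hwd : (bh * β * (F1 ^ (n + 1) * F2 ^ n)).d = -(bh * (F1 ^ (n + 1) * F2 ^ (n + 1))) := by
    rw [d_mul_closed _ (mul_closed (pow_closed hβ.d₁ _) (pow_closed hβ.d₀ _)), Form.d_mul, hbd,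
      zero_mul, zero_add, hbe, hβ.db, mul_assoc, ← mul_neg]
    congr 1
    have c12 : Commute F2 (F1 ^ (n + 1)) := even_comm hβ.e₀ _
    have e1 : F1 * (F1 ^ (n + 1) * F2 ^ n) = 0 := by
      rw [← mul_assoc, ← pow_succ', h1n, zero_mul]
    have e2 : F2 * (F1 ^ (n + 1) * F2 ^ n) = F1 ^ (n + 1) * F2 ^ (n + 1) := by
      rw [← mul_assoc, c12.eq, mul_assoc, ← pow_succ']
    rw [sub_mul, e1, e2, zero_sub]
  have h3 := congrArg I (homotopy' (bh * β * (F1 ^ (n + 1) * F2 ^ n)))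
  have h4 : Form.K (-(bh * (F1 ^ (n + 1) * F2 ^ (n + 1)))) =
      -Form.K (bh * (F1 ^ (n + 1) * F2 ^ (n + 1))) := by
    rw [← neg_one_smul ℝ, Form.K_smul, neg_one_smul]
  rw [hwd, h4, map_sub, map_add, hI, add_zero, map_neg, hIK, neg_zero] at h3
  have h5 : ∀ s, at_ s (bh * β * (F1 ^ (n + 1) * F2 ^ n)) =
      at_ s β * at_ s bh * (at_ s F1 ^ (n + 1) * at_ s F2 ^ n) := fun s => by
    rw [(hcb β).eq, at_mul, at_mul, at_mul, at_pow, at_pow]
  rw [h5, h5] at h3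
  linarith

theorem map_fn_at (c : ℝ) :
    at_ c (Form.fn (Prod.snd : X × ℝ → ℝ) (Dif.map_snd (D := D) (D' := Dif.lin ℝ))) =
      c • 1 := Form.ext_val fun E _ _ _ u x h => by
  rw [at_, Form.slice_val _ _ h, Form.fn_val _ _ (Form.cyl_at h c), Form.smul_val,
    Form.one_val h, at0_apply, AlgHom.commutes, Algebra.algebraMap_eq_smul_one]
  rfl

/-- a closed even interpolation between two cohomologous forms -/
theorem exists_interp {b0 b1 l : Form D} (h0 : b0.d = 0) (h0e : b0.sg = b0)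
    (h1e : b1.sg = b1) (h : b1 = b0 + l.d) : ∃ bh : Form (D.prod (Dif.lin ℝ)),
      bh.sg = bh ∧ bh.d = 0 ∧ at_ 0 bh = b0 ∧ at_ 1 bh = b1 := by
  -- the odd part of `l`
  set l' := (2⁻¹ : ℝ) • (l - l.sg) with hl'
  have hlo : l'.sg = -l' := by
    rw [hl', Form.sg_smul, Form.sg_sub, Form.sg_sg, ← smul_neg, neg_sub]
  have hld : l'.d = l.d := by
    have h1 : l.d.sg = l.d := by
      have h2 : l.d = b1 - b0 := by rw [h]; abel
      rw [h2, Form.sg_sub, h1e, h0e]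
    have h2 := Form.d_sg l
    rw [h1] at h2
    rw [hl', Form.d_smul, Form.d_sub, h2, sub_neg_eq_add, ← two_smul ℝ, smul_smul,
      inv_mul_cancel₀ two_ne_zero, one_smul]
  set t := Form.fn (Prod.snd : X × ℝ → ℝ) (Dif.map_snd (D := D) (D' := Dif.lin ℝ)) with ht
  refine ⟨pr b0 + (t * pr l').d, ?_, ?_, ?_, ?_⟩
  · have h1 : (t * pr l').sg = -(t * pr l') := by
      rw [Form.sg_mul, ht, Form.sg_fn, ← pr_sg, hlo, ← mul_neg]
      congr 1
      exact map_neg (Form.pullA Prod.fst Dif.map_fst) l'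
    rw [Form.sg_add, d_even h1, ← pr_sg, h0e]
  · rw [Form.d_add, Form.d_d, add_zero, ← pr_d, h0, pr_zero]
  · rw [at_add, at_pr, at_d, at_mul, at_pr, ht, map_fn_at, zero_smul, zero_mul, Form.d_zero,
      add_zero]
  · rw [at_add, at_pr, at_d, at_mul, at_pr, ht, map_fn_at, one_smul, one_mul, hld, h]

end Bridge

end Vale.Agent.P231.H584
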