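import Vale.Agent.P231.H584.Tau
import Vale.Agent.P231.H584.Phi

/-!
# P231, stage 3: dependence of `τ` on the contact form

`tauG α β G` is a natural basic form with `d (tauG α β G) = τ(α + β, G) - τ(α, G)`; it vanishes
if `G` is basic (constant loops).
-/

set_option linter.unusedSectionVars false
set_option linter.unusedVariables false

open MeasureTheory Set Module Filter Topology
open scoped ContDiff Real

namespace Vale.Agent.P231.H584

open Fm W

section

variable {X : Type*} {D : Dif X}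

/-- the time function on the cylinder -/
noncomputable def tm : Form (D.prod (Dif.lin ℝ)) :=
  Form.fn (Prod.snd : X × ℝ → ℝ) (Dif.map_snd (D := D) (D' := Dif.lin ℝ))

theorem tm_def : (tm : Form (D.prod (Dif.lin ℝ))) =
    Form.fn (Prod.snd : X × ℝ → ℝ) (Dif.map_snd (D := D) (D' := Dif.lin ℝ)) := rfl

theorem tm_sg : (tm : Form (D.prod (Dif.lin ℝ))).sg = tm :=
  Form.sg_fn (Prod.snd : X × ℝ → ℝ) (Dif.map_snd (D := D) (D' := Dif.lin ℝ))

/-- the interpolated contact form on the cylinder -/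
noncomputable def als (α β : Form D) : Form (D.prod (Dif.lin ℝ)) := pr α + tm * pr β

theorem als_odd {α β : Form D} (hα : α.sg = -α) (hβ : β.sg = -β) : (als α β).sg = -als α β := by
  rw [als, Form.sg_add, Form.sg_mul, pr_odd hα, pr_odd hβ, tm_sg, mul_neg, neg_add]

theorem at_als_zero (α β : Form D) : at_ 0 (als α β) = α := by
  rw [als, at_add, at_mul, at_pr, at_pr, tm_def, map_fn_at, zero_smul, zero_mul, add_zero]

theorem at_als_one (α β : Form D) : at_ 1 (als α β) = α + β := by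
  rw [als, at_add, at_mul, at_pr, at_pr, tm_def, map_fn_at, one_smul, one_mul]

variable {T : ℝ} {Φ : X × ℝ → X} (h : IsFlow D T Φ)

theorem tm_basic {hΦ : (D.prod (Dif.lin ℝ)).Map D Φ} :
    Basic (cflow Φ) (map_cflow hΦ) (tm : Form (D.prod (Dif.lin ℝ))) := by
  have h1 : ((D.prod (Dif.lin ℝ)).prod (Dif.lin ℝ)).Map (Dif.lin ℝ)
      (fun p : (X × ℝ) × ℝ => p.1.2) := fun hh => hh.1.2
  have h2 : Form.pull (cflow Φ) (map_cflow hΦ) (tm : Form (D.prod (Dif.lin ℝ))) =
      Form.fn (fun p : (X × ℝ) × ℝ => p.1.2) h1 :=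
    pull_fn (map_cflow hΦ) (h := (Prod.snd : X × ℝ → ℝ)) Dif.map_snd h1
  have h3 : pr (tm : Form (D.prod (Dif.lin ℝ))) =
      Form.fn (fun p : (X × ℝ) × ℝ => p.1.2) h1 :=
    pull_fn Dif.map_fst (h := (Prod.snd : X × ℝ → ℝ)) Dif.map_snd h1
  exact h2.trans h3.symm

theorem als_contact {α β : Form D} (hα : Form.pull Φ h.map α = pr α + dt)
    (hβ : Basic Φ h.map β) :
    Form.pull (cflow Φ) (map_cflow h.map) (als α β) = pr (als α β) + dt := by
  have h1 : Basic (cflow Φ) (map_cflow h.map) (tm * pr β) :=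
    Basic.mul (tm_basic (hΦ := h.map)) (Basic.pr hβ)
  have h2 : Form.pull (cflow Φ) (map_cflow h.map) (tm * pr β) = pr (tm * pr β) := h1
  rw [als, pull_add, cflow_contact h hα, h2]
  have h3 : pr (pr α + tm * pr β) = pr (pr α) + pr (tm * pr β) := pull_add Dif.map_fst _ _
  rw [h3]
  abel

/-- the difference of two contact forms is basic -/
theorem basic_of_contact {hΦ : (D.prod (Dif.lin ℝ)).Map D Φ} {α α' : Form D}
    (hα : Form.pull Φ hΦ α = pr α + dt) (hα' : Form.pull Φ hΦ α' = pr α' + dt) :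
    Basic Φ hΦ (α' - α) := by
  have h1 : pr (α' - α) = pr α' - pr α := pull_sub Dif.map_fst _ _
  have h2 : Form.pull Φ hΦ (α' - α) = pr (α' - α) := by
    rw [pull_sub, hα, hα', h1]
    abel
  exact h2

/-- the transgression of `τ` between the contact forms `α` and `α + β` -/
noncomputable def tauG (A C : ℝ) (Φ : X × ℝ → X) (hΦ : (D.prod (Dif.lin ℝ)).Map D Φ) (T : ℝ)
    (α β G : Form D) : Form D :=
  Form.K (tau A C (cflow Φ) (map_cflow hΦ) T (als α β) (pr G))

theorem tauG_def (A C : ℝ) (Φ : X × ℝ → X) (hΦ : (D.prod (Dif.lin ℝ)).Map D Φ) (T : ℝ)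
    (α β G : Form D) : tauG A C Φ hΦ T α β G =
      Form.K (tau A C (cflow Φ) (map_cflow hΦ) T (als α β) (pr G)) := rfl

theorem tauG_of_basic (A C : ℝ) {hΦ : (D.prod (Dif.lin ℝ)).Map D Φ} (T : ℝ) (α β : Form D)
    {G : Form D} (hG : Basic Φ hΦ G) : tauG A C Φ hΦ T α β G = 0 := by
  rw [tauG_def, tau_of_basic A C (Basic.pr hG), K_zero]

variable (A C : ℝ) {α β G : Form D} (hα : Form.pull Φ h.map α = pr α + dt)
  (hαo : α.sg = -α) (hβ : Basic Φ h.map β) (hβo : β.sg = -β) (hGe : G.sg = G)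
include hα hαo hβ hβo hGe

theorem tauG_basic : Basic Φ h.map (tauG A C Φ h.map T α β G) :=
  basic_K (tau_basic (isFlow_cflow h) A C (als_contact h hα hβ) (als_odd hαo hβo)
    (by rw [← pr_sg, hGe]))

/-- **dependence of `τ` on the contact form** -/
theorem tauG_d (hT : T ≠ 0) (hG : G.d = 0) (hGn : G ^ (2 + 1) = 0) :
    (tauG A C Φ h.map T α β G).d = tau A C Φ h.map T (α + β) G - tau A C Φ h.map T α G := by
  have h0 : (pr G).d = 0 := by rw [← pr_d, hG, pr_zero]
  have h2 : (pr G) ^ (2 + 1) = 0 := by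
    have := pull_pow (Dif.map_fst (D := D) (D' := Dif.lin ℝ)) G (2 + 1)
    rw [hGn, pull_zero] at this
    exact this.symm
  have h1 := tau_d (isFlow_cflow h) A C hT (als_contact h hα hβ) (als_odd hαo hβo)
    (G := pr G) (by rw [← pr_sg, hGe]) h0 h2
  have h3 := homotopy' (tau A C (cflow Φ) (isFlow_cflow h).map T (als α β) (pr G))
  rw [h1, K_zero, zero_add] at h3
  have h4 : ∀ s, at_ s (tau A C (cflow Φ) (isFlow_cflow h).map T (als α β) (pr G)) =
      tau A C Φ h.map T (at_ s (als α β)) G := fun s => by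
    have h5 := pull_tau h.map (map_cflow h.map) (Form.map_slice s) (fun x t => rfl) A C T
      (als α β) (pr G)
    have h6 : Form.pull (fun x : X => (x, s)) (Form.map_slice s) (pr G) = G := at_pr s G
    rw [h6] at h5
    exact h5
  rw [h4, h4, at_als_zero, at_als_one] at h3
  exact h3.symm

end

section Nat

variable {X Y : Type*} {D : Dif X} {D' : Dif Y} {φ : X × ℝ → X} {φ' : Y × ℝ → Y}
    (hφ : (D.prod (Dif.lin ℝ)).Map D φ) (hφ' : (D'.prod (Dif.lin ℝ)).Map D' φ') {f : X → Y}
    (hf : D.Map D' f)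

theorem pull_als (α β : Form D') :
    Form.pull (fun p : X × ℝ => (f p.1, p.2)) (map_cyl hf) (als α β) =
      als (Form.pull f hf α) (Form.pull f hf β) := by
  rw [als, pull_add, pull_mul, pull_pr hf, pull_pr hf, als]
  congr 2
  exact pull_fn (map_cyl hf) (h := (Prod.snd : Y × ℝ → ℝ)) Dif.map_snd Dif.map_snd

/-- naturality -/
theorem pull_tauG (hc : ∀ x t, f (φ (x, t)) = φ' (f x, t)) (A C T : ℝ) (α β G : Form D') :
    Form.pull f hf (tauG A C φ' hφ' T α β G) =
      tauG A C φ hφ T (Form.pull f hf α) (Form.pull f hf β) (Form.pull f hf G) := by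
  rw [tauG_def, ← K_nat hf, pull_tau (map_cflow hφ) (map_cflow hφ') (map_cyl hf)
    (fun x t => by simp only [cflow]; rw [← hc]), pull_als, pull_pr hf, tauG_def]

end Nat

end Vale.Agent.P231.H584
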