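import Vale.Agent.P231.H584.Mod
import Vale.Agent.P231.H584.Bas

/-!
# P231, stage 3: the gauge identity and primitives relative to the end `t = 1`
-/

set_option linter.unusedSectionVars false
set_option linter.unusedVariables false

open MeasureTheory Set Module Filter Topology
open scoped ContDiff Real

namespace Vale.Agent.P231.H584

open Fm W

section Ev

variable {X : Type*} (D : Dif X)

/-- the commutative algebra of even forms -/
def EvA : Subalgebra ℝ (Form D) where
  carrier := {w | w.sg = w}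
  mul_mem' := fun {a b} ha hb => mul_even ha hb
  add_mem' := fun {a b} ha hb => by
    change (a + b).sg = a + b
    rw [Form.sg_add, show a.sg = a from ha, show b.sg = b from hb]
  algebraMap_mem' := fun r => by
    change (algebraMap ℝ (Form D) r).sg = algebraMap ℝ (Form D) r
    rw [Algebra.algebraMap_eq_smul_one, Form.sg_smul, Form.sg_one]

noncomputable instance : CommRing (EvA D) :=
  { (EvA D).toRing with
    mul_comm := fun a b => Subtype.ext (even_comm a.2 b.1).eq }

variable {D}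

/-- the differential of the even form `a` is `A x' + B τ` -/
def IsD (v w : Form D) (a A B : EvA D) : Prop := (a : Form D).d = A * v + B * w

variable {v w : Form D} {a A B b A' B' : EvA D}

theorem EvA.comm (a : EvA D) (v : Form D) : (a : Form D) * v = v * a := (even_comm a.2 v).eq

theorem IsD.add (h : IsD v w a A B) (h' : IsD v w b A' B') :
    IsD v w (a + b) (A + A') (B + B') := by
  have e : ((a + b : EvA D) : Form D) = (a : Form D) + b := rfl
  have e1 : ((A + A' : EvA D) : Form D) = (A : Form D) + A' := rfl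
  have e2 : ((B + B' : EvA D) : Form D) = (B : Form D) + B' := rfl
  rw [IsD, e, e1, e2, Form.d_add, show (a : Form D).d = _ from h,
    show (b : Form D).d = _ from h', add_mul, add_mul]
  abel

theorem IsD.mul (h : IsD v w a A B) (h' : IsD v w b A' B') :
    IsD v w (a * b) (A * b + a * A') (B * b + a * B') := by
  have e : ((a * b : EvA D) : Form D) = (a : Form D) * b := rfl
  have e1 : ((A * b + a * A' : EvA D) : Form D) = (A : Form D) * b + a * A' := rfl
  have e2 : ((B * b + a * B' : EvA D) : Form D) = (B : Form D) * b + a * B' := rfl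
  rw [IsD, e, e1, e2, Form.d_mul, show (a : Form D).sg = a from a.2,
    show (a : Form D).d = _ from h, show (b : Form D).d = _ from h', add_mul, mul_add, add_mul,
    add_mul, mul_assoc _ v, mul_assoc _ w, ← EvA.comm b v, ← EvA.comm b w]
  noncomm_ring

theorem IsD.congr (h : IsD v w a A B) (e1 : a = b) (e2 : A = A') (e3 : B = B') :
    IsD v w b A' B' := by rwa [← e1, ← e2, ← e3]

theorem IsD.natCast (n : ℕ) : IsD v w ((n : ℕ) : EvA D) 0 0 := by
  have e : (((n : ℕ) : EvA D) : Form D) = ((n : ℕ) : Form D) := rfl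
  have e1 : ((0 : EvA D) : Form D) = 0 := rfl
  rw [IsD, e, e1, zero_mul, zero_mul, add_zero]
  have : ((n : ℕ) : Form D) = (n : ℝ) • 1 := by
    rw [← Algebra.algebraMap_eq_smul_one, map_natCast]
  rw [this, Form.d_smul, Form.d_one, smul_zero]

end Ev

section Gauge

variable {X : Type*} {D : Dif X} {x e K y v τ : Form D} (hxe : x.sg = x) (hee : e.sg = e)
  (hKe : K.sg = K) (hye : y.sg = y) (hxd : x.d = -(e * v)) (hed : e.d = 0) (hKd : K.d = v - τ)
  (hyd : y.d = -((3 : ℝ) • (x ^ 2 * v)))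
include hxe hee hKe hye hxd hed hKd hyd

/-- the four derivations -/
theorem gauge_data : ∃ X' E' K' Y' : EvA D, (X' : Form D) = x ∧ (E' : Form D) = e ∧
    (K' : Form D) = K ∧ (Y' : Form D) = y ∧ IsD v τ X' (-E') 0 ∧ IsD v τ E' 0 0 ∧
    IsD v τ K' 1 (-1) ∧ IsD v τ Y' (-3 * X' ^ 2) 0 := by
  refine ⟨⟨x, hxe⟩, ⟨e, hee⟩, ⟨K, hKe⟩, ⟨y, hye⟩, rfl, rfl, rfl, rfl, ?_, ?_, ?_, ?_⟩
  · change x.d = -e * v + 0 * τ
    rw [hxd, zero_mul, add_zero, neg_mul]
  · change e.d = 0 * v + 0 * τ
    rw [hed, zero_mul, zero_mul, add_zero]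
  · change K.d = 1 * v + -1 * τ
    rw [hKd, one_mul, neg_mul, one_mul, sub_eq_add_neg]
  · have e1 : ((-3 * (⟨x, hxe⟩ : EvA D) ^ 2 : EvA D) : Form D) = -3 * x ^ 2 := rfl
    rw [IsD, e1]
    change y.d = -3 * x ^ 2 * v + 0 * τ
    rw [hyd, zero_mul, add_zero, neg_mul, neg_mul, mul_assoc]
    congr 1
    have : (3 : Form D) = (3 : ℝ) • 1 := by
      rw [← Algebra.algebraMap_eq_smul_one, map_ofNat]
    rw [this, smul_mul_assoc, one_mul]

/-- **the gauge identity** -/
theorem gauge : (x + e * K).d = -(e * τ) ∧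
    (y + K * (x ^ 2 + x * (x + e * K) + (x + e * K) ^ 2)).d =
      -((3 : ℝ) • ((x + e * K) ^ 2 * τ)) ∧
    v * y - τ * (y + K * (x ^ 2 + x * (x + e * K) + (x + e * K) ^ 2)) =
      ((4 : ℝ)⁻¹ • (4 * (K * y) + 6 * (x ^ 2 * K ^ 2) + 4 * (x * e * K ^ 3) +
        e ^ 2 * K ^ 4)).d := by
  obtain ⟨X', E', K', Y', h1, h2, h3, h4, h5, h6, h7, h8⟩ :=
    gauge_data hxe hee hKe hye hxd hed hKd hyd
  have f1 := h5.add (h6.mul h7)
  have f2 := h8.add (h7.mul (((h5.mul h5).add (h5.mul f1)).add (f1.mul f1)))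
  have f3 := (((IsD.natCast 4).mul (h7.mul h8)).add ((IsD.natCast 6).mul
    ((h5.mul h5).mul (h7.mul h7)))).add ((IsD.natCast 4).mul ((h5.mul h6).mul
      (h7.mul (h7.mul h7)))) |>.add ((h6.mul h6).mul ((h7.mul h7).mul (h7.mul h7)))
  have g1 := f1.congr (b := X' + E' * K') (A' := 0) (B' := -E') rfl (by ring) (by ring)
  have g2 := f2.congr (b := Y' + K' * (X' ^ 2 + X' * (X' + E' * K') + (X' + E' * K') ^ 2))
    (A' := 0) (B' := -3 * (X' + E' * K') ^ 2) (by ring) (by ring) (by ring)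
  have g3 := f3.congr (b := 4 * (K' * Y') + 6 * (X' ^ 2 * K' ^ 2) + 4 * (X' * E' * K' ^ 3) +
    E' ^ 2 * K' ^ 4) (A' := 4 * Y')
    (B' := -4 * (Y' + K' * (X' ^ 2 + X' * (X' + E' * K') + (X' + E' * K') ^ 2)))
    (by push_cast; ring) (by push_cast; ring) (by push_cast; ring)
  have c3 : (3 : Form D) = (3 : ℝ) • 1 := by
    rw [← Algebra.algebraMap_eq_smul_one, map_ofNat]
  have c4 : (4 : Form D) = (4 : ℝ) • 1 := by
    rw [← Algebra.algebraMap_eq_smul_one, map_ofNat]
  refine ⟨?_, ?_, ?_⟩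
  · have g : (x + e * K).d = 0 * v + -e * τ := by
      rw [← h1, ← h2, ← h3]
      exact g1
    rw [g, zero_mul, zero_add, neg_mul]
  · have g : (y + K * (x ^ 2 + x * (x + e * K) + (x + e * K) ^ 2)).d =
        0 * v + -3 * (x + e * K) ^ 2 * τ := by
      rw [← h1, ← h2, ← h3, ← h4]
      exact g2
    rw [g, zero_mul, zero_add, neg_mul, neg_mul, c3, smul_mul_assoc, smul_mul_assoc, one_mul]
  · have g : (4 * (K * y) + 6 * (x ^ 2 * K ^ 2) + 4 * (x * e * K ^ 3) + e ^ 2 * K ^ 4).d =
        4 * y * v + -4 * (y + K * (x ^ 2 + x * (x + e * K) + (x + e * K) ^ 2)) * τ := by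
      rw [← h1, ← h2, ← h3, ← h4]
      exact g3
    have c1 : v * y = y * v := (even_comm hye v).eq.symm
    have c2 : τ * (y + K * (x ^ 2 + x * (x + e * K) + (x + e * K) ^ 2)) =
        (y + K * (x ^ 2 + x * (x + e * K) + (x + e * K) ^ 2)) * τ := by
      rw [← h1, ← h2, ← h3, ← h4]
      exact (EvA.comm (Y' + K' * (X' ^ 2 + X' * (X' + E' * K') + (X' + E' * K') ^ 2)) τ).symm
    rw [Form.d_smul, g, c1, c2, neg_mul, neg_mul, c4, smul_mul_assoc, smul_mul_assoc,
      smul_mul_assoc, smul_mul_assoc, one_mul, one_mul, smul_add, smul_neg, smul_smul,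
      smul_smul]
    norm_num
    rw [sub_eq_add_neg]

end Gauge

end Vale.Agent.P231.H584
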