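import Vale.Agent.P231.H584.Quad
import Vale.Agent.P231.H584.Bnd

/-!
# P231, stages 2 and 3: the system of data of the formal theorem

`U` is the unit tangent bundle with its geodesic flow `φU` of period `2 D`, `pi : B → U` is the
sphere bundle of the field of null planes, with the lifted geodesic flow `φ`, the rotation flow
`ψ` and the involution `σ` (half period of the geodesic flow composed with the antipodal
map of the fibre), `P` is integration along the fibres of `pi`. `F` is a closed form of degree `m`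
on `M` with `F ^ (n + 2) = 0`.
-/

set_option linter.unusedSectionVars false
set_option linter.unusedVariables false

open MeasureTheory Set Module Filter Topology
open scoped ContDiff Real

namespace Vale.Agent.P231.H584

open Fm W
open Fm.Form (IsDeg part isDeg_part part_add part_smul part_succ_d)

section Zero

variable {R : Type*} [CommRing R] [Algebra ℝ R]

theorem top_zero {e b x y : R} {n p q N : ℕ} (hx : x ^ (n + 2) = 0) (hy : y ^ (n + 2) = 0)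
    {μ : ℝ} (hb : b ^ 2 = (0 : ℝ) • e ^ p + μ • (e ^ q * (x + y))) :
    (0 : ℝ) • (e ^ N * b) = (1 : ℝ) • (b ^ 2 * WW x y n) := by
  rw [zero_smul, one_smul, hb, WW, zero_smul, zero_add, Algebra.smul_def]
  have : algebraMap ℝ R μ * (e ^ q * (x + y)) * (x ^ (n + 1) * y ^ n - x ^ n * y ^ (n + 1)) =
      algebraMap ℝ R μ * (e ^ q * (x ^ (n + 2) * y ^ n - x ^ n * y ^ (n + 2))) := by ring
  rw [this, hx, hy, zero_mul, mul_zero, sub_zero, mul_zero, mul_zero]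

end Zero

/-- the data of the formal theorem for higher multiplicity -/
structure Sys {B U M : Type*} (dB : Dif B) (dU : Dif U) (dM : Dif M) (n : ℕ) (D c : ℝ) where
  φU : U × ℝ → U
  φ : B × ℝ → B
  ψ : B × ℝ → B
  pi : B → U
  foot : U → M
  σ : B → B
  g : B × ℝ → M
  F : Form dM
  α : Form dU
  I : Form dU →ₗ[ℝ] ℝ
  P : Form dB →ₗ[ℝ] Form dU
  k : ℝ
  hD : 0 < D
  hφU : IsFlow dU (2 * D) φU
  hφ : IsFlow dB (2 * D) φ
  hψ : IsFlow dB c ψ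
  hpi : dB.Map dU pi
  hpφ : ∀ b t, pi (φ (b, t)) = φU (pi b, t)
  hfoot : dU.Map dM foot
  hfψ : ∀ b t, foot (pi (ψ (b, t))) = foot (pi b)
  hfψ' : ∀ b t, foot (φU (pi (ψ (b, t)), D)) = foot (φU (pi b, D))
  hσ : dB.Map dB σ
  hσσ : ∀ b, σ (σ b) = b
  hσφ : ∀ b t, σ (φ (b, t)) = φ (σ b, t)
  hσπ : ∀ b, pi (σ b) = φU (pi b, D)
  hg : (dB.prod (Dif.lin ℝ)).Map dM g
  hg0 : ∀ b, g (b, 0) = foot (pi b)
  hg1 : ∀ b t, g (φ (b, t), 1) = g (b, 1)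
  hFe : F.sg = F
  hF : F.d = 0
  hFn : F ^ (n + 2) = 0
  hαo : α.sg = -α
  hα : Form.pull φU hφU.map α = pr α + dt
  hId : ∀ w : Form dB, I (P w.d) = 0
  hIφ : ∀ w : Form dB, Basic φ hφ.map w → I (P w) = 0
  hIψ : ∀ w : Form dB, Basic ψ hψ.map w → I (P w) = 0
  hIσ : ∀ w : Form dB, I (P (Form.pull σ hσ w)) = -I (P w)
  hPd : ∀ w : Form dB, P w.d = (P w).d
  hPm : ∀ (w : Form dB) (v : Form dU), P (w * Form.pull pi hpi v) = P w * v
  hk : k ≠ 0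
  hk0 : P (J ψ hψ.map c (Form.pull pi hpi (KT D (Form.pull (fun p => foot (φU p))
      (Dif.Map.comp (f := φU) (g := foot) hfoot hφU.map) F)))) = k • 1

namespace Sys

variable {B U M : Type*} {dB : Dif B} {dU : Dif U} {dM : Dif M} {n : ℕ} {D c : ℝ}
  (S : Sys dB dU dM n D c)

/-- the period -/
def T (_ : Sys dB dU dM n D c) : ℝ := 2 * D

theorem T_ne : S.T ≠ 0 := mul_ne_zero two_ne_zero S.hD.ne'

/-- the primitive of `F_xbar - F_x` on `U` -/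
noncomputable def B0 : Form dU := KT D (Form.pull (fun p => S.foot (S.φU p))
  (Dif.Map.comp (f := S.φU) (g := S.foot) S.hfoot S.hφU.map) S.F)

/-- the form `F` at the foot point -/
noncomputable def Fx : Form dU := Form.pull S.foot S.hfoot S.F

/-- the form `F` at the antipodal point -/
noncomputable def Fb : Form dU := Form.pull (fun v => S.foot (S.φU (v, D)))
  (Dif.Map.comp (f := fun v => S.φU (v, D)) (g := S.foot) S.hfoot (map_at S.hφU.map D)) S.F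

/-- the closed form `b₀` on `B` -/
noncomputable def b0 : Form dB := J S.ψ S.hψ.map c (Form.pull S.pi S.hpi S.B0)

/-- the primitive of `G₁ - G₂` on `B` -/
noncomputable def β : Form dB := Form.K (Form.pull S.g S.hg S.F) -
  Form.pull S.σ S.hσ (Form.K (Form.pull S.g S.hg S.F)) - Form.pull S.pi S.hpi S.B0

/-- the closed basic form `b₁` on `B` -/
noncomputable def b1 : Form dB := J S.φ S.hφ.map S.T (Form.K (Form.pull S.g S.hg S.F) -
  Form.pull S.σ S.hσ (Form.K (Form.pull S.g S.hg S.F)))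

/-- the end of the contraction -/
noncomputable def G1 : Form dB := Form.pull (fun b => S.g (b, 1)) (map_at S.hg 1) S.F

/-- the end of the contraction, other side -/
noncomputable def G2 : Form dB := Form.pull S.σ S.hσ S.G1

/-- the connection form on `B` -/
noncomputable def αB : Form dB := Form.pull S.pi S.hpi S.α

/-- the Euler form on `B` -/
noncomputable def e : Form dB := S.T⁻¹ • Form.pull S.pi S.hpi S.α.d

theorem e_eq : S.e = S.T⁻¹ • S.αB.d := by rw [e, αB, Form.pull_d]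

theorem αB_d : S.αB.d = Form.pull S.pi S.hpi S.α.d := (Form.pull_d _ _ _).symm

theorem Fx_good : S.Fx.d = 0 ∧ S.Fx.sg = S.Fx ∧ S.Fx ^ (n + 2) = 0 :=
  pull_good S.hF S.hFe S.hFn S.hfoot

theorem bar_map : dU.Map dM (fun v => S.foot (S.φU (v, D))) :=
  Dif.Map.comp (f := fun v => S.φU (v, D)) (g := S.foot) S.hfoot (map_at S.hφU.map D)

theorem Fb_good : S.Fb.d = 0 ∧ S.Fb.sg = S.Fb ∧ S.Fb ^ (n + 2) = 0 :=
  pull_good S.hF S.hFe S.hFn S.bar_map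

theorem gam_map : (dU.prod (Dif.lin ℝ)).Map dM (fun p => S.foot (S.φU p)) :=
  Dif.Map.comp (f := S.φU) (g := S.foot) S.hfoot S.hφU.map

theorem pthB0 : Pth (n + 1) S.Fx S.Fb S.B0 := by
  obtain ⟨hm1, hm2, hm3⟩ := pull_good S.hF S.hFe S.hFn S.gam_map
  have h := Pth.of_cyl D hm1 hm2 hm3
  have h0 : at_ 0 (Form.pull (fun p => S.foot (S.φU p)) S.gam_map S.F) = S.Fx :=
    pull_pull (Form.map_slice 0) S.gam_map S.hfoot (fun v => by rw [S.hφU.zero]) S.F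
  have hDD : at_ D (Form.pull (fun p => S.foot (S.φU p)) S.gam_map S.F) = S.Fb :=
    at_pull_of S.gam_map D S.F
  rwa [h0, hDD] at h

theorem G1_good : S.G1.d = 0 ∧ S.G1.sg = S.G1 ∧ S.G1 ^ (n + 2) = 0 :=
  pull_good S.hF S.hFe S.hFn (map_at S.hg 1)

theorem G2_good : S.G2.d = 0 ∧ S.G2.sg = S.G2 ∧ S.G2 ^ (n + 2) = 0 :=
  pull_good S.G1_good.1 S.G1_good.2.1 S.G1_good.2.2 S.hσ

theorem G1_basic : Basic S.φ S.hφ.map S.G1 := basic_pull (map_at S.hg 1) S.hg1 S.F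

theorem G2_basic : Basic S.φ S.hφ.map S.G2 := by
  have h1 : dB.Map dM (fun b => S.g (S.σ b, 1)) := fun h => map_at S.hg 1 (S.hσ h)
  have h2 : S.G2 = Form.pull (fun b => S.g (S.σ b, 1)) h1 S.F :=
    pull_pull S.hσ (map_at S.hg 1) h1 (fun b => rfl) S.F
  rw [h2]
  exact basic_pull h1 (fun b t => by rw [S.hσφ, S.hg1]) S.F

theorem σσ (w : Form dB) : Form.pull S.σ S.hσ (Form.pull S.σ S.hσ w) = w :=
  (pull_pull (k := fun b : B => b) S.hσ S.hσ (fun h => h) S.hσσ w).trans (Form.pull_id _ w)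

theorem σG1 : Form.pull S.σ S.hσ S.G1 = S.G2 := rfl

theorem σG2 : Form.pull S.σ S.hσ S.G2 = S.G1 := S.σσ S.G1

theorem footpi_map : dB.Map dM (fun b => S.foot (S.pi b)) :=
  Dif.Map.comp (f := S.pi) (g := S.foot) S.hfoot S.hpi

theorem Bx_eq : Form.pull S.pi S.hpi S.Fx = Form.pull (fun b => S.foot (S.pi b)) S.footpi_map
    S.F := pull_pull S.hpi S.hfoot S.footpi_map (fun b => rfl) S.F

theorem Bb_eq (h : dB.Map dM (fun b => S.foot (S.φU (S.pi b, D)))) :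
    Form.pull S.pi S.hpi S.Fb = Form.pull (fun b => S.foot (S.φU (S.pi b, D))) h S.F :=
  pull_pull S.hpi S.bar_map h (fun b => rfl) S.F

theorem barpi_map : dB.Map dM (fun b => S.foot (S.φU (S.pi b, D))) := fun h =>
  S.hfoot (map_at S.hφU.map D (S.hpi h))

theorem σBx : Form.pull S.σ S.hσ (Form.pull S.pi S.hpi S.Fx) = Form.pull S.pi S.hpi S.Fb := by
  rw [S.Bx_eq, S.Bb_eq S.barpi_map]
  exact pull_pull S.hσ S.footpi_map S.barpi_map (fun b => by rw [S.hσπ]) S.F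

theorem Bx_ψ : Basic S.ψ S.hψ.map (Form.pull S.pi S.hpi S.Fx) := by
  rw [S.Bx_eq]; exact basic_pull S.footpi_map S.hfψ S.F

theorem Bb_ψ : Basic S.ψ S.hψ.map (Form.pull S.pi S.hpi S.Fb) := by
  rw [S.Bb_eq S.barpi_map]; exact basic_pull S.barpi_map S.hfψ' S.F

theorem J_B1 : J S.φ S.hφ.map S.T (Form.pull S.pi S.hpi S.B0) = 0 := by
  rw [T, ← pull_J S.hφ.map S.hφU.map S.hpi S.hpφ, B0]
  have h1 : Form.pull (fun p => S.foot (S.φU p)) S.gam_map S.F =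
      Form.pull S.φU S.hφU.map S.Fx :=
    (pull_pull S.hφU.map S.hfoot S.gam_map (fun p => rfl) S.F).symm
  rw [h1, J_KT S.hφU]
  exact map_zero (Form.pullA S.pi S.hpi)

theorem J_β : J S.φ S.hφ.map S.T S.β = S.b1 := by
  rw [β, J_sub, J_B1, sub_zero, b1]

/-- the path on the cylinder -/
noncomputable def βc : Form (dB.prod (Dif.lin ℝ)) :=
  -Form.pull (fun p : B × ℝ => (S.σ p.1, p.2)) (map_cyl S.hσ) (Pm (Form.pull S.g S.hg S.F)) +
    -pr (Form.pull S.pi S.hpi S.B0) + Pm (Form.pull S.g S.hg S.F)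

theorem pthc : Pth (n + 1) (Form.pull (fun p : B × ℝ => (S.σ p.1, p.2)) (map_cyl S.hσ)
    (Form.pull S.g S.hg S.F)) (Form.pull S.g S.hg S.F) S.βc := by
  have hPp : Pth (n + 1) (pr (Form.pull S.pi S.hpi S.Fx)) (Form.pull S.g S.hg S.F)
      (Pm (Form.pull S.g S.hg S.F)) := by
    rw [S.Bx_eq]
    exact Pth.of_homotopy S.hF S.hFe S.hFn S.hg S.footpi_map S.hg0
  have hPp2 := hPp.pull (map_cyl S.hσ)
  rw [pull_pr S.hσ, S.σBx] at hPp2
  have hPB2 : Pth (n + 1) (pr (Form.pull S.pi S.hpi S.Fx)) (pr (Form.pull S.pi S.hpi S.Fb))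
    (pr (Form.pull S.pi S.hpi S.B0)) := (S.pthB0.pull S.hpi).pull Dif.map_fst
  exact (hPp2.symm.trans hPB2.symm).trans hPp

theorem at_neg' (s : ℝ) (w : Form (dB.prod (Dif.lin ℝ))) : at_ s (-w) = -at_ s w :=
  map_neg (Form.pullA (fun x : B => (x, s)) (Form.map_slice s)) w

theorem at_βc0 : at_ 0 S.βc = -Form.pull S.pi S.hpi S.B0 := by
  rw [βc, at_add, at_add, at_neg', at_neg', at_pr, at_pull_cyl 0 S.hσ, Pm_zero]
  have : Form.pull S.σ S.hσ (0 : Form dB) = 0 := map_zero (Form.pullA _ S.hσ)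
  rw [this, neg_zero, zero_add, add_zero]

theorem at_βc1 : at_ 1 S.βc = S.β := by
  rw [βc, at_add, at_add, at_neg', at_neg', at_pr, at_pull_cyl 1 S.hσ, Pm_at, KT_one, β]
  abel

theorem at_F10 : at_ 0 (Form.pull S.g S.hg S.F) = Form.pull S.pi S.hpi S.Fx := by
  rw [S.Bx_eq]
  exact pull_pull (Form.map_slice 0) S.hg S.footpi_map S.hg0 S.F

theorem at_F11 : at_ 1 (Form.pull S.g S.hg S.F) = S.G1 := at_pull_of S.hg 1 S.F

theorem at_F20 : at_ 0 (Form.pull (fun p : B × ℝ => (S.σ p.1, p.2)) (map_cyl S.hσ)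
    (Form.pull S.g S.hg S.F)) = Form.pull S.pi S.hpi S.Fb := by
  rw [at_pull_cyl 0 S.hσ, S.at_F10, S.σBx]

theorem at_F21 : at_ 1 (Form.pull (fun p : B × ℝ => (S.σ p.1, p.2)) (map_cyl S.hσ)
    (Form.pull S.g S.hg S.F)) = S.G2 := by
  rw [at_pull_cyl 1 S.hσ, S.at_F11, G2]

theorem β_sg : S.β.sg = -S.β := by rw [← S.at_βc1, ← at_sg, S.pthc.o, at_neg']

theorem β_d : S.β.d = S.G1 - S.G2 := by
  rw [← S.at_βc1, ← at_d, S.pthc.db, at_sub, S.at_F11, S.at_F21]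

theorem J_even {Ψ : B × ℝ → B} (hΨ : (dB.prod (Dif.lin ℝ)).Map dB Ψ) (r : ℝ) {w : Form dB}
    (hw : w.sg = -w) : (J Ψ hΨ r w).sg = J Ψ hΨ r w := by
  rw [J_def, KT_sg, ← Form.pull_sg, hw]
  have : Form.pull Ψ hΨ (-w) = -Form.pull Ψ hΨ w := map_neg (Form.pullA Ψ hΨ) w
  rw [this, KT_neg, neg_neg]

theorem b1_sg : S.b1.sg = S.b1 := by
  rw [← S.J_β]
  exact J_even S.hφ.map S.T S.β_sg

theorem b1_basic : Basic S.φ S.hφ.map S.b1 := J_basic S.hφ _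

theorem b1_d : S.b1.d = 0 := by
  have h3 := J_d S.hφ S.β
  rw [S.β_d, J_of_basic _ (Basic.sub S.G1_basic S.G2_basic)] at h3
  have h4 := neg_eq_zero.1 h3.symm
  have h5 : J S.φ S.hφ.map (2 * D) S.β = S.b1 := S.J_β
  rwa [h5] at h4

theorem b0_sg : S.b0.sg = S.b0 := J_even S.hψ.map c (S.pthB0.pull S.hpi).o

theorem b0_d : S.b0.d = 0 := by
  have h3 := J_d S.hψ (Form.pull S.pi S.hpi S.B0)
  rw [(S.pthB0.pull S.hpi).db, J_of_basic c (Basic.sub S.Bb_ψ S.Bx_ψ)] at h3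
  exact neg_eq_zero.1 h3.symm

theorem αB_sg : S.αB.sg = -S.αB := by
  rw [αB, ← Form.pull_sg, S.hαo]
  exact map_neg (Form.pullA S.pi S.hpi) S.α

theorem αB_flow : Form.pull S.φ S.hφ.map S.αB = pr S.αB + dt := by
  have h0 : (dB.prod (Dif.lin ℝ)).Map dU (fun p => S.φU (S.pi p.1, p.2)) :=
    fun h => S.hφU.map (map_cyl S.hpi h)
  have h1 : Form.pull S.φ S.hφ.map S.αB = Form.pull (fun p : B × ℝ => (S.pi p.1, p.2))
      (map_cyl S.hpi) (Form.pull S.φU S.hφU.map S.α) :=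
    (pull_pull (k := fun p : B × ℝ => S.φU (S.pi p.1, p.2)) S.hφ.map S.hpi h0
      (fun p => S.hpφ _ _) S.α).trans
        (pull_pull (map_cyl S.hpi) S.hφU.map h0 (fun p => rfl) S.α).symm
  rw [h1, S.hα]
  refine (map_add (Form.pullA _ (map_cyl S.hpi)) (pr S.α) dt).trans ?_
  congr 1
  · exact pull_pr S.hpi S.α
  · exact pull_dt S.hpi

theorem σαB : Form.pull S.σ S.hσ S.αB = S.αB := by
  have h0 : dU.Map dU (fun v => S.φU (v, D)) := map_at S.hφU.map D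
  have h1 : Form.pull (fun v => S.φU (v, D)) h0 S.α = S.α := by
    have h2 := congrArg (at_ D) S.hα
    rw [at_add, at_pr, at_dt, add_zero] at h2
    rw [← at_pull_of S.hφU.map D S.α, h2]
  have h3 : dB.Map dU (fun b => S.φU (S.pi b, D)) := fun h => h0 (S.hpi h)
  have h4 : Form.pull S.σ S.hσ S.αB =
      Form.pull S.pi S.hpi (Form.pull (fun v => S.φU (v, D)) h0 S.α) :=
    (pull_pull S.hσ S.hpi h3 S.hσπ S.α).trans
      (pull_pull S.hpi h0 h3 (fun b => rfl) S.α).symm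
  rw [h4, h1]
  rfl

theorem σb1 : Form.pull S.σ S.hσ S.b1 = -S.b1 := by
  have h2 : Form.pull S.σ S.hσ (Form.K (Form.pull S.g S.hg S.F) -
      Form.pull S.σ S.hσ (Form.K (Form.pull S.g S.hg S.F))) =
      -(Form.K (Form.pull S.g S.hg S.F) -
        Form.pull S.σ S.hσ (Form.K (Form.pull S.g S.hg S.F))) := by
    refine (map_sub (Form.pullA S.σ S.hσ) _ _).trans ?_
    change Form.pull S.σ S.hσ (Form.K (Form.pull S.g S.hg S.F)) -
      Form.pull S.σ S.hσ (Form.pull S.σ S.hσ (Form.K (Form.pull S.g S.hg S.F))) = _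
    rw [S.σσ]
    abel
  rw [b1, pull_J S.hφ.map S.hφ.map S.hσ S.hσφ, h2, J_neg]

theorem exists_η0 : ∃ η0 : Form dU, S.Fx ^ (n + 1) = η0.d := by
  obtain ⟨hd1, hd2, hd3⟩ := S.Fb_good
  obtain ⟨hx1, hx2, hx3⟩ := S.Fx_good
  obtain ⟨ζ, hζ⟩ : ∃ ζ : Form dU, hh (n + 1) S.Fb S.Fx = ζ.d := by
    obtain ⟨m, hm⟩ := S.pthB0.symm.ex
    have h1 := congrArg (Form.pull S.pi S.hpi) hm
    have h2 : Form.pull S.pi S.hpi (-S.B0 * hh (n + 1) S.Fb S.Fx) =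
        -(Form.pull S.pi S.hpi S.B0 * Form.pull S.pi S.hpi (hh (n + 1) S.Fb S.Fx)) := by
      refine (map_mul (Form.pullA S.pi S.hpi) (-S.B0) _).trans ?_
      rw [map_neg, neg_mul]
      rfl
    rw [h2, Form.pull_d, pull_hh] at h1
    have h4 := congrArg (J S.ψ S.hψ.map c) h1
    rw [J_neg, J_mul_basic _ _ (Basic.hh S.Bb_ψ S.Bx_ψ _), J_d S.hψ, neg_inj] at h4
    have h5 := congrArg S.P h4
    have h6 : S.P (J S.ψ S.hψ.map c (Form.pull S.pi S.hpi S.B0)) = S.k • 1 := S.hk0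
    rw [← pull_hh, S.hPm, h6, S.hPd, smul_mul_assoc, one_mul] at h5
    refine ⟨S.k⁻¹ • S.P (J S.ψ S.hψ.map c (Form.pull S.pi S.hpi m)), ?_⟩
    rw [Form.d_smul, ← h5, smul_smul, inv_mul_cancel₀ S.hk, one_smul]
  exact pow_exact hd1 hx1 hd2 S.pthB0.db hζ

theorem exists_η : ∃ η : Form (dB.prod (Dif.lin ℝ)),
    Form.pull S.g S.hg S.F ^ (n + 1) = η.d := by
  obtain ⟨η0, hη0⟩ := S.exists_η0
  obtain ⟨hp1, hp2, hp3⟩ := pull_good S.hF S.hFe S.hFn S.hg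
  have hPp : Pth (n + 1) (pr (Form.pull S.pi S.hpi S.Fx)) (Form.pull S.g S.hg S.F)
      (Pm (Form.pull S.g S.hg S.F)) := by
    rw [S.Bx_eq]
    exact Pth.of_homotopy S.hF S.hFe S.hFn S.hg S.footpi_map S.hg0
  obtain ⟨m, hm⟩ := pow_sub_exact hp1 hPp.d₀ hp2 hPp.db (n + 1)
  refine ⟨m + pr (Form.pull S.pi S.hpi η0), ?_⟩
  have h1 : Form.pull S.pi S.hpi S.Fx ^ (n + 1) = (Form.pull S.pi S.hpi η0).d := by
    rw [← Form.pull_d, ← hη0]
    exact (map_pow (Form.pullA S.pi S.hpi) S.Fx (n + 1)).symm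
  rw [Form.d_add, ← hm, ← pr_d, ← h1, pr_pow]
  abel

/-- **the transport formula** -/
theorem transport {ε : ℝ} {l : Form dB} (hl : S.b1 = ε • S.b0 + l.d) :
    S.I (S.P (S.αB * (S.b1 ^ 2 * (S.G1 ^ (n + 1) * S.G2 ^ n - S.G1 ^ n * S.G2 ^ (n + 1))))) =
      -2 * S.T * (ε * S.k * S.I (S.B0 * (S.Fx ^ (n + 1) * S.Fb ^ n))) := by
  obtain ⟨bh, hbe, hbd, hbh0, hbh1⟩ := exists_interp (b0 := ε • S.b0) (b1 := S.b1) (l := l)
    (by rw [Form.d_smul, S.b0_d, smul_zero]) (by rw [Form.sg_smul, S.b0_sg]) S.b1_sg hl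
  obtain ⟨hp1, hp2, hp3⟩ := pull_good S.hF S.hFe S.hFn S.hg
  obtain ⟨η, hη⟩ := S.exists_η
  have hF2n : Form.pull (fun p : B × ℝ => (S.σ p.1, p.2)) (map_cyl S.hσ)
      (Form.pull S.g S.hg S.F) ^ (n + 2) = 0 := by
    refine (map_pow (Form.pullA _ (map_cyl S.hσ)) (Form.pull S.g S.hg S.F) (n + 2)).symm.trans
      ?_
    rw [hp3]
    exact map_zero (Form.pullA _ (map_cyl S.hσ))
  have hbr := bridge S.hφ S.hψ (I := S.I.comp S.P) (n := n) (ε := -ε) S.hId S.hIφ S.hIψ S.pthc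
    hp3 hF2n hη (by rw [S.at_F11]; exact S.G1_basic) (by rw [S.at_F21]; exact S.G2_basic)
    (by rw [S.at_F10]; exact S.Bx_ψ) (by rw [S.at_F20]; exact S.Bb_ψ) hbe hbd
    (by rw [hbh1, S.at_βc1]; exact S.J_β.symm)
    (by rw [hbh0, S.at_βc0, J_neg, smul_neg, neg_smul, neg_neg]; rfl)
  rw [S.at_F11, S.at_F21, S.at_F10, S.at_F20, hbh1, hbh0, S.at_βc0, S.at_βc1] at hbr
  have hcb0 : ∀ w, Commute S.b0 w := fun w => even_comm S.b0_sg w
  have hend0 : (S.I.comp S.P) (-Form.pull S.pi S.hpi S.B0 * ε • S.b0 *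
      (Form.pull S.pi S.hpi S.Fx ^ (n + 1) * Form.pull S.pi S.hpi S.Fb ^ n)) =
      -(ε * S.k * S.I (S.B0 * (S.Fx ^ (n + 1) * S.Fb ^ n))) := by
    have h1 : -Form.pull S.pi S.hpi S.B0 * ε • S.b0 *
        (Form.pull S.pi S.hpi S.Fx ^ (n + 1) * Form.pull S.pi S.hpi S.Fb ^ n) =
        (-ε) • (S.b0 * Form.pull S.pi S.hpi (S.B0 * (S.Fx ^ (n + 1) * S.Fb ^ n))) := by
      have h2 : Form.pull S.pi S.hpi (S.B0 * (S.Fx ^ (n + 1) * S.Fb ^ n)) =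
          Form.pull S.pi S.hpi S.B0 * (Form.pull S.pi S.hpi S.Fx ^ (n + 1) *
            Form.pull S.pi S.hpi S.Fb ^ n) := by
        refine (map_mul (Form.pullA S.pi S.hpi) S.B0 _).trans ?_
        rw [map_mul, map_pow, map_pow]
        rfl
      rw [h2, mul_smul_comm, smul_mul_assoc, neg_mul, neg_mul, smul_neg, neg_smul,
        ← (hcb0 (Form.pull S.pi S.hpi S.B0)).eq, mul_assoc]
    have h6 : S.P (J S.ψ S.hψ.map c (Form.pull S.pi S.hpi S.B0)) = S.k • 1 := S.hk0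
    rw [h1, map_smul, LinearMap.comp_apply, S.hPm, b0, h6, smul_mul_assoc, one_mul, map_smul,
      smul_eq_mul, smul_eq_mul]
    ring
  rw [hend0] at hbr
  have hGb : Basic S.φ S.hφ.map (S.G1 ^ (n + 1) * S.G2 ^ n) :=
    Basic.mul (Basic.pow S.G1_basic _) (Basic.pow S.G2_basic _)
  have havg : S.T * (S.I.comp S.P) (S.β * S.b1 * (S.G1 ^ (n + 1) * S.G2 ^ n)) =
      (S.I.comp S.P) (S.αB * (S.b1 ^ 2 * (S.G1 ^ (n + 1) * S.G2 ^ n))) := by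
    have h1 : Basic S.φ S.hφ.map (S.β * S.b1 * (S.G1 ^ (n + 1) * S.G2 ^ n)).d := by
      rw [d_mul_closed _ (mul_closed (pow_closed S.G1_good.1 _) (pow_closed S.G2_good.1 _)),
        d_mul_closed _ S.b1_d, S.β_d]
      exact Basic.mul (Basic.mul (Basic.sub S.G1_basic S.G2_basic) S.b1_basic) hGb
    have h2 := avg S.hφ S.αB_flow S.αB_sg (I := S.I.comp S.P) S.hId S.hIφ h1
    have h3 : J S.φ S.hφ.map (2 * D) S.β = S.b1 := S.J_β
    rw [T, h2, J_mul_basic _ _ hGb, J_mul_basic _ _ S.b1_basic, h3, sq]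
  have h1 : Form.pull S.σ S.hσ (S.αB * (S.b1 ^ 2 * (S.G1 ^ (n + 1) * S.G2 ^ n))) =
      S.αB * (S.b1 ^ 2 * (S.G1 ^ n * S.G2 ^ (n + 1))) := by
    refine (map_mul (Form.pullA S.σ S.hσ) _ _).trans ?_
    rw [map_mul, map_mul, map_pow, map_pow, map_pow]
    change Form.pull S.σ S.hσ S.αB * (Form.pull S.σ S.hσ S.b1 ^ 2 * (S.G2 ^ (n + 1) *
      Form.pull S.σ S.hσ S.G2 ^ n)) = _
    have c1 : Commute (S.G2 ^ (n + 1)) (S.G1 ^ n) := even_comm (pow_even S.G2_good.2.1 _) _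
    rw [S.σαB, S.σb1, S.σG2, neg_sq, c1.eq]
  have h2 := S.hIσ (S.αB * (S.b1 ^ 2 * (S.G1 ^ (n + 1) * S.G2 ^ n)))
  rw [h1] at h2
  rw [hbr, LinearMap.comp_apply] at havg
  rw [mul_sub, mul_sub, map_sub, map_sub, h2, ← havg]
  ring

/-- the other side -/
theorem left_side {N : ℕ} (hαN : S.α.d ^ (N + 1) = 0) {ε : ℝ} {l : Form dB}
    (hl : S.b1 = ε • S.b0 + l.d) :
    S.I (S.P (S.αB * (S.αB.d ^ N * S.b1))) = ε * S.k * S.I (S.α * S.α.d ^ N) := by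
  have hcb0 : ∀ w, Commute S.b0 w := fun w => even_comm S.b0_sg w
  have h1 : S.I (S.P (S.αB * (S.αB.d ^ N * l.d))) = 0 := by
    have h2 := S.hId (S.αB.sg * S.αB.d ^ N * l)
    have h3 : (S.αB.sg * S.αB.d ^ N * l).d = (S.αB.sg * S.αB.d ^ N).sg * l.d := by
      rw [Form.d_mul, Form.d_mul, Form.d_sg, d_even S.αB_sg, pow_closed (Form.d_d _), mul_zero,
        add_zero, neg_mul, ← pow_succ', S.αB_d]
      have h4 : Form.pull S.pi S.hpi S.α.d ^ (N + 1) = 0 := by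
        refine (map_pow (Form.pullA S.pi S.hpi) S.α.d (N + 1)).symm.trans ?_
        rw [hαN]
        exact map_zero (Form.pullA S.pi S.hpi)
      rw [h4, neg_zero, zero_mul, zero_add]
    rw [h3, Form.sg_mul, Form.sg_sg, pow_even (d_even S.αB_sg), mul_assoc] at h2
    exact h2
  have h5 : S.αB * (S.αB.d ^ N * S.b0) = S.b0 * Form.pull S.pi S.hpi (S.α * S.α.d ^ N) := by
    have h6 : Form.pull S.pi S.hpi (S.α * S.α.d ^ N) = S.αB * S.αB.d ^ N := by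
      refine (map_mul (Form.pullA S.pi S.hpi) S.α _).trans ?_
      rw [map_pow, S.αB_d]
      rfl
    rw [h6, (hcb0 _).eq, mul_assoc]
  have h7 : S.P (J S.ψ S.hψ.map c (Form.pull S.pi S.hpi S.B0)) = S.k • 1 := S.hk0
  rw [hl, mul_add, mul_add, map_add, map_add, h1, add_zero, mul_smul_comm, mul_smul_comm,
    map_smul, map_smul, h5, S.hPm, b0, h7, smul_mul_assoc, one_mul, map_smul, smul_eq_mul,
    smul_eq_mul]
  ring

/-- the reduction, with two constants -/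
theorem reduce {p q N : ℕ} {a μ A C : ℝ} {ρ : Form dB} (hρ : Basic S.φ S.hφ.map ρ)
    (hrel : S.b1 ^ 2 = a • S.e ^ p + μ • (S.e ^ q * (S.G1 + S.G2)) + ρ.d)
    (hcoef : ∀ e b x y : Bas S.φ S.hφ.map ⧸ Exa S.φ S.hφ.map, x ^ (n + 2) = 0 →
      y ^ (n + 2) = 0 → x - y = e * b → b ^ 2 = a • e ^ p + μ • (e ^ q * (x + y)) →
      A • (e ^ N * b) = C • (b ^ 2 * WW x y n)) :
    A * S.I (S.P (S.αB * (S.αB.d ^ N * S.b1))) = S.T ^ N * C *
      S.I (S.P (S.αB * (S.b1 ^ 2 *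
        (S.G1 ^ (n + 1) * S.G2 ^ n - S.G1 ^ n * S.G2 ^ (n + 1))))) := by
  have hee : S.e.sg = S.e := by rw [e_eq, Form.sg_smul, d_even S.αB_sg]
  have hed : S.e.d = 0 := by rw [e_eq, Form.d_smul, Form.d_d, smul_zero]
  have heb : Basic S.φ S.hφ.map S.e := by
    rw [e_eq]
    exact Basic.smul _ (basic_d_contact S.hφ S.αB_flow)
  let x' : Bas S.φ S.hφ.map := ⟨S.G1, S.G1_good.2.1, S.G1_good.1, S.G1_basic⟩
  let y' : Bas S.φ S.hφ.map := ⟨S.G2, S.G2_good.2.1, S.G2_good.1, S.G2_basic⟩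
  let b' : Bas S.φ S.hφ.map := ⟨S.b1, S.b1_sg, S.b1_d, S.b1_basic⟩
  let e' : Bas S.φ S.hφ.map := ⟨S.e, hee, hed, heb⟩
  set Q := Ideal.Quotient.mk (Exa S.φ S.hφ.map) with hQ
  have h1 : Q x' ^ (n + 2) = 0 := by
    rw [← map_pow]
    have : x' ^ (n + 2) = 0 := Subtype.ext S.G1_good.2.2
    rw [this, map_zero]
  have h2 : Q y' ^ (n + 2) = 0 := by
    rw [← map_pow]
    have : y' ^ (n + 2) = 0 := Subtype.ext S.G2_good.2.2
    rw [this, map_zero]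
  have hβb : Basic S.φ S.hφ.map S.β.d := by
    rw [S.β_d]
    exact Basic.sub S.G1_basic S.G2_basic
  have h3 : Q x' - Q y' = Q e' * Q b' := by
    rw [← map_sub, ← map_mul]
    have h4 := gysin_d S.hφ S.αB_flow S.αB_sg hβb
    refine eq_quot S.φ S.hφ.map (u := S.T⁻¹ • J S.φ S.hφ.map S.T (S.αB * S.β))
      (Basic.smul _ (J_basic S.hφ _)) ?_
    have h5 : ((x' - y' : Bas S.φ S.hφ.map) : Form dB) = S.G1 - S.G2 := rfl
    have h6 : ((e' * b' : Bas S.φ S.hφ.map) : Form dB) = S.e * S.b1 := rfl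
    have h7 : S.T • S.β.d = S.αB.d * S.b1 + (J S.φ S.hφ.map S.T (S.αB * S.β)).d := by
      rw [← S.J_β]
      exact h4
    rw [h5, h6, ← S.β_d, e_eq, smul_mul_assoc, Form.d_smul, ← smul_add, ← h7, smul_smul,
      inv_mul_cancel₀ S.T_ne, one_smul]
  have hsm : ∀ (r : ℝ) (w : Bas S.φ S.hφ.map), Q (r • w) = r • Q w := fun r w => rfl
  have h4 : Q b' ^ 2 = a • Q e' ^ p + μ • (Q e' ^ q * (Q x' + Q y')) := by
    have h5 : Q (b' ^ 2) = Q (a • e' ^ p + μ • (e' ^ q * (x' + y'))) :=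
      eq_quot S.φ S.hφ.map hρ hrel
    rw [map_pow, map_add, hsm, hsm, map_mul, map_pow, map_pow, map_add] at h5
    exact h5
  have h5 := hcoef _ _ _ _ h1 h2 h3 h4
  have h6 : Q (A • (e' ^ N * b')) = Q (C • (b' ^ 2 * WW x' y' n)) := by
    rw [hsm, hsm, map_mul, map_pow, h5, map_mul, map_pow, WW, WW, map_sub, map_mul, map_mul,
      map_pow, map_pow, map_pow, map_pow]
  obtain ⟨u, hu, hu'⟩ := quot_eq S.φ S.hφ.map h6
  have h7 : ((A • (e' ^ N * b') : Bas S.φ S.hφ.map) : Form dB) = A • (S.e ^ N * S.b1) := rfl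
  have h8 : ((C • (b' ^ 2 * WW x' y' n) : Bas S.φ S.hφ.map) : Form dB) =
    C • (S.b1 ^ 2 * (S.G1 ^ (n + 1) * S.G2 ^ n - S.G1 ^ n * S.G2 ^ (n + 1))) := rfl
  rw [h7, h8] at hu'
  have h9 : S.I (S.P (S.αB * u.d)) = 0 := by
    have h10 := integral_by_parts (I := S.I.comp S.P) S.hId S.αB u (d_even S.αB_sg)
    rw [LinearMap.comp_apply, LinearMap.comp_apply] at h10
    rw [h10]
    exact S.hIφ _ (Basic.mul (basic_d_contact S.hφ S.αB_flow) hu)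
  have h10 := congrArg (fun w => S.I (S.P (S.αB * w))) hu'
  simp only [mul_add, map_add, h9, add_zero, mul_smul_comm, map_smul, smul_eq_mul] at h10
  have h11 : S.αB.d = S.T • S.e := by
    rw [e_eq, smul_smul, mul_inv_cancel₀ S.T_ne, one_smul]
  have h12 : S.αB.d ^ N = S.T ^ N • S.e ^ N := by rw [h11, _root_.smul_pow]
  rw [h12, smul_mul_assoc, mul_smul_comm, map_smul, map_smul, smul_eq_mul, mul_left_comm, h10]
  ring

/-- **the formal theorem** -/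
theorem main {p q N : ℕ} {a μ A C : ℝ} {ρ : Form dB} (hρ : Basic S.φ S.hφ.map ρ)
    (hrel : S.b1 ^ 2 = a • S.e ^ p + μ • (S.e ^ q * (S.G1 + S.G2)) + ρ.d)
    (hcoef : ∀ e b x y : Bas S.φ S.hφ.map ⧸ Exa S.φ S.hφ.map, x ^ (n + 2) = 0 →
      y ^ (n + 2) = 0 → x - y = e * b → b ^ 2 = a • e ^ p + μ • (e ^ q * (x + y)) →
      A • (e ^ N * b) = C • (b ^ 2 * WW x y n))
    (hαN : S.α.d ^ (N + 1) = 0) {ε : ℝ} (hε : ε ≠ 0) {l : Form dB}
    (hl : S.b1 = ε • S.b0 + l.d) :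
    A * S.I (S.α * S.α.d ^ N) =
      -2 * S.T ^ (N + 1) * C * S.I (S.B0 * (S.Fx ^ (n + 1) * S.Fb ^ n)) := by
  have h := S.reduce hρ hrel hcoef
  rw [S.transport hl, S.left_side hαN hl] at h
  have hεk : ε * S.k ≠ 0 := mul_ne_zero hε S.hk
  apply mul_left_cancel₀ hεk
  linear_combination h

/-- the coefficient `a` is not zero, `m = 4` -/
theorem a_ne_zero4 {a μ : ℝ} {ρ : Form dB} (hρ : Basic S.φ S.hφ.map ρ)
    (hrel : S.b1 ^ 2 = a • S.e ^ 2 + μ • (S.G1 + S.G2) + ρ.d) {ε : ℝ} (hε : ε ≠ 0)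
    {l : Form dB} (hl : S.b1 = ε • S.b0 + l.d)
    (hq : S.I (S.B0 * (S.Fx ^ (n + 1) * S.Fb ^ n)) ≠ 0) : a ≠ 0 := by
  rintro rfl
  have h := S.reduce (p := 2) (q := 0) (N := 0) (A := 0) (C := 1) hρ
    (by rw [pow_zero, one_mul]; exact hrel) (fun e b x y hx hy hxy hb => top_zero hx hy hb)
  rw [S.transport hl, zero_mul, pow_zero, one_mul, one_mul] at h
  have h1 : S.T * (ε * S.k * S.I (S.B0 * (S.Fx ^ (n + 1) * S.Fb ^ n))) ≠ 0 :=
    mul_ne_zero S.T_ne (mul_ne_zero (mul_ne_zero hε S.hk) hq)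
  apply h1
  linarith

/-- the coefficient `a` is not zero, `m = 8` -/
theorem a_ne_zero8 {a μ : ℝ} {ρ : Form dB} (hρ : Basic S.φ S.hφ.map ρ)
    (hrel : S.b1 ^ 2 = a • S.e ^ 6 + μ • (S.e ^ 2 * (S.G1 + S.G2)) + ρ.d) {ε : ℝ} (hε : ε ≠ 0)
    {l : Form dB} (hl : S.b1 = ε • S.b0 + l.d)
    (hq : S.I (S.B0 * (S.Fx ^ (n + 1) * S.Fb ^ n)) ≠ 0) : a ≠ 0 := by
  rintro rfl
  have h := S.reduce (p := 6) (q := 2) (N := 0) (A := 0) (C := 1) hρ hrel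
    (fun e b x y hx hy hxy hb => top_zero hx hy hb)
  rw [S.transport hl, zero_mul, pow_zero, one_mul, one_mul] at h
  have h1 : S.T * (ε * S.k * S.I (S.B0 * (S.Fx ^ (n + 1) * S.Fb ^ n))) ≠ 0 :=
    mul_ne_zero S.T_ne (mul_ne_zero (mul_ne_zero hε S.hk) hq)
  apply h1
  linarith

/-- **the volume formula, `m = 4`** -/
theorem volume4 {a μ : ℝ} (ha : a ≠ 0) {ρ : Form dB} (hρ : Basic S.φ S.hφ.map ρ)
    (hrel : S.b1 ^ 2 = a • S.e ^ 2 + μ • (S.G1 + S.G2) + ρ.d)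
    (hαN : S.α.d ^ (4 * n + 4) = 0) {ε : ℝ} (hε : ε ≠ 0) {l : Form dB}
    (hl : S.b1 = ε • S.b0 + l.d) :
    S.I (S.α * S.α.d ^ (4 * n + 3)) = -2 * S.T ^ (4 * n + 4) * (a⁻¹ * cs n (μ / a) a⁻¹) *
      S.I (S.B0 * (S.Fx ^ (n + 1) * S.Fb ^ n)) := by
  have h := S.main (p := 2) (q := 0) (A := 1) (C := a⁻¹ * cs n (μ / a) a⁻¹) hρ
    (by rw [pow_zero, one_mul]; exact hrel) (fun e b x y hx hy hxy hb => by
      rw [one_smul]
      exact top4 hx hy hxy ha (by rw [hb, pow_zero, one_mul])) hαN hε hl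
  rwa [one_mul] at h

/-- **the volume formula, `m = 8`** -/
theorem volume8 (S : Sys dB dU dM 1 D c) {a μ : ℝ} (ha : a ≠ 0) {ρ : Form dB}
    (hρ : Basic S.φ S.hφ.map ρ)
    (hrel : S.b1 ^ 2 = a • S.e ^ 6 + μ • (S.e ^ 2 * (S.G1 + S.G2)) + ρ.d)
    (hαN : S.α.d ^ 16 = 0) {ε : ℝ} (hε : ε ≠ 0) {l : Form dB}
    (hl : S.b1 = ε • S.b0 + l.d) :
    S.I (S.α * S.α.d ^ 15) = -2 * S.T ^ 16 * (-3 / a ^ 2 + μ ^ 2 / a ^ 3) *
      S.I (S.B0 * (S.Fx ^ 2 * S.Fb)) := by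
  have h := S.main (p := 6) (q := 2) (A := 1) (N := 15) (C := -3 / a ^ 2 + μ ^ 2 / a ^ 3) hρ
    hrel (fun e b x y hx hy hxy hb => by
      rw [one_smul]
      exact top8 hx hy hxy ha hb) hαN hε hl
  rw [one_mul, pow_one] at h
  exact h

theorem G1_eq (hF0 : S.F.d = 0) : S.G1 = Form.pull S.pi S.hpi S.Fx +
    (Form.K (Form.pull S.g S.hg S.F)).d := by
  have h := homotopy' (Form.pull S.g S.hg S.F)
  have h1 : (Form.pull S.g S.hg S.F).d = 0 := (pull_good S.hF S.hFe S.hFn S.hg).1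
  rw [S.at_F11, S.at_F10, h1, K_zero, zero_add] at h
  rw [← h]
  abel

/-- **the quadratic relation, `m = 4`** -/
theorem exists_quad4 (hFd : IsDeg 4 S.F)
    (H0 : ∀ w : Form dB, IsDeg 0 w → w.d = 0 → ∃ r : ℝ, w = r • 1)
    (H2 : ∀ w : Form dB, IsDeg 2 w → w.d = 0 → ∃ (r : ℝ) (κ : Form dB), w = r • S.b0 + κ.d)
    (H4 : ∀ w : Form dB, IsDeg 4 w → w.d = 0 → ∃ (r : ℝ) (κ : Form dB),
      w = r • Form.pull S.pi S.hpi S.Fx + κ.d) {ε : ℝ} (hε : ε ≠ 0) {l : Form dB}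
    (hl : S.b1 = ε • S.b0 + l.d) :
    ∃ (a μ : ℝ) (ρ : Form dB), Basic S.φ S.hφ.map ρ ∧
      S.b1 ^ 2 = a • S.e ^ 2 + μ • (S.G1 + S.G2) + ρ.d := by
  have hKd : IsDeg 3 (Form.K (Form.pull S.g S.hg S.F)) := IsDeg.K (IsDeg.pull hFd _ _)
  have hbd : IsDeg 2 S.b1 := isDeg_J S.hφ.map S.T (IsDeg.sub hKd (IsDeg.pull hKd _ _))
  have hGd : IsDeg 4 S.G1 := IsDeg.pull hFd _ (map_at S.hg 1)
  have hq := quad4 S.hφ S.T_ne S.αB_flow S.αB_sg S.hσ S.hσφ S.β_d S.J_β hbd hGd S.G1_basic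
    S.G2_basic S.σb1 S.σG1 S.σG2 S.σαB H0 (fun w hw hwd => by
      obtain ⟨r, κ, h⟩ := H2 w hw hwd
      refine ⟨r / ε, κ - (r / ε) • l, ?_⟩
      rw [h, hl, Form.d_sub, Form.d_smul, smul_add, smul_smul, div_mul_cancel₀ r hε]
      abel) (fun w hw hwd => by
      obtain ⟨r, κ, h⟩ := H4 w hw hwd
      refine ⟨r, κ - r • Form.K (Form.pull S.g S.hg S.F), ?_⟩
      rw [h, S.G1_eq S.hF, Form.d_sub, Form.d_smul, smul_add]
      abel)
  obtain ⟨a, μ, ρ, hρ, h⟩ := hq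
  exact ⟨a, μ, ρ, hρ, by rw [e_eq]; exact h⟩

/-- **the quadratic relation, `m = 8`** -/
theorem exists_quad8 (hFd : IsDeg 8 S.F)
    (H0 : ∀ w : Form dB, IsDeg 0 w → w.d = 0 → ∃ r : ℝ, w = r • 1)
    (H2 : ∀ w : Form dB, IsDeg 2 w → w.d = 0 → ∃ κ : Form dB, w = κ.d)
    (H4 : ∀ w : Form dB, IsDeg 4 w → w.d = 0 → ∃ κ : Form dB, w = κ.d)
    (H6 : ∀ w : Form dB, IsDeg 6 w → w.d = 0 → ∃ (r : ℝ) (κ : Form dB), w = r • S.b0 + κ.d)
    (H8 : ∀ w : Form dB, IsDeg 8 w → w.d = 0 → ∃ (r : ℝ) (κ : Form dB),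
      w = r • Form.pull S.pi S.hpi S.Fx + κ.d)
    (H10 : ∀ w : Form dB, IsDeg 10 w → w.d = 0 → ∃ κ : Form dB, w = κ.d)
    (H12 : ∀ w : Form dB, IsDeg 12 w → w.d = 0 → ∃ κ : Form dB, w = κ.d)
    {ε : ℝ} (hε : ε ≠ 0) {l : Form dB} (hl : S.b1 = ε • S.b0 + l.d) :
    ∃ (a μ : ℝ) (ρ : Form dB), Basic S.φ S.hφ.map ρ ∧
      S.b1 ^ 2 = a • S.e ^ 6 + μ • (S.e ^ 2 * (S.G1 + S.G2)) + ρ.d := by
  have hKd : IsDeg 7 (Form.K (Form.pull S.g S.hg S.F)) := IsDeg.K (IsDeg.pull hFd _ _)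
  have hbd : IsDeg 6 S.b1 := isDeg_J S.hφ.map S.T (IsDeg.sub hKd (IsDeg.pull hKd _ _))
  have hGd : IsDeg 8 S.G1 := IsDeg.pull hFd _ (map_at S.hg 1)
  have hq := quad8 S.hφ S.T_ne S.αB_flow S.αB_sg S.hσ S.hσφ S.β_d S.J_β hbd hGd S.G1_basic
    S.G2_basic S.σb1 S.σG1 S.σG2 S.σαB H0 H2 H4 (fun w hw hwd => by
      obtain ⟨r, κ, h⟩ := H6 w hw hwd
      refine ⟨r / ε, κ - (r / ε) • l, ?_⟩
      rw [h, hl, Form.d_sub, Form.d_smul, smul_add, smul_smul, div_mul_cancel₀ r hε]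
      abel) (fun w hw hwd => by
      obtain ⟨r, κ, h⟩ := H8 w hw hwd
      refine ⟨r, κ - r • Form.K (Form.pull S.g S.hg S.F), ?_⟩
      rw [h, S.G1_eq S.hF, Form.d_sub, Form.d_smul, smul_add]
      abel) H10 H12
  obtain ⟨a, μ, ρ, hρ, h⟩ := hq
  exact ⟨a, μ, ρ, hρ, by rw [e_eq]; exact h⟩

end Sys

/-! ### the bounds with a normalisation constant -/

theorem cs_scale (n : ℕ) (s α β : ℝ) : cs n (s * α) (s ^ 2 * β) = s ^ (2 * n) * cs n α β := by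
  rw [cs, cs, Finset.mul_sum]
  refine Finset.sum_congr rfl fun q hq => ?_
  rw [Finset.HasAntidiagonal.mem_antidiagonal] at hq
  have h1 : 2 * n = 2 * q.1 + 2 * q.2 := by omega
  rw [h1, mul_pow, mul_pow, pow_add, ← pow_mul s 2 q.2]
  ring

theorem coef4_le' (n : ℕ) {a μ κ : ℝ} (hκ : 0 < κ) (ha : κ ^ 2 ≤ |a|) (hμ : |μ| ≤ 2 * κ) :
    |2 * (a⁻¹ * cs n (μ / a) a⁻¹)| * κ ^ (2 * (n + 1)) ≤
      ((4 * (n + 1)).choose (2 * (n + 1)) : ℝ) / (2 * (n + 1 : ℕ) + 1) := by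
  have h1 := coef4_le n (a := a / κ ^ 2) (μ := μ / κ)
    (by rw [abs_div, abs_of_pos (by positivity : (0 : ℝ) < κ ^ 2), le_div_iff₀ (by positivity),
      one_mul]; exact ha)
    (by rw [abs_div, abs_of_pos hκ, div_le_iff₀ hκ]; exact hμ)
  refine le_trans (le_of_eq ?_) h1
  have h2 : (a / κ ^ 2)⁻¹ = κ ^ 2 * a⁻¹ := by
    rw [inv_div, div_eq_mul_inv]
  have h3 : μ / κ / (a / κ ^ 2) = κ * (μ / a) := by
    field_simp
  rw [h2, h3, cs_scale]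
  have h4 : 2 * (κ ^ 2 * a⁻¹ * (κ ^ (2 * n) * cs n (μ / a) a⁻¹)) =
      2 * (a⁻¹ * cs n (μ / a) a⁻¹) * κ ^ (2 * (n + 1)) := by ring
  rw [h4, abs_mul (2 * (a⁻¹ * cs n (μ / a) a⁻¹)),
    abs_of_pos (by positivity : (0 : ℝ) < κ ^ (2 * (n + 1)))]

theorem coef8_le' {a μ κ : ℝ} (hκ : 0 < κ) (ha : κ ^ 2 ≤ |a|) (hμ : |μ| ≤ 6 * κ) :
    |2 * (-3 / a ^ 2 + μ ^ 2 / a ^ 3)| * κ ^ 4 ≤ 78 := by
  have h1 := coef8_le (a := a / κ ^ 2) (μ := μ / κ)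
    (by rw [abs_div, abs_of_pos (by positivity : (0 : ℝ) < κ ^ 2), le_div_iff₀ (by positivity),
      one_mul]; exact ha)
    (by rw [abs_div, abs_of_pos hκ, div_le_iff₀ hκ]; exact hμ)
  refine le_trans (le_of_eq ?_) h1
  have h0 : 0 < |a| := lt_of_lt_of_le (by positivity) ha
  have ha0 : a ≠ 0 := abs_pos.1 h0
  have h4 : 2 * (-3 / (a / κ ^ 2) ^ 2 + (μ / κ) ^ 2 / (a / κ ^ 2) ^ 3) =
      2 * (-3 / a ^ 2 + μ ^ 2 / a ^ 3) * κ ^ 4 := by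
    field_simp
  rw [h4, abs_mul (2 * (-3 / a ^ 2 + μ ^ 2 / a ^ 3)),
    abs_of_pos (by positivity : (0 : ℝ) < κ ^ 4)]

namespace Sys

variable {B U M : Type*} {dB : Dif B} {dU : Dif U} {dM : Dif M} {n : ℕ} {D c : ℝ}

/-- **the bound of the contact volume, `m = 4`** -/
theorem bound4 (S : Sys dB dU dM n D c) {a μ : ℝ} {ρ : Form dB} (hρ : Basic S.φ S.hφ.map ρ)
    (hrel : S.b1 ^ 2 = a • S.e ^ 2 + μ • (S.G1 + S.G2) + ρ.d)
    (hαN : S.α.d ^ (4 * n + 4) = 0) {ε : ℝ} (hε : ε ≠ 0) {l : Form dB}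
    (hl : S.b1 = ε • S.b0 + l.d) {κ : ℝ} (hκ : 0 < κ) (ha : κ ^ 2 ≤ |a|) (hμ : |μ| ≤ 2 * κ)
    (hq : |S.I (S.B0 * (S.Fx ^ (n + 1) * S.Fb ^ n))| ≤ κ ^ (2 * (n + 1))) :
    |S.I (S.α * S.α.d ^ (4 * n + 3))| ≤
      ((4 * (n + 1)).choose (2 * (n + 1)) : ℝ) / (2 * (n + 1 : ℕ) + 1) *
        (2 * D) ^ (4 * (n + 1)) := by
  have h0 : 0 < |a| := lt_of_lt_of_le (by positivity) ha
  have ha0 : a ≠ 0 := abs_pos.1 h0
  have hT : (0 : ℝ) < (2 * D) ^ (4 * (n + 1)) := by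
    have := S.hD
    positivity
  have e1 : 4 * n + 4 = 4 * (n + 1) := by ring
  have e2 : S.T = 2 * D := rfl
  rw [S.volume4 ha0 hρ hrel hαN hε hl, e1, e2]
  have h1 := coef4_le' n hκ ha hμ
  have e3 : -2 * (2 * D) ^ (4 * (n + 1)) * (a⁻¹ * cs n (μ / a) a⁻¹) *
      S.I (S.B0 * (S.Fx ^ (n + 1) * S.Fb ^ n)) =
      -((2 * (a⁻¹ * cs n (μ / a) a⁻¹)) * S.I (S.B0 * (S.Fx ^ (n + 1) * S.Fb ^ n)) *
        (2 * D) ^ (4 * (n + 1))) := by ring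
  rw [e3, abs_neg, abs_mul (2 * (a⁻¹ * cs n (μ / a) a⁻¹) * _), abs_of_pos hT,
    abs_mul (2 * (a⁻¹ * cs n (μ / a) a⁻¹))]
  refine mul_le_mul_of_nonneg_right ?_ hT.le
  exact (mul_le_mul_of_nonneg_left hq (abs_nonneg _)).trans h1

/-- **the bound of the contact volume, `m = 8`** -/
theorem bound8 (S : Sys dB dU dM 1 D c) {a μ : ℝ} {ρ : Form dB} (hρ : Basic S.φ S.hφ.map ρ)
    (hrel : S.b1 ^ 2 = a • S.e ^ 6 + μ • (S.e ^ 2 * (S.G1 + S.G2)) + ρ.d)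
    (hαN : S.α.d ^ 16 = 0) {ε : ℝ} (hε : ε ≠ 0) {l : Form dB}
    (hl : S.b1 = ε • S.b0 + l.d) {κ : ℝ} (hκ : 0 < κ) (ha : κ ^ 2 ≤ |a|) (hμ : |μ| ≤ 6 * κ)
    (hq : |S.I (S.B0 * (S.Fx ^ 2 * S.Fb))| ≤ κ ^ 4) :
    |S.I (S.α * S.α.d ^ 15)| ≤ 78 * (2 * D) ^ 16 := by
  have h0 : 0 < |a| := lt_of_lt_of_le (by positivity) ha
  have ha0 : a ≠ 0 := abs_pos.1 h0
  have hT : (0 : ℝ) < (2 * D) ^ 16 := by
    have := S.hD
    positivity
  have e2 : S.T = 2 * D := rfl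
  rw [S.volume8 ha0 hρ hrel hαN hε hl, e2]
  have h1 := coef8_le' hκ ha hμ
  have e3 : -2 * (2 * D) ^ 16 * (-3 / a ^ 2 + μ ^ 2 / a ^ 3) * S.I (S.B0 * (S.Fx ^ 2 * S.Fb)) =
      -((2 * (-3 / a ^ 2 + μ ^ 2 / a ^ 3)) * S.I (S.B0 * (S.Fx ^ 2 * S.Fb)) *
        (2 * D) ^ 16) := by ring
  rw [e3, abs_neg, abs_mul (2 * (-3 / a ^ 2 + μ ^ 2 / a ^ 3) * _), abs_of_pos hT,
    abs_mul (2 * (-3 / a ^ 2 + μ ^ 2 / a ^ 3))]
  refine mul_le_mul_of_nonneg_right ?_ hT.le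
  exact (mul_le_mul_of_nonneg_left hq (abs_nonneg _)).trans h1

end Sys

end Vale.Agent.P231.H584
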