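import Vale.Agent.P231.H584.Tau
import Vale.Agent.P231.H584.Gauge
import Vale.Agent.P231.H584.Sys

/-!
# P231, stage 3: evaluation of `τ` on the first level

For the system `S` of stage 2 (`n = 1`), with `b₁² = a e⁶ + μ e² (G₁ + G₂)`, and
`τ = t₂ + ((a/2 - μ²/6) e⁷ x - (μ a/12) e¹¹) x'`, the integral `K τ` of `τ` of the contraction `g`
is a form pulled back from `U` plus the differential of a basic form.
-/

set_option linter.unusedSectionVars false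
set_option linter.unusedVariables false

open MeasureTheory Set Module Filter Topology
open scoped ContDiff Real

namespace Vale.Agent.P231.H584

open Fm W
open Fm.Form (IsDeg part isDeg_part part_add part_smul part_succ_d)

section Alg

variable {R R' : Type*} [Ring R] [Algebra ℝ R] [Ring R'] [Algebra ℝ R']

/-- the potential of `τ` -/
noncomputable def Wp (a μ : ℝ) (e x K y : R) : R :=
  (1 / 4 : ℝ) • (4 * (K * y) + 6 * (x ^ 2 * K ^ 2) + 4 * (x * e * K ^ 3) + e ^ 2 * K ^ 4) +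
    (a / 4 - μ ^ 2 / 12) • (e ^ 7 * (2 * (x * K) + e * K ^ 2)) + (-(μ * a / 12)) • (e ^ 11 * K)

/-- the part pulled back from `U` -/
noncomputable def Rp (a μ : ℝ) (e u : R) : R :=
  (-(1 / 4) : ℝ) • (e ^ 2 * ((a / 4) • e ^ 6 + (μ / 2) • (e ^ 2 * u)) ^ 2) +
      (a / 4 - μ ^ 2 / 12) • (e ^ 8 * ((a / 4) • e ^ 6 + (μ / 2) • (e ^ 2 * u)))

theorem map_Wp (f : R →ₐ[ℝ] R') (a μ : ℝ) (e x K y : R) :
    f (Wp a μ e x K y) = Wp a μ (f e) (f x) (f K) (f y) := by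
  simp only [Wp, map_add, map_mul, map_pow, map_smul, map_ofNat]

theorem map_Rp (f : R →ₐ[ℝ] R') (a μ : ℝ) (e u : R) :
    f (Rp a μ e u) = Rp a μ (f e) (f u) := by
  simp only [Rp, map_add, map_mul, map_pow, map_smul]

theorem Wp_zero (a μ : ℝ) (e x y : R) : Wp a μ e x 0 y = 0 := by
  simp [Wp]

theorem Wp_add {R : Type*} [CommRing R] [Algebra ℝ R] (a μ : ℝ) (e x K k y : R) :
    Wp a μ e x (K + k) y = Wp a μ e x K y + Wp a μ e (x + e * K) k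
      (y + K * (x ^ 2 + x * (x + e * K) + (x + e * K) ^ 2)) := by
  simp only [Wp, Algebra.smul_def]
  ring

theorem lev_alg {R : Type*} [CommRing R] [Algebra ℝ R] {E u ψ y : R} {a μ : ℝ}
    (h1 : ψ ^ 2 = (a / 4) • E ^ 6 + (μ / 2) • (E ^ 2 * u))
    (h2 : ψ * (3 * u ^ 2 + E ^ 2 * ψ ^ 2) = 0)
    (h3 : y + (3 * (u ^ 2 * ψ) + 3 * (u * E * ψ ^ 2) + E ^ 2 * ψ ^ 3) = 0) :
    Wp a μ E u ψ y = Rp a μ E u := by
  rw [Wp, Rp]
  simp only [Algebra.smul_def] at h1 ⊢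
  obtain ⟨p, hp⟩ : ∃ p : R, p = algebraMap ℝ R (a / 4) := ⟨_, rfl⟩
  obtain ⟨q, hq⟩ : ∃ q : R, q = algebraMap ℝ R (μ / 2) := ⟨_, rfl⟩
  obtain ⟨t, ht⟩ : ∃ t : R, t = algebraMap ℝ R (1 / 12) := ⟨_, rfl⟩
  have e0 : 12 * t = 1 := by
    rw [ht, ← map_ofNat (algebraMap ℝ R) 12, ← map_mul, ← map_one (algebraMap ℝ R)]
    congr 1
    norm_num
  have e1 : algebraMap ℝ R (1 / 4) = 3 * t := by
    rw [ht, ← map_ofNat (algebraMap ℝ R) 3, ← map_mul]
    congr 1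
    norm_num
  have e1' : algebraMap ℝ R (-(1 / 4)) = -(3 * t) := by rw [map_neg, e1]
  have e2 : algebraMap ℝ R (a / 4 - μ ^ 2 / 12) = p - 4 * t * q ^ 2 := by
    rw [hp, hq, ht, ← map_ofNat (algebraMap ℝ R) 4, ← map_pow, ← map_mul, ← map_mul, ← map_sub]
    congr 1
    ring
  have e3 : algebraMap ℝ R (-(μ * a / 12)) = -(8 * t * p * q) := by
    rw [hp, hq, ht, ← map_ofNat (algebraMap ℝ R) 8, ← map_mul, ← map_mul, ← map_mul, ← map_neg]
    congr 1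
    ring
  rw [← hp, ← hq] at h1
  rw [e1, e1', e2, e3, ← hp, ← hq]
  linear_combination (12 * t * ψ) * h3 + (-6 * t * ψ - 8 * t * q * E ^ 3) * h2 +
    (-3 * t * E ^ 2 * (ψ ^ 2 + (p * E ^ 6 + q * (E ^ 2 * u))) - 24 * t * u * E * ψ +
      (p - 4 * t * q ^ 2) * E ^ 8 + 8 * t * q * E ^ 5 * ψ) * h1 + (-2 * p * u * E ^ 7 * ψ) * e0

theorem two_half {R : Type*} [CommRing R] [Algebra ℝ R] (x : R) :
    2 * ((1 / 2 : ℝ) • x) = x := by
  rw [two_mul, ← add_smul]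
  norm_num

/-- the algebra of the classes on `B` -/
theorem lev_rel {R : Type*} [CommRing R] [Algebra ℝ R] {E u k y x1 x2 b : R} {a μ : ℝ}
    (r1 : x1 = u + E * k) (r2 : x1 - x2 = E * b) (r3 : 2 * k = b)
    (r4 : b ^ 2 = a • E ^ 6 + μ • (E ^ 2 * (x1 + x2)))
    (r5 : b * (x2 ^ 2 + x2 * x1 + x1 ^ 2) = 0)
    (r6 : y + (3 * (u ^ 2 * k) + 3 * (u * E * k ^ 2) + E ^ 2 * k ^ 3) = 0) :
    Wp a μ E u k y = Rp a μ E u := by
  have h2 : x2 = u - E * k := by linear_combination r1 - r2 + E * r3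
  obtain ⟨t, ht⟩ : ∃ t : R, t = algebraMap ℝ R (1 / 4) := ⟨_, rfl⟩
  have e0 : 4 * t = 1 := by
    rw [ht, ← map_ofNat (algebraMap ℝ R) 4, ← map_mul, ← map_one (algebraMap ℝ R)]
    congr 1
    norm_num
  refine lev_alg ?_ ?_ r6
  · simp only [Algebra.smul_def] at r4 ⊢
    have e1 : algebraMap ℝ R (a / 4) = t * algebraMap ℝ R a := by
      rw [ht, ← map_mul]
      congr 1
      ring
    have e2 : algebraMap ℝ R (μ / 2) = t * (2 * algebraMap ℝ R μ) := by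
      rw [ht, ← map_ofNat (algebraMap ℝ R) 2, ← map_mul, ← map_mul]
      congr 1
      ring
    rw [e1, e2]
    rw [h2, r1, ← r3] at r4
    linear_combination t * r4 - k ^ 2 * e0
  · rw [h2, r1, ← r3] at r5
    linear_combination (2 * t) * r5 - (k * (3 * u ^ 2 + E ^ 2 * k ^ 2)) * e0

end Alg

section Forms

variable {X : Type*} {D : Dif X} {x e K y v k : Form D} (hxe : x.sg = x) (hee : e.sg = e)
  (hKe : K.sg = K) (hye : y.sg = y)
include hxe hee hKe hye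

theorem zz_form (hke : k.sg = k) : y + K * (x ^ 2 + x * (x + e * K) + (x + e * K) ^ 2) +
    (3 * ((x + e * K) ^ 2 * k) + 3 * ((x + e * K) * e * k ^ 2) + e ^ 2 * k ^ 3) =
    y + (K + k) * (x ^ 2 + x * (x + e * (K + k)) + (x + e * (K + k)) ^ 2) := by
  have h1 : ∀ x e K k y : EvA D, y + K * (x ^ 2 + x * (x + e * K) + (x + e * K) ^ 2) +
    (3 * ((x + e * K) ^ 2 * k) + 3 * ((x + e * K) * e * k ^ 2) + e ^ 2 * k ^ 3) =
    y + (K + k) * (x ^ 2 + x * (x + e * (K + k)) + (x + e * (K + k)) ^ 2) := fun x e K k y => by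
    ring
  have h := congrArg (EvA D).val (h1 ⟨x, hxe⟩ (⟨e, hee⟩ : EvA D) ⟨K, hKe⟩ ⟨k, hke⟩ ⟨y, hye⟩)
  simp only [map_add, map_mul, map_pow, map_ofNat] at h
  exact h

/-- `W` of a sum -/
theorem Wp_add_form (hke : k.sg = k) (a μ : ℝ) : Wp a μ e x (K + k) y = Wp a μ e x K y +
    Wp a μ e (x + e * K) k (y + K * (x ^ 2 + x * (x + e * K) + (x + e * K) ^ 2)) := by
  have h := congrArg (EvA D).val (Wp_add a μ (⟨e, hee⟩ : EvA D) ⟨x, hxe⟩ ⟨K, hKe⟩ ⟨k, hke⟩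
    ⟨y, hye⟩)
  rw [map_add, map_Wp, map_Wp, map_Wp] at h
  exact h

variable (hxd : x.d = -(e * v)) (hed : e.d = 0) (hKd : K.d = v)
  (hyd : y.d = -((3 : ℝ) • (x ^ 2 * v)))
include hxd hed hKd hyd

/-- `W` is a potential of `τ` -/
theorem Wp_d (a μ : ℝ) : (Wp a μ e x K y).d =
    v * y + ((a / 2 - μ ^ 2 / 6) • (e ^ 7 * x) + (-(μ * a / 12)) • e ^ 11) * v := by
  have h1 := (gauge hxe hee hKe hye hxd hed (τ := 0) (by rw [hKd, sub_zero]) hyd).2.2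
  rw [zero_mul, sub_zero, ← one_div] at h1
  obtain ⟨X', E', K', Y', h1', h2', h3', h4', h5, h6, h7, h8⟩ :=
    gauge_data hxe hee hKe hye hxd hed (τ := 0) (by rw [hKd, sub_zero]) hyd
  have f2 := ((IsD.natCast 2).mul (h5.mul h7)).add (h6.mul (h7.mul h7))
  have g2 := f2.congr (b := 2 * (X' * K') + E' * K' ^ 2) (A' := 2 * X')
    (B' := -2 * X' - 2 * (E' * K')) (by push_cast; ring) (by push_cast; ring)
    (by push_cast; ring)
  have g3 : (2 * (x * K) + e * K ^ 2).d = 2 * x * v + (-2 * x - 2 * (e * K)) * 0 := by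
    rw [← h1', ← h2', ← h3']
    exact g2
  have c2 : (2 : Form D) = (2 : ℝ) • 1 := by
    rw [← Algebra.algebraMap_eq_smul_one, map_ofNat]
  rw [mul_zero, add_zero] at g3
  have g4 : (e ^ 7 * (2 * (x * K) + e * K ^ 2)).d = (2 : ℝ) • (e ^ 7 * x * v) := by
    rw [Form.d_mul, pow_closed hed, zero_mul, zero_add, pow_even hee, g3, c2, smul_mul_assoc,
      one_mul, smul_mul_assoc, mul_smul_comm, mul_assoc]
  have g5 : (e ^ 11 * K).d = e ^ 11 * v := by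
    rw [Form.d_mul, pow_closed hed, zero_mul, zero_add, pow_even hee, hKd]
  rw [Wp, Form.d_add, Form.d_add, ← h1, Form.d_smul, g4, Form.d_smul, g5, smul_smul, add_mul,
    smul_mul_assoc, smul_mul_assoc, add_assoc]
  congr 3
  ring

end Forms

section BasA

variable {X : Type*} {D : Dif X} (Φ : X × ℝ → X) (hΦ : (D.prod (Dif.lin ℝ)).Map D Φ)

/-- the algebra of basic forms -/
def BasA : Subalgebra ℝ (Form D) where
  carrier := {w | Basic Φ hΦ w}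
  mul_mem' := fun {a b} ha hb => Basic.mul (hΦ := hΦ) ha hb
  add_mem' := fun {a b} ha hb => Basic.add (hΦ := hΦ) ha hb
  algebraMap_mem' := fun r => by
    rw [Algebra.algebraMap_eq_smul_one]
    exact Basic.smul (hΦ := hΦ) r Basic.one

variable {Φ hΦ}

theorem Wp_basic (a μ : ℝ) {e x K y : Form D} (he : Basic Φ hΦ e) (hx : Basic Φ hΦ x)
    (hK : Basic Φ hΦ K) (hy : Basic Φ hΦ y) : Basic Φ hΦ (Wp a μ e x K y) := by
  have h := map_Wp (BasA Φ hΦ).val a μ ⟨e, he⟩ ⟨x, hx⟩ ⟨K, hK⟩ ⟨y, hy⟩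
  have h1 : Wp a μ e x K y = (BasA Φ hΦ).val (Wp a μ ⟨e, he⟩ ⟨x, hx⟩ ⟨K, hK⟩ ⟨y, hy⟩) := h.symm
  rw [h1]
  exact (Wp a μ (⟨e, he⟩ : BasA Φ hΦ) ⟨x, hx⟩ ⟨K, hK⟩ ⟨y, hy⟩).2

theorem Rp_basic (a μ : ℝ) {e u : Form D} (he : Basic Φ hΦ e) (hu : Basic Φ hΦ u) :
    Basic Φ hΦ (Rp a μ e u) := by
  have h := map_Rp (BasA Φ hΦ).val a μ ⟨e, he⟩ ⟨u, hu⟩
  have h1 : Rp a μ e u = (BasA Φ hΦ).val (Rp a μ ⟨e, he⟩ ⟨u, hu⟩) := h.symm
  rw [h1]
  exact (Rp a μ (⟨e, he⟩ : BasA Φ hΦ) ⟨u, hu⟩).2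

end BasA

section At

variable {X : Type*} {D : Dif X} {Φ : X × ℝ → X} {T : ℝ} (h : IsFlow D T Φ) {α : Form D}

theorem at_xc (s : ℝ) (G : Form (D.prod (Dif.lin ℝ))) :
    at_ s (xc (cflow Φ) (map_cflow h.map) T (pr α) G) = xc Φ h.map T α (at_ s G) := by
  have h1 := pull_xc h.map (map_cflow h.map) (Form.map_slice s) (fun x t => rfl) T (pr α) G
  have h2 : Form.pull (fun x : X => (x, s)) (Form.map_slice s) (pr α) = α := at_pr s α
  rw [h2] at h1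
  exact h1

end At

namespace Sys

variable {B U M : Type*} {dB : Dif B} {dU : Dif U} {dM : Dif M} {D c : ℝ}
  (S : Sys dB dU dM 1 D c)

/-- the form on the cylinder -/
noncomputable def Gc : Form (dB.prod (Dif.lin ℝ)) := Form.pull S.g S.hg S.F

theorem Gc_good : S.Gc.d = 0 ∧ S.Gc.sg = S.Gc ∧ S.Gc ^ (2 + 1) = 0 :=
  pull_good S.hF S.hFe S.hFn S.hg

/-- `x` on the cylinder -/
noncomputable def cx : Form (dB.prod (Dif.lin ℝ)) :=
  xc (cflow S.φ) (map_cflow S.hφ.map) (2 * D) (pr S.αB) S.Gc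

/-- `x'` on the cylinder -/
noncomputable def cv : Form (dB.prod (Dif.lin ℝ)) :=
  xp (cflow S.φ) (map_cflow S.hφ.map) (2 * D) S.Gc

/-- `y'` on the cylinder -/
noncomputable def cy : Form (dB.prod (Dif.lin ℝ)) :=
  yp 2 (cflow S.φ) (map_cflow S.hφ.map) (2 * D) S.Gc

/-- the Euler form on `U` -/
noncomputable def eU : Form dU := (2 * D)⁻¹ • S.α.d

/-- `x` on `U` -/
noncomputable def xU : Form dU := xc S.φU S.hφU.map (2 * D) S.α S.Fx

/-- `x'` on `U` -/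
noncomputable def vU : Form dU := xp S.φU S.hφU.map (2 * D) S.Fx

/-- `y'` on `U` -/
noncomputable def yU : Form dU := yp 2 S.φU S.hφU.map (2 * D) S.Fx

/-- the primitive of `x'` given by the contraction -/
noncomputable def kg : Form dB := J S.φ S.hφ.map (2 * D) (Form.K S.Gc)

include S in
theorem T2 : (2 * D) ≠ 0 := mul_ne_zero two_ne_zero S.hD.ne'

theorem hc : Form.pull (cflow S.φ) (map_cflow S.hφ.map) (pr S.αB) = pr (pr S.αB) + dt :=
  cflow_contact S.hφ S.αB_flow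

theorem hco : (pr S.αB).sg = -pr S.αB := pr_odd S.αB_sg

theorem ce_eq : (2 * D)⁻¹ • (pr S.αB).d = pr S.e := by
  rw [e_eq, pr_smul, pr_d]
  rfl

theorem e_sg : S.e.sg = S.e := by rw [e_eq, Form.sg_smul, d_even S.αB_sg]

theorem e_d : S.e.d = 0 := by rw [e_eq, Form.d_smul, Form.d_d, smul_zero]

theorem e_basic : Basic S.φ S.hφ.map S.e := by
  rw [e_eq]
  exact Basic.smul _ (basic_d_contact S.hφ S.αB_flow)

theorem pi_eU : Form.pull S.pi S.hpi S.eU = S.e := by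
  rw [eU, pull_smul]
  rfl

theorem eU_sg : S.eU.sg = S.eU := by rw [eU, Form.sg_smul, d_even S.hαo]

theorem eU_d : S.eU.d = 0 := by rw [eU, Form.d_smul, Form.d_d, smul_zero]

theorem eU_basic : Basic S.φU S.hφU.map S.eU := Basic.smul _ (basic_d_contact S.hφU S.hα)

/-! the cylinder -/

theorem cx_sg : S.cx.sg = S.cx := xc_sg (isFlow_cflow S.hφ) S.hc S.hco S.Gc_good.2.1

theorem cx_basic : Basic (cflow S.φ) (map_cflow S.hφ.map) S.cx :=
  xc_basic (isFlow_cflow S.hφ) S.hc S.hco S.Gc_good.2.1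

theorem cx_d : S.cx.d = -(pr S.e * S.cv) := by
  rw [← S.ce_eq]
  exact xc_d (isFlow_cflow S.hφ) S.T2 S.hc S.hco S.Gc_good.2.1 S.Gc_good.1

theorem cv_sg : S.cv.sg = -S.cv := xp_sg (isFlow_cflow S.hφ) S.Gc_good.2.1

theorem cv_basic : Basic (cflow S.φ) (map_cflow S.hφ.map) S.cv := xp_basic (isFlow_cflow S.hφ)

theorem cv_d : S.cv.d = 0 := xp_d (isFlow_cflow S.hφ) S.Gc_good.1

theorem cy_sg : S.cy.sg = S.cy := yp_sg (isFlow_cflow S.hφ) S.Gc_good.2.1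

theorem cy_basic : Basic (cflow S.φ) (map_cflow S.hφ.map) S.cy := yp_basic (isFlow_cflow S.hφ)

theorem cy_d : S.cy.d = -((3 : ℝ) • (S.cx ^ 2 * S.cv)) := by
  have h := yp_d (n := 2) (isFlow_cflow S.hφ) S.T2 S.hc S.hco S.Gc_good.2.1 S.Gc_good.1
    S.Gc_good.2.2
  have e : (((2 : ℕ) : ℝ) + 1) = 3 := by norm_num
  rw [e] at h
  exact h

/-! the ends -/

theorem at_Gc1 : at_ 1 S.Gc = S.G1 := S.at_F11

theorem at_Gc0 : at_ 0 S.Gc = Form.pull S.pi S.hpi S.Fx := S.at_F10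

theorem cx_one : at_ 1 S.cx = S.G1 := by
  rw [cx, at_xc S.hφ, S.at_Gc1]
  exact xc_of_basic S.hφ S.T2 S.αB_flow S.G1_basic

theorem cv_one : at_ 1 S.cv = 0 := by
  rw [cv, at_xp S.hφ, S.at_Gc1]
  exact xp_of_basic S.G1_basic

theorem cy_one : at_ 1 S.cy = 0 := by
  rw [cy, at_yp S.hφ, S.at_Gc1]
  exact yp_of_basic S.G1_basic

theorem cx_zero : at_ 0 S.cx = Form.pull S.pi S.hpi S.xU := by
  rw [cx, at_xc S.hφ, S.at_Gc0, xU, pull_xc S.hφ.map S.hφU.map S.hpi S.hpφ]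
  rfl

theorem cv_zero : at_ 0 S.cv = Form.pull S.pi S.hpi S.vU := by
  rw [cv, at_xp S.hφ, S.at_Gc0, vU, pull_xp S.hφ.map S.hφU.map S.hpi S.hpφ]

theorem cy_zero : at_ 0 S.cy = Form.pull S.pi S.hpi S.yU := by
  rw [cy, at_yp S.hφ, S.at_Gc0, yU, pull_yp S.hφ.map S.hφU.map S.hpi S.hpφ]

/-! `U` -/

theorem xU_sg : S.xU.sg = S.xU := xc_sg S.hφU S.hα S.hαo S.Fx_good.2.1

theorem xU_basic : Basic S.φU S.hφU.map S.xU := xc_basic S.hφU S.hα S.hαo S.Fx_good.2.1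

theorem xU_d : S.xU.d = -(S.eU * S.vU) := xc_d S.hφU S.T2 S.hα S.hαo S.Fx_good.2.1 S.Fx_good.1

theorem vU_sg : S.vU.sg = -S.vU := xp_sg S.hφU S.Fx_good.2.1

theorem vU_basic : Basic S.φU S.hφU.map S.vU := xp_basic S.hφU

theorem vU_d : S.vU.d = 0 := xp_d S.hφU S.Fx_good.1

theorem yU_sg : S.yU.sg = S.yU := yp_sg S.hφU S.Fx_good.2.1

theorem yU_basic : Basic S.φU S.hφU.map S.yU := yp_basic S.hφU

theorem yU_d : S.yU.d = -((3 : ℝ) • (S.xU ^ 2 * S.vU)) := by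
  have h := yp_d (n := 2) S.hφU S.T2 S.hα S.hαo S.Fx_good.2.1 S.Fx_good.1 S.Fx_good.2.2
  have e : (((2 : ℕ) : ℝ) + 1) = 3 := by norm_num
  rw [e] at h
  exact h

/-! the primitive `kg` -/

theorem K_cv : Form.K S.cv = -S.kg := K_J S.hφ.map (2 * D) S.Gc

theorem kg_sg : S.kg.sg = S.kg := by
  refine J_even S.hφ.map (2 * D) ?_
  rw [K_sg, S.Gc_good.2.1]

theorem kg_basic : Basic S.φ S.hφ.map S.kg := J_basic S.hφ _

theorem kg_d : S.kg.d = Form.pull S.pi S.hpi S.vU := by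
  have h := homotopy' S.cv
  rw [S.cv_one, S.cv_zero, S.cv_d, K_zero, S.K_cv, Form.d_neg, zero_add, zero_sub] at h
  exact (neg_injective h).symm

theorem kg_sub : S.kg - Form.pull S.σ S.hσ S.kg = S.b1 := by
  rw [kg, pull_J S.hφ.map S.hφ.map S.hσ S.hσφ, ← J_sub]
  rfl

/-- the primitive of `x'` on the cylinder, zero at the end -/
noncomputable def ck : Form (dB.prod (Dif.lin ℝ)) := Pm1 S.cv

theorem ck_sg : S.ck.sg = S.ck := by
  have h : Pm1 (-S.cv) = -Pm1 S.cv := by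
    have h1 : H584.Pm (-S.cv) = -H584.Pm S.cv := by
      rw [Pm, Pm, pull_neg, K_neg]
    rw [Pm1, Pm1, h1, K_neg]
    have h2 : pr (-Form.K S.cv) = -pr (Form.K S.cv) := pull_neg Dif.map_fst _
    rw [h2]
    abel
  rw [ck, Pm1_sg, S.cv_sg, h, neg_neg]

theorem ck_basic : Basic (cflow S.φ) (map_cflow S.hφ.map) S.ck := 
  Pm1_basic (hφ := S.hφ.map) S.cv_basic

theorem ck_d : S.ck.d = S.cv := by
  rw [ck, Pm1_d S.cv_d, S.cv_one, pr_zero, sub_zero]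

theorem ck_one : at_ 1 S.ck = 0 := Pm1_one _

theorem ck_zero : at_ 0 S.ck = S.kg := by rw [ck, Pm1_zero, S.K_cv, neg_neg]

/-- the integral of `τ` -/
theorem K_tau (a μ : ℝ) : ∃ m : Form dB, Basic S.φ S.hφ.map m ∧
    Form.K (tau (a / 2 - μ ^ 2 / 6) (-(μ * a / 12)) (cflow S.φ) (map_cflow S.hφ.map) (2 * D)
      (pr S.αB) S.Gc) = -Wp a μ S.e (Form.pull S.pi S.hpi S.xU) S.kg
        (Form.pull S.pi S.hpi S.yU) + m.d := by
  have h1 : tau (a / 2 - μ ^ 2 / 6) (-(μ * a / 12)) (cflow S.φ) (map_cflow S.hφ.map) (2 * D)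
      (pr S.αB) S.Gc = (Wp a μ (pr S.e) S.cx S.ck S.cy).d := by
    rw [Wp_d S.cx_sg (by rw [← pr_sg, S.e_sg]) S.ck_sg S.cy_sg S.cx_d
      (by rw [← pr_d, S.e_d, pr_zero]) S.ck_d S.cy_d, tau_def, S.ce_eq]
    rfl
  have hb : Basic (cflow S.φ) (map_cflow S.hφ.map) (Wp a μ (pr S.e) S.cx S.ck S.cy) :=
    Wp_basic a μ (Basic.pr S.e_basic) S.cx_basic S.ck_basic S.cy_basic
  have h2 := homotopy' (Wp a μ (pr S.e) S.cx S.ck S.cy)
  have h3 : ∀ s, at_ s (Wp a μ (pr S.e) S.cx S.ck S.cy) =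
      Wp a μ S.e (at_ s S.cx) (at_ s S.ck) (at_ s S.cy) := fun s => by
    have h4 := map_Wp (Form.pullA (fun x : B => (x, s)) (Form.map_slice (D := dB) s)) a μ
      (pr S.e) S.cx S.ck S.cy
    have h5 : Form.pullA (fun x : B => (x, s)) (Form.map_slice (D := dB) s) (pr S.e) = S.e :=
      at_pr s S.e
    rw [h5] at h4
    exact h4
  rw [h3, h3, S.ck_one, Wp_zero, S.cx_zero, S.ck_zero, S.cy_zero, ← h1] at h2
  refine ⟨-Form.K (Wp a μ (pr S.e) S.cx S.ck S.cy), Basic.neg (basic_K hb), ?_⟩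
  rw [Form.d_neg]
  have h4 := h2.symm
  rw [zero_sub] at h4
  rw [← h4]
  abel

/-! the relations on `B` -/

theorem gysin1 : Eqv S.hφ.map (S.G1 - S.G2) (S.e * S.b1) := by
  have hβb : Basic S.φ S.hφ.map S.β.d := by
    rw [S.β_d]
    exact Basic.sub S.G1_basic S.G2_basic
  have h4 := gysin_d S.hφ S.αB_flow S.αB_sg hβb
  refine ⟨S.T⁻¹ • J S.φ S.hφ.map S.T (S.αB * S.β), Basic.smul _ (J_basic S.hφ _), ?_⟩
  have h7 : S.T • S.β.d = S.αB.d * S.b1 + (J S.φ S.hφ.map S.T (S.αB * S.β)).d := by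
    rw [← S.J_β]
    exact h4
  rw [← S.β_d, e_eq, smul_mul_assoc, Form.d_smul, ← smul_add, ← h7, smul_smul,
    inv_mul_cancel₀ S.T_ne, one_smul]

theorem b1_hh : ∃ m : Form dB, Basic S.φ S.hφ.map m ∧
    S.b1 * (S.G2 ^ 2 + S.G2 * S.G1 + S.G1 ^ 2) = m.d := by
  obtain ⟨m, hm⟩ := S.pthc.ex
  have h1 := congrArg (at_ 1) hm
  have h2 : at_ 1 (hh (1 + 1) (Form.pull (fun p : B × ℝ => (S.σ p.1, p.2)) (map_cyl S.hσ)
      (Form.pull S.g S.hg S.F)) (Form.pull S.g S.hg S.F)) = hh (1 + 1) S.G2 S.G1 := by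
    rw [← S.at_F11, ← S.at_F21]
    exact pull_hh (Form.map_slice 1) _ _ _
  rw [at_mul, at_d, h2, S.at_βc1] at h1
  have h3 := congrArg (J S.φ S.hφ.map S.T) h1
  have h4 : J S.φ S.hφ.map S.T (at_ 1 m).d = -(J S.φ S.hφ.map S.T (at_ 1 m)).d :=
    J_d S.hφ (at_ 1 m)
  rw [J_mul_basic _ _ (Basic.hh S.G2_basic S.G1_basic _), S.J_β, h4] at h3
  refine ⟨-J S.φ S.hφ.map S.T (at_ 1 m), Basic.neg (J_basic S.hφ _), ?_⟩
  rw [Form.d_neg, ← h3]
  congr 1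
  have c1 : Commute S.G2 S.G1 := even_comm S.G2_good.2.1 _
  simp only [hh, Finset.sum_range_succ, Finset.sum_range_zero, pow_zero, pow_one, one_mul,
    mul_one, zero_add, Nat.reduceAdd, Nat.sub_zero, Nat.reduceSub, Nat.sub_self]
  abel

section Main

variable {κU : Form dU}

/-- `u = x + e κ` on `U` -/
noncomputable def uU (κU : Form dU) : Form dU := S.xU + S.eU * κU

/-- the closed form `y' + κ (x² + x u + u²)` on `U` -/
noncomputable def zU (κU : Form dU) : Form dU :=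
  S.yU + κU * (S.xU ^ 2 + S.xU * (S.xU + S.eU * κU) + (S.xU + S.eU * κU) ^ 2)

/-- the difference of the two primitives on `B` -/
noncomputable def kB (κU : Form dU) : Form dB := S.kg - Form.pull S.pi S.hpi κU

variable (hκe : κU.sg = κU) (hκb : Basic S.φU S.hφU.map κU) (hκd : κU.d = S.vU)
include hκe hκb hκd

theorem uU_good : (S.uU κU).sg = S.uU κU ∧ (S.uU κU).d = 0 ∧
    Basic S.φU S.hφU.map (S.uU κU) := by
  refine ⟨?_, ?_, Basic.add S.xU_basic (Basic.mul S.eU_basic hκb)⟩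
  · rw [uU, Form.sg_add, S.xU_sg, mul_even S.eU_sg hκe]
  · have h := (gauge S.xU_sg S.eU_sg hκe S.yU_sg S.xU_d S.eU_d (τ := 0)
      (by rw [hκd, sub_zero]) S.yU_d).1
    rw [mul_zero, neg_zero] at h
    exact h

theorem zU_good : (S.zU κU).sg = S.zU κU ∧ (S.zU κU).d = 0 ∧
    Basic S.φU S.hφU.map (S.zU κU) := by
  have h1 := S.uU_good hκe hκb hκd
  rw [uU] at h1
  refine ⟨?_, ?_, Basic.add S.yU_basic (Basic.mul hκb (Basic.add (Basic.add
    (Basic.pow S.xU_basic 2) (Basic.mul S.xU_basic h1.2.2)) (Basic.pow h1.2.2 2)))⟩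
  · rw [zU, Form.sg_add, S.yU_sg, Form.sg_mul, hκe, Form.sg_add, Form.sg_add,
      pow_even S.xU_sg, mul_even S.xU_sg h1.1, pow_even h1.1]
  · have h := (gauge S.xU_sg S.eU_sg hκe S.yU_sg S.xU_d S.eU_d (τ := 0)
      (by rw [hκd, sub_zero]) S.yU_d).2.1
    rw [mul_zero, smul_zero, neg_zero] at h
    exact h

theorem kB_good : (S.kB κU).sg = S.kB κU ∧ (S.kB κU).d = 0 ∧
    Basic S.φ S.hφ.map (S.kB κU) := by
  refine ⟨?_, ?_, Basic.sub S.kg_basic (Basic.pull S.hφ.map S.hφU.map S.hpi S.hpφ hκb)⟩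
  · rw [kB, Form.sg_sub, S.kg_sg, ← Form.pull_sg S.pi S.hpi, hκe]
  · rw [kB, Form.d_sub, S.kg_d, ← Form.pull_d S.pi S.hpi, hκd, sub_self]

/-- **evaluation of `τ` on the first level**, with a normalised primitive -/
theorem lev1_aux {a μ : ℝ} {ρ : Form dB} (hρ : Basic S.φ S.hφ.map ρ)
    (hrel : S.b1 ^ 2 = a • S.e ^ 6 + μ • (S.e ^ 2 * (S.G1 + S.G2)) + ρ.d)
    (hκ : Eqv S.hφ.map (S.kB κU) ((1 / 2 : ℝ) • S.b1)) :
    ∃ (w : Form dU) (m : Form dB), Basic S.φU S.hφU.map w ∧ Basic S.φ S.hφ.map m ∧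
      Form.K (tau (a / 2 - μ ^ 2 / 6) (-(μ * a / 12)) (cflow S.φ) (map_cflow S.hφ.map) (2 * D)
        (pr S.αB) S.Gc) = Form.pull S.pi S.hpi w + m.d := by
  obtain ⟨hu1, hu2, hu3⟩ := S.uU_good hκe hκb hκd
  obtain ⟨hz1, hz2, hz3⟩ := S.zU_good hκe hκb hκd
  obtain ⟨hk1, hk2, hk3⟩ := S.kB_good hκe hκb hκd
  have hPB : ∀ {w : Form dU}, Basic S.φU S.hφU.map w →
      Basic S.φ S.hφ.map (Form.pull S.pi S.hpi w) :=
    fun hw => Basic.pull S.hφ.map S.hφU.map S.hpi S.hpφ hw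
  have hPe : ∀ {w : Form dU}, w.sg = w → (Form.pull S.pi S.hpi w).sg =
      Form.pull S.pi S.hpi w := fun hw => by rw [← Form.pull_sg, hw]
  -- elements of the algebra
  let x1 : Bas S.φ S.hφ.map := ⟨S.G1, S.G1_good.2.1, S.G1_good.1, S.G1_basic⟩
  let x2 : Bas S.φ S.hφ.map := ⟨S.G2, S.G2_good.2.1, S.G2_good.1, S.G2_basic⟩
  let b' : Bas S.φ S.hφ.map := ⟨S.b1, S.b1_sg, S.b1_d, S.b1_basic⟩
  let e' : Bas S.φ S.hφ.map := ⟨S.e, S.e_sg, S.e_d, S.e_basic⟩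
  let k' : Bas S.φ S.hφ.map := ⟨S.kB κU, hk1, hk2, hk3⟩
  let u' : Bas S.φ S.hφ.map := ⟨Form.pull S.pi S.hpi (S.uU κU), hPe hu1,
    by rw [← Form.pull_d, hu2, pull_zero], hPB hu3⟩
  let z' : Bas S.φ S.hφ.map := ⟨Form.pull S.pi S.hpi (S.zU κU), hPe hz1,
    by rw [← Form.pull_d, hz2, pull_zero], hPB hz3⟩
  set Q := Ideal.Quotient.mkₐ ℝ (Exa S.φ S.hφ.map) with hQ
  have hsm : ∀ (r : ℝ) (w : Bas S.φ S.hφ.map), Q (r • w) = r • Q w := fun r w => rfl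
  -- even forms on `B`
  set X0 := Form.pull S.pi S.hpi S.xU with hX0
  set Y0 := Form.pull S.pi S.hpi S.yU with hY0
  set KU := Form.pull S.pi S.hpi κU with hKU
  have hX0e : X0.sg = X0 := hPe S.xU_sg
  have hY0e : Y0.sg = Y0 := hPe S.yU_sg
  have hKUe : KU.sg = KU := hPe hκe
  have hkg : S.kg = KU + S.kB κU := by rw [kB]; abel
  have hpu : Form.pull S.pi S.hpi (S.uU κU) = X0 + S.e * KU := by
    rw [uU, pull_add, pull_mul, S.pi_eU]
  have hpz : Form.pull S.pi S.hpi (S.zU κU) = Y0 + KU * (X0 ^ 2 + X0 * (X0 + S.e * KU) +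
      (X0 + S.e * KU) ^ 2) := by
    rw [zU, pull_add, pull_mul, pull_add, pull_add, pull_pow, pull_mul, pull_pow, pull_add,
      pull_mul, S.pi_eU]
  have hg := gauge S.cx_sg (e := pr S.e) (by rw [← pr_sg, S.e_sg]) S.ck_sg S.cy_sg S.cx_d
      (by rw [← pr_d, S.e_d, pr_zero]) (τ := 0) (by rw [S.ck_d, sub_zero]) S.cy_d
  have r1 : Q x1 = Q u' + Q e' * Q k' := by
    have h1 := homotopy' (S.cx + pr S.e * S.ck)
    rw [hg.1, mul_zero, neg_zero, K_zero, zero_add, at_add, at_add, at_mul, at_mul, at_pr,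
      at_pr, S.ck_one, S.cx_one, S.cx_zero, S.ck_zero, mul_zero, add_zero, ← hX0] at h1
    have h2 : Q x1 = Q (u' + e' * k') := by
      refine eq_quot S.φ S.hφ.map (u := Form.K (S.cx + pr S.e * S.ck))
        (basic_K (Basic.add S.cx_basic (Basic.mul (Basic.pr S.e_basic) S.ck_basic))) ?_
      have h3 : ((u' + e' * k' : Bas S.φ S.hφ.map) : Form dB) =
        Form.pull S.pi S.hpi (S.uU κU) + S.e * S.kB κU := rfl
      have h4 : (x1 : Form dB) = S.G1 := rfl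
      rw [h3, h4, hpu, ← h1, hkg, mul_add]
      abel
    rw [h2, map_add, map_mul]
  have r2 : Q x1 - Q x2 = Q e' * Q b' := by
    obtain ⟨u, hu, hu'⟩ := S.gysin1
    rw [← map_sub, ← map_mul]
    exact eq_quot S.φ S.hφ.map hu hu'
  have r3 : 2 * Q k' = Q b' := by
    obtain ⟨u, hu, hu'⟩ := hκ
    have h1 : Q k' = Q ((1 / 2 : ℝ) • b') := eq_quot S.φ S.hφ.map hu hu'
    rw [h1, hsm]
    exact two_half _
  have r4 : Q b' ^ 2 = a • Q e' ^ 6 + μ • (Q e' ^ 2 * (Q x1 + Q x2)) := by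
    have h5 : Q (b' ^ 2) = Q (a • e' ^ 6 + μ • (e' ^ 2 * (x1 + x2))) :=
      eq_quot S.φ S.hφ.map hρ hrel
    rw [map_pow, map_add, hsm, hsm, map_mul, map_pow, map_pow, map_add] at h5
    exact h5
  have r5 : Q b' * (Q x2 ^ 2 + Q x2 * Q x1 + Q x1 ^ 2) = 0 := by
    obtain ⟨u, hu, hu'⟩ := S.b1_hh
    have h5 : Q (b' * (x2 ^ 2 + x2 * x1 + x1 ^ 2)) = Q 0 := by
      refine eq_quot S.φ S.hφ.map hu ?_
      refine Eq.trans hu' ?_
      exact (zero_add u.d).symm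
    rw [map_zero, map_mul, map_add, map_add, map_pow, map_mul, map_pow] at h5
    exact h5
  have r6 : Q z' + (3 * (Q u' ^ 2 * Q k') + 3 * (Q u' * Q e' * Q k' ^ 2) +
      Q e' ^ 2 * Q k' ^ 3) = 0 := by
    set Y := S.cy + S.ck * (S.cx ^ 2 + S.cx * (S.cx + pr S.e * S.ck) +
      (S.cx + pr S.e * S.ck) ^ 2) with hY
    have hYd : Y.d = 0 := by
      rw [hg.2.1, mul_zero, smul_zero, neg_zero]
    have hYb : Basic (cflow S.φ) (map_cflow S.hφ.map) Y := by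
      have h1 := Basic.add S.cx_basic (Basic.mul (Basic.pr S.e_basic) S.ck_basic)
      exact Basic.add S.cy_basic (Basic.mul S.ck_basic (Basic.add (Basic.add
        (Basic.pow S.cx_basic 2) (Basic.mul S.cx_basic h1)) (Basic.pow h1 2)))
    have hY1 : at_ 1 Y = 0 := by
      rw [hY, at_add, at_mul, S.ck_one, S.cy_one, zero_mul, add_zero]
    have hY0 : at_ 0 Y = Y0 + S.kg * (X0 ^ 2 + X0 * (X0 + S.e * S.kg) +
        (X0 + S.e * S.kg) ^ 2) := by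
      rw [hY, at_add, at_mul, at_add, at_add, at_pow, at_mul, at_pow, at_add, at_mul, at_pr,
        S.ck_zero, S.cy_zero, S.cx_zero]
    have h1 := homotopy' Y
    rw [hYd, K_zero, zero_add, hY1, hY0] at h1
    have h2 : Q (z' + (3 * (u' ^ 2 * k') + 3 * (u' * e' * k' ^ 2) + e' ^ 2 * k' ^ 3)) =
        Q 0 := by
      refine eq_quot S.φ S.hφ.map (u := -Form.K Y) (Basic.neg (basic_K hYb)) ?_
      have h3 : ((z' + (3 * (u' ^ 2 * k') + 3 * (u' * e' * k' ^ 2) +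
          e' ^ 2 * k' ^ 3) : Bas S.φ S.hφ.map) : Form dB) =
          Form.pull S.pi S.hpi (S.zU κU) + (3 * (Form.pull S.pi S.hpi (S.uU κU) ^ 2 * S.kB κU) +
          3 * (Form.pull S.pi S.hpi (S.uU κU) * S.e * S.kB κU ^ 2) +
          S.e ^ 2 * S.kB κU ^ 3) := rfl
      have h4 : ((0 : Bas S.φ S.hφ.map) : Form dB) = 0 := rfl
      rw [h3, h4, hpu, hpz, zz_form hX0e S.e_sg hKUe hY0e hk1, ← hkg, Form.d_neg, ← h1]
      abel
    rw [map_zero, map_add, map_add, map_add, map_mul, map_mul, map_mul, map_mul, map_mul,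
      map_mul, map_pow, map_pow, map_pow, map_pow, map_ofNat] at h2
    exact h2
  have hfin := lev_rel r1 r2 r3 r4 r5 r6
  rw [← map_Wp, ← map_Rp] at hfin
  obtain ⟨m, hm, hm'⟩ := quot_eq S.φ S.hφ.map hfin
  have e1 : ((Wp a μ e' u' k' z' : Bas S.φ S.hφ.map) : Form dB) =
      Wp a μ S.e (Form.pull S.pi S.hpi (S.uU κU)) (S.kB κU)
        (Form.pull S.pi S.hpi (S.zU κU)) := map_Wp (Bas S.φ S.hφ.map).val a μ e' u' k' z'
  have e2 : ((Rp a μ e' u' : Bas S.φ S.hφ.map) : Form dB) =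
      Rp a μ S.e (Form.pull S.pi S.hpi (S.uU κU)) := map_Rp (Bas S.φ S.hφ.map).val a μ e' u'
  have e3 : Form.pull S.pi S.hpi (Wp a μ S.eU S.xU κU S.yU) = Wp a μ S.e X0 KU Y0 := by
    have h := map_Wp (Form.pullA S.pi S.hpi) a μ S.eU S.xU κU S.yU
    have h5 : Form.pullA S.pi S.hpi S.eU = S.e := S.pi_eU
    rw [h5] at h
    exact h
  have e4 : Form.pull S.pi S.hpi (Rp a μ S.eU (S.uU κU)) =
      Rp a μ S.e (Form.pull S.pi S.hpi (S.uU κU)) := by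
    have h := map_Rp (Form.pullA S.pi S.hpi) a μ S.eU (S.uU κU)
    have h5 : Form.pullA S.pi S.hpi S.eU = S.e := S.pi_eU
    rw [h5] at h
    exact h
  rw [e1, e2, ← e4, hpz, hpu] at hm'
  obtain ⟨m', hm1, hm2⟩ := S.K_tau a μ
  refine ⟨-(Wp a μ S.eU S.xU κU S.yU + Rp a μ S.eU (S.uU κU)), m' - m,
    Basic.neg (Basic.add (Wp_basic a μ S.eU_basic S.xU_basic hκb S.yU_basic)
      (Rp_basic a μ S.eU_basic hu3)), Basic.sub hm1 hm, ?_⟩
  rw [hm2, hkg, Wp_add_form hX0e S.e_sg hKUe hY0e hk1, hm', pull_neg, pull_add, e3,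
    Form.d_sub]
  abel

end Main

end Sys

end Vale.Agent.P231.H584
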