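import Vale.Agent.P231.H584.Kap
import Vale.Agent.P231.H584.Int

/-!
# P231, stage 3: the fibre integral of `τ` of the doubled contraction

`P (K τ_{4D}) = (ε k / 2) • plin (255/64 A) (4095/1024 C) e u + d (basic)`.
-/

set_option linter.unusedSectionVars false
set_option linter.unusedVariables false

open MeasureTheory Set Module Filter Topology
open scoped ContDiff Real

namespace Vale.Agent.P231.H584

open Fm W
open Fm.Form (IsDeg part isDeg_part part_add part_smul part_succ_d)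

section Alg

variable {R R' : Type*} [Ring R] [Algebra ℝ R] [Ring R'] [Algebra ℝ R']

/-- the potential of `P(e, x) x'` -/
noncomputable def Up (A C : ℝ) (e x K : R) : R :=
  (A / 2) • (e ^ 7 * (2 * (x * K) + e * K ^ 2)) + C • (e ^ 11 * K)

theorem map_Up (f : R →ₐ[ℝ] R') (A C : ℝ) (e x K : R) :
    f (Up A C e x K) = Up A C (f e) (f x) (f K) := by
  simp only [Up, map_add, map_mul, map_pow, map_smul, map_ofNat]

theorem Up_zero (A C : ℝ) (e x : R) : Up A C e x 0 = 0 := by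
  simp [Up]

theorem Up_add {R : Type*} [CommRing R] [Algebra ℝ R] (A C : ℝ) (e x K k : R) :
    Up A C e x (K + k) = Up A C e x K + Up A C e (x + e * K) k := by
  simp only [Up, Algebra.smul_def]
  ring

theorem Up_expand {R : Type*} [CommRing R] [Algebra ℝ R] (A C : ℝ) (e u k : R) :
    Up A C e u k = k * (A • (e ^ 7 * u) + C • e ^ 11) + k ^ 2 * ((A / 2) • e ^ 8) := by
  obtain ⟨t, ht⟩ : ∃ t : R, t = algebraMap ℝ R (A / 2) := ⟨_, rfl⟩
  have h1 : algebraMap ℝ R A = 2 * t := by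
    rw [ht, ← map_ofNat (algebraMap ℝ R) 2, ← map_mul]
    congr 1
    ring
  simp only [Up, Algebra.smul_def, h1, ← ht]
  ring

end Alg

section Forms

variable {X : Type*} {D : Dif X} {x e K v k u : Form D} (hxe : x.sg = x) (hee : e.sg = e)
  (hKe : K.sg = K)
include hee

theorem Up_expand_form (A C : ℝ) (hue : u.sg = u) (hke : k.sg = k) :
    Up A C e u k = k * plin A C e u + k ^ 2 * ((A / 2) • e ^ 8) := by
  have h := congrArg (EvA D).val (Up_expand A C (⟨e, hee⟩ : EvA D) ⟨u, hue⟩ ⟨k, hke⟩)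
  rw [map_Up] at h
  simp only [map_add, map_mul, map_smul, map_pow] at h
  exact h

include hxe hKe

theorem Up_add_form (A C : ℝ) (hke : k.sg = k) :
    Up A C e x (K + k) = Up A C e x K + Up A C e (x + e * K) k := by
  have h := congrArg (EvA D).val (Up_add A C (⟨e, hee⟩ : EvA D) ⟨x, hxe⟩ ⟨K, hKe⟩ ⟨k, hke⟩)
  rw [map_add, map_Up, map_Up, map_Up] at h
  exact h

/-- `Up` is a potential of `P(e, x) x'` -/
theorem Up_d (A C : ℝ) (hxd : x.d = -(e * v)) (hed : e.d = 0) (hKd : K.d = v) :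
    (Up A C e x K).d = plin A C e x * v := by
  have h5 : IsD v 0 (⟨x, hxe⟩ : EvA D) (-⟨e, hee⟩) 0 := by
    change x.d = -e * v + 0 * 0
    rw [hxd, zero_mul, add_zero, neg_mul]
  have h6 : IsD v 0 (⟨e, hee⟩ : EvA D) 0 0 := by
    change e.d = 0 * v + 0 * 0
    rw [hed, zero_mul, zero_mul, add_zero]
  have h7 : IsD v 0 (⟨K, hKe⟩ : EvA D) 1 0 := by
    change K.d = 1 * v + 0 * 0
    rw [hKd, one_mul, zero_mul, add_zero]
  have f2 := ((IsD.natCast 2).mul (h5.mul h7)).add (h6.mul (h7.mul h7))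
  have g2 := f2.congr (b := 2 * ((⟨x, hxe⟩ : EvA D) * ⟨K, hKe⟩) + ⟨e, hee⟩ * ⟨K, hKe⟩ ^ 2)
    (A' := 2 * ⟨x, hxe⟩) (B' := 0) (by push_cast; ring) (by push_cast; ring)
    (by push_cast; ring)
  have g3 : (2 * (x * K) + e * K ^ 2).d = 2 * x * v + 0 * 0 := g2
  have c2 : (2 : Form D) = (2 : ℝ) • 1 := by
    rw [← Algebra.algebraMap_eq_smul_one, map_ofNat]
  rw [mul_zero, add_zero] at g3
  have g4 : (e ^ 7 * (2 * (x * K) + e * K ^ 2)).d = (2 : ℝ) • (e ^ 7 * x * v) := by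
    rw [Form.d_mul, pow_closed hed, zero_mul, zero_add, pow_even hee, g3, c2, smul_mul_assoc,
      one_mul, smul_mul_assoc, mul_smul_comm, mul_assoc]
  have g5 : (e ^ 11 * K).d = e ^ 11 * v := by
    rw [Form.d_mul, pow_closed hed, zero_mul, zero_add, pow_even hee, hKd]
  rw [Up, Form.d_add, Form.d_smul, g4, Form.d_smul, g5, smul_smul, plin_def, add_mul,
    smul_mul_assoc, smul_mul_assoc]
  congr 2
  ring

end Forms

section BasA

variable {X : Type*} {D : Dif X} {Φ : X × ℝ → X} {hΦ : (D.prod (Dif.lin ℝ)).Map D Φ}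

theorem Up_basic (A C : ℝ) {e x K : Form D} (he : Basic Φ hΦ e) (hx : Basic Φ hΦ x)
    (hK : Basic Φ hΦ K) : Basic Φ hΦ (Up A C e x K) := by
  have h := map_Up (BasA Φ hΦ).val A C ⟨e, he⟩ ⟨x, hx⟩ ⟨K, hK⟩
  have h1 : Up A C e x K = (BasA Φ hΦ).val (Up A C ⟨e, he⟩ ⟨x, hx⟩ ⟨K, hK⟩) := h.symm
  rw [h1]
  exact (Up A C (⟨e, he⟩ : BasA Φ hΦ) ⟨x, hx⟩ ⟨K, hK⟩).2

theorem plin_basic (A C : ℝ) {e x : Form D} (he : Basic Φ hΦ e) (hx : Basic Φ hΦ x) :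
    Basic Φ hΦ (plin A C e x) := by
  rw [plin_def]
  exact Basic.add (Basic.smul _ (Basic.mul (Basic.pow he 7) hx)) (Basic.smul _ (Basic.pow he 11))

end BasA

namespace Sys

variable {B U M : Type*} {dB : Dif B} {dU : Dif U} {dM : Dif M} {D c : ℝ}
  (S : Sys dB dU dM 1 D c)

/-- the integral of `P(e, x) x'` -/
theorem K_plin (A C : ℝ) : ∃ m : Form dB, Basic S.φ S.hφ.map m ∧
    Form.K (plin A C (pr S.e) S.cx * S.cv) =
      -Up A C S.e (Form.pull S.pi S.hpi S.xU) S.kg + m.d := by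
  have h1 : plin A C (pr S.e) S.cx * S.cv = (Up A C (pr S.e) S.cx S.ck).d :=
    (Up_d S.cx_sg (by rw [← pr_sg, S.e_sg]) S.ck_sg A C S.cx_d
      (by rw [← pr_d, S.e_d, pr_zero]) S.ck_d).symm
  have hb : Basic (cflow S.φ) (map_cflow S.hφ.map) (Up A C (pr S.e) S.cx S.ck) :=
    Up_basic A C (Basic.pr S.e_basic) S.cx_basic S.ck_basic
  have h2 := homotopy' (Up A C (pr S.e) S.cx S.ck)
  have h3 : ∀ s, at_ s (Up A C (pr S.e) S.cx S.ck) =
      Up A C S.e (at_ s S.cx) (at_ s S.ck) := fun s => by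
    have h4 := map_Up (Form.pullA (fun x : B => (x, s)) (Form.map_slice (D := dB) s)) A C
      (pr S.e) S.cx S.ck
    have h5 : Form.pullA (fun x : B => (x, s)) (Form.map_slice (D := dB) s) (pr S.e) = S.e :=
      at_pr s S.e
    rw [h5] at h4
    exact h4
  rw [h3, h3, S.ck_one, Up_zero, S.cx_zero, S.ck_zero, ← h1] at h2
  refine ⟨-Form.K (Up A C (pr S.e) S.cx S.ck), Basic.neg (basic_K hb), ?_⟩
  rw [Form.d_neg]
  have h4 := h2.symm
  rw [zero_sub] at h4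
  rw [← h4]
  abel

variable {S} (hP : S.PP)
include hP

theorem P_at_D {w : Form dU} (hw : Basic S.φU S.hφU.map w) :
    Form.pull (fun v => S.φU (v, D)) (map_at S.hφU.map D) w = w := by
  have h4 : Form.pull S.φU S.hφU.map w = pr w := hw
  rw [← at_pull_of S.hφU.map D, h4, at_pr]

theorem eq_zero_of_neg {X : Type*} {D' : Dif X} {w : Form D'} (h : w = -w) : w = 0 := by
  have h2 : (2 : ℝ) • w = 0 := by
    rw [two_smul]
    nth_rw 2 [h]
    exact add_neg_cancel w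
  have h3 := congrArg (fun z => (2⁻¹ : ℝ) • z) h2
  simpa [smul_smul] using h3

/-- `P` kills the basic forms pulled back from `U` -/
theorem P_pi {w : Form dU} (hw : Basic S.φU S.hφU.map w) :
    S.P (Form.pull S.pi S.hpi w) = 0 := by
  have hb : Basic S.φ S.hφ.map (Form.pull S.pi S.hpi w) :=
    Basic.pull S.hφ.map S.hφU.map S.hpi S.hpφ hw
  have h1 := hP.σ (Form.pull S.pi S.hpi w)
  have hm : dU.Map dU (fun v => S.φU (v, D)) := map_at S.hφU.map D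
  have h2 : Form.pull S.σ S.hσ (Form.pull S.pi S.hpi w) = Form.pull S.pi S.hpi w := by
    have h3 : Form.pull S.σ S.hσ (Form.pull S.pi S.hpi w) =
        Form.pull S.pi S.hpi (Form.pull (fun v => S.φU (v, D)) hm w) := by
      rw [pull_pull S.hpi hm (fun {E} _ _ _ {u x} hu => hm (S.hpi hu)) (fun b => rfl),
        pull_pull S.hσ S.hpi (fun {E} _ _ _ {u x} hu => hm (S.hpi hu)) (fun b => S.hσπ b)]
    rw [h3, P_at_D hP hw]
  rw [h2, P_at_D hP (hP.bas _ hb)] at h1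
  exact eq_zero_of_neg hP h1

theorem P_b1_sq : S.P (S.b1 ^ 2) = 0 := by
  have h1 := hP.σ (S.b1 ^ 2)
  have h2 : Form.pull S.σ S.hσ (S.b1 ^ 2) = S.b1 ^ 2 := by
    rw [pull_pow, S.σb1, neg_sq]
  rw [h2, P_at_D hP (hP.bas _ (Basic.pow S.b1_basic 2))] at h1
  exact eq_zero_of_neg hP h1

variable (hFd : IsDeg 8 S.F) {κU : Form dU} (hκe : κU.sg = κU)
  (hκb : Basic S.φU S.hφU.map κU) (hκd : κU.d = S.vU)
  (hκ : Eqv S.hφ.map (S.kB κU) ((1 / 2 : ℝ) • S.b1)) {ε : ℝ} {l : Form dB}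
  (hl : S.b1 = ε • S.b0 + l.d)
include hFd hκe hκb hκd hκ hl

/-- **the fibre integral of `P(e, x) x'`** -/
theorem P_plin (A C : ℝ) : ∃ m : Form dU, Basic S.φU S.hφU.map m ∧
    S.P (Form.K (plin A C (pr S.e) S.cx * S.cv)) =
      -((ε * S.k / 2) • plin A C S.eU (S.uU κU)) + m.d := by
  obtain ⟨hu1, hu2, hu3⟩ := S.uU_good hκe hκb hκd
  obtain ⟨hk1, hk2, hk3⟩ := S.kB_good hκe hκb hκd
  obtain ⟨m0, hm0, hK⟩ := S.K_plin A C
  obtain ⟨m1, hm1, hk⟩ := hκ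
  have hPe : ∀ {w : Form dU}, w.sg = w → (Form.pull S.pi S.hpi w).sg =
      Form.pull S.pi S.hpi w := fun hw => by rw [← Form.pull_sg, hw]
  -- `kB² = b₁² / 4` up to exact forms
  have hksq : ∃ m2 : Form dB, Basic S.φ S.hφ.map m2 ∧
      S.kB κU ^ 2 = (1 / 4 : ℝ) • S.b1 ^ 2 + m2.d := by
    let b' : Bas S.φ S.hφ.map := ⟨S.b1, S.b1_sg, S.b1_d, S.b1_basic⟩
    let k' : Bas S.φ S.hφ.map := ⟨S.kB κU, hk1, hk2, hk3⟩
    have h1 : Ideal.Quotient.mkₐ ℝ (Exa S.φ S.hφ.map) k' =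
        Ideal.Quotient.mkₐ ℝ (Exa S.φ S.hφ.map) ((1 / 2 : ℝ) • b') :=
      eq_quot S.φ S.hφ.map hm1 hk
    have h2 : Ideal.Quotient.mkₐ ℝ (Exa S.φ S.hφ.map) (k' ^ 2) =
        Ideal.Quotient.mkₐ ℝ (Exa S.φ S.hφ.map) ((1 / 4 : ℝ) • b' ^ 2) := by
      rw [map_pow, h1, ← map_pow, _root_.smul_pow]
      norm_num
    exact quot_eq S.φ S.hφ.map h2
  obtain ⟨m2, hm2, hk2'⟩ := hksq
  set KU := Form.pull S.pi S.hpi κU with hKU
  have hkg : S.kg = KU + S.kB κU := by rw [kB]; abel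
  have hpu : Form.pull S.pi S.hpi (S.uU κU) = Form.pull S.pi S.hpi S.xU + S.e * KU := by
    rw [uU, pull_add, pull_mul, S.pi_eU]
  have e3 : Form.pull S.pi S.hpi (Up A C S.eU S.xU κU) =
      Up A C S.e (Form.pull S.pi S.hpi S.xU) KU := by
    have h := map_Up (Form.pullA S.pi S.hpi) A C S.eU S.xU κU
    have h5 : Form.pullA S.pi S.hpi S.eU = S.e := S.pi_eU
    rw [h5] at h
    exact h
  have e4 : Form.pull S.pi S.hpi (plin A C S.eU (S.uU κU)) =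
      plin A C S.e (Form.pull S.pi S.hpi (S.uU κU)) := by
    rw [pull_plin, S.pi_eU]
  have e5 : Form.pull S.pi S.hpi ((A / 2) • S.eU ^ 8) = (A / 2) • S.e ^ 8 := by
    rw [pull_smul, pull_pow, S.pi_eU]
  have h1 : Up A C S.e (Form.pull S.pi S.hpi S.xU) S.kg =
      Form.pull S.pi S.hpi (Up A C S.eU S.xU κU) +
        (S.kB κU * Form.pull S.pi S.hpi (plin A C S.eU (S.uU κU)) +
          S.kB κU ^ 2 * Form.pull S.pi S.hpi ((A / 2) • S.eU ^ 8)) := by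
    rw [hkg, Up_add_form (hPe S.xU_sg) S.e_sg (hPe hκe) A C hk1, e3, ← hpu, e4, e5,
      Up_expand_form S.e_sg A C (hPe hu1) hk1]
  have h2 : S.P (S.kB κU) = (ε * S.k / 2) • 1 + (S.P m1).d := by
    rw [hk, map_add, map_smul, P_b1 hP hFd hl, smul_smul, S.hPd]
    congr 2
    ring
  have h3 : S.P (S.kB κU ^ 2) = (S.P m2).d := by
    rw [hk2', map_add, map_smul, P_b1_sq hP, smul_zero, zero_add, S.hPd]
  have hpl : (plin A C S.eU (S.uU κU)).d = 0 := by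
    rw [plin_def, Form.d_add, Form.d_smul, Form.d_smul, pow_closed S.eU_d,
      mul_closed (pow_closed S.eU_d 7) hu2, smul_zero, smul_zero, add_zero]
  have he8 : ((A / 2) • S.eU ^ 8).d = 0 := by
    rw [Form.d_smul, pow_closed S.eU_d, smul_zero]
  refine ⟨S.P m0 - (S.P m1 * plin A C S.eU (S.uU κU) + S.P m2 * ((A / 2) • S.eU ^ 8)),
    Basic.sub (hP.bas _ hm0) (Basic.add (Basic.mul (hP.bas _ hm1)
      (plin_basic A C S.eU_basic hu3)) (Basic.mul (hP.bas _ hm2)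
      (Basic.smul _ (Basic.pow S.eU_basic 8)))), ?_⟩
  rw [hK, map_add, map_neg, h1, map_add, map_add,
    P_pi hP (Up_basic A C S.eU_basic S.xU_basic hκb), zero_add, S.hPm, S.hPm, h2, h3, S.hPd,
    add_mul, smul_mul_assoc, one_mul, ← d_mul_closed _ hpl, ← d_mul_closed _ he8, Form.d_sub,
    Form.d_add]
  abel

/-- **the fibre integral of `τ` of the doubled contraction** -/
theorem lev2_aux (A C : ℝ) {w : Form dU} {m : Form dB} (hw : Basic S.φU S.hφU.map w)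
    (hm : Basic S.φ S.hφ.map m)
    (hlev : Form.K (tau A C (cflow S.φ) (map_cflow S.hφ.map) (2 * D) (pr S.αB) S.Gc) =
      Form.pull S.pi S.hpi w + m.d) :
    (∃ m' : Form dU, Basic S.φU S.hφU.map m' ∧
      S.P (Form.K (tau A C (cflow S.φ) (map_cflow S.hφ.map) (2 * D) (pr S.αB) S.Gc)) = m'.d) ∧
    ∃ m' : Form dU, Basic S.φU S.hφU.map m' ∧
      S.P (Form.K (tau A C (cflow S.φ) (map_cflow S.hφ.map) (2 * (2 * D)) (pr S.αB) S.Gc)) =
        (ε * S.k / 2) • plin (255 / 64 * A) (4095 / 1024 * C) S.eU (S.uU κU) + m'.d := by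
  have h1 : S.P (Form.K (tau A C (cflow S.φ) (map_cflow S.hφ.map) (2 * D) (pr S.αB) S.Gc)) =
      (S.P m).d := by
    rw [hlev, map_add, P_pi hP hw, zero_add, S.hPd]
  refine ⟨⟨S.P m, hP.bas _ hm, h1⟩, ?_⟩
  have h2 := tau_double (isFlow_cflow S.hφ) (α := pr S.αB) A C S.T2 S.Gc_good.1 S.Gc_good.2.1
  obtain ⟨m2, hm2, hp⟩ := P_plin hP hFd hκe hκb hκd hκ hl (255 / 64 * A) (4095 / 1024 * C)
  refine ⟨(4 : ℝ) • S.P m - m2, Basic.sub (Basic.smul _ (hP.bas _ hm)) hm2, ?_⟩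
  have h3 : plin (255 / 64 * A) (4095 / 1024 * C) ((2 * D)⁻¹ • (pr S.αB).d)
      (xc (cflow S.φ) (map_cflow S.hφ.map) (2 * D) (pr S.αB) S.Gc) *
      xp (cflow S.φ) (map_cflow S.hφ.map) (2 * D) S.Gc =
      plin (255 / 64 * A) (4095 / 1024 * C) (pr S.e) S.cx * S.cv := by
    rw [S.ce_eq]
    rfl
  rw [h2, h3, K_sub, map_sub, Form.K_smul, map_smul, h1, hp, Form.d_sub, Form.d_smul]
  abel

omit hP hFd hl in
include hκ in
/-- `2 u = G₁ + G₂` on `B` -/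
theorem u_rel : Eqv S.hφ.map (Form.pull S.pi S.hpi (S.uU κU))
    ((1 / 2 : ℝ) • (S.G1 + S.G2)) := by
  obtain ⟨hu1, hu2, hu3⟩ := S.uU_good hκe hκb hκd
  obtain ⟨hk1, hk2, hk3⟩ := S.kB_good hκe hκb hκd
  have hPe : ∀ {w : Form dU}, w.sg = w → (Form.pull S.pi S.hpi w).sg =
      Form.pull S.pi S.hpi w := fun hw => by rw [← Form.pull_sg, hw]
  obtain ⟨m1, hm1, hk⟩ := hκ
  obtain ⟨m2, hm2, hg1⟩ := S.gysin1
  set KU := Form.pull S.pi S.hpi κU with hKU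
  have hkg : S.kg = KU + S.kB κU := by rw [kB]; abel
  have hpu : Form.pull S.pi S.hpi (S.uU κU) = Form.pull S.pi S.hpi S.xU + S.e * KU := by
    rw [uU, pull_add, pull_mul, S.pi_eU]
  have hg := gauge S.cx_sg (e := pr S.e) (by rw [← pr_sg, S.e_sg]) S.ck_sg S.cy_sg S.cx_d
      (by rw [← pr_d, S.e_d, pr_zero]) (τ := 0) (by rw [S.ck_d, sub_zero]) S.cy_d
  have h1 := homotopy' (S.cx + pr S.e * S.ck)
  rw [hg.1, mul_zero, neg_zero, K_zero, zero_add, at_add, at_add, at_mul, at_mul, at_pr,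
    at_pr, S.ck_one, S.cx_one, S.cx_zero, S.ck_zero, mul_zero, add_zero] at h1
  have hm3 : Basic S.φ S.hφ.map (Form.K (S.cx + pr S.e * S.ck)) :=
    basic_K (Basic.add S.cx_basic (Basic.mul (Basic.pr S.e_basic) S.ck_basic))
  set m3 := Form.K (S.cx + pr S.e * S.ck) with hm3'
  -- `G1 = u + e kB + d m3`, `kB = b1 / 2 + d m1`, `G1 - G2 = e b1 + d m2`
  have e1 : S.G1 = Form.pull S.pi S.hpi (S.uU κU) + S.e * S.kB κU + m3.d := by
    have h2 : m3.d = S.G1 - (Form.pull S.pi S.hpi S.xU + S.e * S.kg) := h1.symm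
    rw [h2, hpu, hkg, mul_add]
    abel
  have e2 : S.e * m1.d = (S.e * m1).d := by
    rw [Form.d_mul, S.e_d, zero_mul, zero_add, S.e_sg]
  refine ⟨(1 / 2 : ℝ) • m2 - m3 - S.e * m1, Basic.sub (Basic.sub (Basic.smul _ hm2) hm3)
    (Basic.mul S.e_basic hm1), ?_⟩
  have e3 : Form.pull S.pi S.hpi (S.uU κU) = S.G1 - S.e * S.kB κU - m3.d := by
    rw [e1]
    abel
  have e4 : S.G2 = S.G1 - S.e * S.b1 - m2.d := by
    have h2 : S.G1 = S.G2 + (S.e * S.b1 + m2.d) := by rw [← hg1]; abel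
    rw [h2]
    abel
  rw [e3, hk, mul_add, e2, Form.d_sub, Form.d_sub, Form.d_smul, mul_smul_comm, e4]
  module

omit hκe hκb hκd hκ in
/-- **the second level**: all the data of the first level, and the fibre integrals -/
theorem lev2 {a μ : ℝ} {ρ : Form dB} (hρ : Basic S.φ S.hφ.map ρ)
    (hrel : S.b1 ^ 2 = a • S.e ^ 6 + μ • (S.e ^ 2 * (S.G1 + S.G2)) + ρ.d)
    (H0 : ∀ w : Form dB, IsDeg 0 w → w.d = 0 → ∃ r : ℝ, w = r • 1)
    (H2 : ∀ w : Form dB, IsDeg 2 w → w.d = 0 → ∃ κ : Form dB, w = κ.d)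
    (H4 : ∀ w : Form dB, IsDeg 4 w → w.d = 0 → ∃ κ : Form dB, w = κ.d)
    (H6 : ∀ w : Form dB, IsDeg 6 w → w.d = 0 → ∃ (r : ℝ) (κ : Form dB), w = r • S.b0 + κ.d)
    (HU1 : ∀ w : Form dU, IsDeg 1 w → w.d = 0 → ∃ κ : Form dU, w = κ.d)
    (HU3 : ∀ w : Form dU, IsDeg 3 w → w.d = 0 → ∃ κ : Form dU, w = κ.d)
    (HU5 : ∀ w : Form dU, IsDeg 5 w → w.d = 0 → ∃ κ : Form dU, w = κ.d)
    (HU7 : ∀ w : Form dU, IsDeg 7 w → w.d = 0 → ∃ κ : Form dU, w = κ.d) (hε : ε ≠ 0)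
    {N : ℕ} (hαN : S.α.d ^ (N + 1) = 0) (hV : S.I (S.α * S.α.d ^ N) ≠ 0) :
    ∃ κU : Form dU, κU.sg = κU ∧ Basic S.φU S.hφU.map κU ∧ κU.d = S.vU ∧
      Eqv S.hφ.map (S.kB κU) ((1 / 2 : ℝ) • S.b1) ∧
      (S.uU κU).sg = S.uU κU ∧ (S.uU κU).d = 0 ∧ Basic S.φU S.hφU.map (S.uU κU) ∧
      Eqv S.hφ.map (Form.pull S.pi S.hpi (S.uU κU)) ((1 / 2 : ℝ) • (S.G1 + S.G2)) ∧
      (∃ m : Form dU, Basic S.φU S.hφU.map m ∧ S.P (Form.K (tau (a / 2 - μ ^ 2 / 6)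
        (-(μ * a / 12)) (cflow S.φ) (map_cflow S.hφ.map) (2 * D) (pr S.αB) S.Gc)) = m.d) ∧
      ∃ m : Form dU, Basic S.φU S.hφU.map m ∧ S.P (Form.K (tau (a / 2 - μ ^ 2 / 6)
        (-(μ * a / 12)) (cflow S.φ) (map_cflow S.hφ.map) (2 * (2 * D)) (pr S.αB) S.Gc)) =
        (ε * S.k / 2) • plin (255 / 64 * (a / 2 - μ ^ 2 / 6)) (4095 / 1024 * (-(μ * a / 12)))
          S.eU (S.uU κU) + m.d := by
  obtain ⟨κU, h1, h2, h3, h4, w, m, hw, hm, h5⟩ := S.lev1 hFd hρ hrel H0 H2 H4 H6 HU1 HU3 HU5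
    HU7 hε hl hαN hV
  obtain ⟨hu1, hu2, hu3⟩ := S.uU_good h1 h2 h3
  obtain ⟨h6, h7⟩ := lev2_aux hP hFd h1 h2 h3 h4 hl _ _ hw hm h5
  exact ⟨κU, h1, h2, h3, h4, hu1, hu2, hu3, u_rel h1 h2 h3 h4, h6, h7⟩

end Sys

end Vale.Agent.P231.H584
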