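import Vale.Agent.P231.H584.Flow

/-!
# P231, block A, part 3: the formal theorem
-/

set_option linter.unusedSectionVars false
set_option linter.unusedVariables false

open MeasureTheory Set Module Filter Topology
open scoped ContDiff

namespace Vale.Agent.P231.H584

open Fm W

variable {X Y Z : Type*} {D : Dif X} {D' : Dif Y} {D'' : Dif Z}

/-! ### small facts on even and closed forms -/

theorem even_comm {a : Form D} (ha : a.sg = a) (b : Form D) : Commute a b :=
  Form.mul_comm_of_even ha b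

theorem d_even {b : Form D} (hb : b.sg = -b) : b.d.sg = b.d := by
  have h := Form.d_sg b
  rw [hb, Form.d_neg] at h
  exact (neg_injective h).symm

theorem mul_even {a b : Form D} (ha : a.sg = a) (hb : b.sg = b) : (a * b).sg = a * b := by
  rw [Form.sg_mul, ha, hb]

theorem pow_even {a : Form D} (ha : a.sg = a) (n : ℕ) : (a ^ n).sg = a ^ n := by
  rw [Form.sg_pow, ha]

theorem sum_sg {ι : Type*} (s : Finset ι) (f : ι → Form D) :
    (∑ i ∈ s, f i).sg = ∑ i ∈ s, (f i).sg := by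
  classical
  induction s using Finset.induction_on with
  | empty => simp
  | insert i s hi ih => rw [Finset.sum_insert hi, Finset.sum_insert hi, Form.sg_add, ih]

theorem sum_d {ι : Type*} (s : Finset ι) (f : ι → Form D) :
    (∑ i ∈ s, f i).d = ∑ i ∈ s, (f i).d := by
  classical
  induction s using Finset.induction_on with
  | empty => simp
  | insert i s hi ih => rw [Finset.sum_insert hi, Finset.sum_insert hi, Form.d_add, ih]

theorem mul_closed {a b : Form D} (ha : a.d = 0) (hb : b.d = 0) : (a * b).d = 0 := by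
  rw [Form.d_mul, ha, hb, zero_mul, mul_zero, add_zero]

theorem pow_closed {a : Form D} (ha : a.d = 0) (n : ℕ) : (a ^ n).d = 0 := by
  induction n with
  | zero => rw [pow_zero, Form.d_one]
  | succ n ih => rw [pow_succ]; exact mul_closed ih ha

theorem hh_even {a b : Form D} (ha : a.sg = a) (hb : b.sg = b) (n : ℕ) :
    (hh n a b).sg = hh n a b := by
  rw [hh, sum_sg]
  exact Finset.sum_congr rfl fun i _ => mul_even (pow_even ha _) (pow_even hb _)

theorem hh_closed {a b : Form D} (ha : a.d = 0) (hb : b.d = 0) (n : ℕ) : (hh n a b).d = 0 := by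
  rw [hh, sum_d]
  exact Finset.sum_eq_zero fun i _ => mul_closed (pow_closed ha _) (pow_closed hb _)

theorem g3_closed {a b c : Form D} (ha : a.d = 0) (hb : b.d = 0) (hc : c.d = 0) (n : ℕ) :
    (g3 a b c n).d = 0 := by
  induction n with
  | zero => exact Form.d_zero
  | succ n ih => rw [g3, Form.d_add, mul_closed ha ih, hh_closed hb hc, add_zero]

theorem d_mul_closed (a : Form D) {b : Form D} (hb : b.d = 0) : (a * b).d = a.d * b := by
  rw [Form.d_mul, hb, mul_zero, add_zero]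

theorem pull_hh {f : X → Y} (hf : D.Map D' f) (n : ℕ) (a b : Form D') :
    Form.pull f hf (hh n a b) = hh n (Form.pull f hf a) (Form.pull f hf b) := by
  rw [hh, hh]
  have h := map_sum (Form.pullA f hf) (fun i => a ^ i * b ^ (n - i)) (Finset.range (n + 1))
  refine h.trans ?_
  refine Finset.sum_congr rfl fun i _ => ?_
  rw [map_mul, map_pow, map_pow]
  rfl

/-! ### paths of closed even forms -/

/-- `b` is a primitive of `F₁ - F₀` with `b h_n(F₀, F₁)` exact -/
structure Pth (n : ℕ) (F₀ F₁ b : Form D) : Prop where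
  d₀ : F₀.d = 0
  d₁ : F₁.d = 0
  e₀ : F₀.sg = F₀
  e₁ : F₁.sg = F₁
  o : b.sg = -b
  db : b.d = F₁ - F₀
  ex : ∃ m : Form D, b * hh n F₀ F₁ = m.d

theorem Pth.symm {n : ℕ} {F₀ F₁ b : Form D} (h : Pth n F₀ F₁ b) : Pth n F₁ F₀ (-b) where
  d₀ := h.d₁
  d₁ := h.d₀
  e₀ := h.e₁
  e₁ := h.e₀
  o := by rw [Form.sg_neg, h.o]
  db := by rw [Form.d_neg, h.db, neg_sub]
  ex := by
    obtain ⟨m, hm⟩ := h.ex
    exact ⟨-m, by rw [Form.d_neg, ← hm, hh_symm (even_comm h.e₁ _), neg_mul]⟩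

theorem Pth.trans {n : ℕ} {F₀ F₁ F₂ b₁ b₂ : Form D} (h₁ : Pth n F₀ F₁ b₁)
    (h₂ : Pth n F₁ F₂ b₂) : Pth n F₀ F₂ (b₁ + b₂) where
  d₀ := h₁.d₀
  d₁ := h₂.d₁
  e₀ := h₁.e₀
  e₁ := h₂.e₁
  o := by rw [Form.sg_add, h₁.o, h₂.o, neg_add]
  db := by rw [Form.d_add, h₁.db, h₂.db]; abel
  ex := by
    obtain ⟨m₁, hm₁⟩ := h₁.ex
    obtain ⟨m₂, hm₂⟩ := h₂.ex
    have c01 : Commute F₀ F₁ := even_comm h₁.e₀ _
    have c02 : Commute F₀ F₂ := even_comm h₁.e₀ _
    have c12 : Commute F₁ F₂ := even_comm h₂.e₀ _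
    have e1 := hh_sub_right c01 c02 c12 n
    have e2 := hh_sub_left (c := F₂) c01 n
    refine ⟨m₁ + m₂ - b₁ * b₂ * g3 F₀ F₁ F₂ n, ?_⟩
    rw [Form.d_sub, Form.d_add, ← hm₁, ← hm₂, d_mul_closed _ (g3_closed h₁.d₀ h₁.d₁ h₂.d₁ n),
      Form.d_mul, h₁.o, h₁.db, h₂.db]
    have e3 : (F₁ - F₀) * b₂ = b₂ * (F₁ - F₀) :=
      (even_comm (by rw [Form.sg_sub, h₁.e₁, h₁.e₀]) _).eq
    rw [e3]
    have e4 : hh n F₀ F₂ = hh n F₀ F₁ + (F₂ - F₁) * g3 F₀ F₁ F₂ n := by rw [← e1]; abel
    have e5 : hh n F₀ F₂ = hh n F₁ F₂ + (F₀ - F₁) * g3 F₀ F₁ F₂ n := by rw [← e2]; abel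
    have e6 : b₁ * hh n F₀ F₂ = b₁ * (hh n F₀ F₁ + (F₂ - F₁) * g3 F₀ F₁ F₂ n) := by rw [← e4]
    have e7 : b₂ * hh n F₀ F₂ = b₂ * (hh n F₁ F₂ + (F₀ - F₁) * g3 F₀ F₁ F₂ n) := by rw [← e5]
    rw [add_mul, e6, e7]
    noncomm_ring

theorem Pth.pull {n : ℕ} {F₀ F₁ b : Form D'} (h : Pth n F₀ F₁ b) {f : X → Y}
    (hf : D.Map D' f) : Pth n (Form.pull f hf F₀) (Form.pull f hf F₁) (Form.pull f hf b) where
  d₀ := by
    rw [← Form.pull_d, h.d₀]
    exact map_zero (Form.pullA f hf)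
  d₁ := by
    rw [← Form.pull_d, h.d₁]
    exact map_zero (Form.pullA f hf)
  e₀ := by rw [← Form.pull_sg, h.e₀]
  e₁ := by rw [← Form.pull_sg, h.e₁]
  o := by
    rw [← Form.pull_sg, h.o]
    exact map_neg (Form.pullA f hf) b
  db := by
    rw [← Form.pull_d, h.db]
    exact map_sub (Form.pullA f hf) F₁ F₀
  ex := by
    obtain ⟨m, hm⟩ := h.ex
    refine ⟨Form.pull f hf m, ?_⟩
    rw [← Form.pull_d, ← hm, ← pull_hh]
    exact (map_mul (Form.pullA f hf) _ _).symm

/-- a homotopy gives a path -/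
theorem Pth.of_cyl {n : ℕ} (c : ℝ) {w : Form (D.prod (Dif.lin ℝ))} (hd : w.d = 0)
    (he : w.sg = w) (hn : w ^ (n + 1) = 0) : Pth n (at_ 0 w) (at_ c w) (KT c w) where
  d₀ := by rw [← at_d, hd, at_zero]
  d₁ := by rw [← at_d, hd, at_zero]
  e₀ := by rw [← at_sg, he]
  e₁ := by rw [← at_sg, he]
  o := by rw [KT_sg, he]
  db := by
    have h := KT_homotopy c w
    rw [hd, KT_zero, zero_add] at h
    exact h.symm
  ex := by
    have hdp : w.d = pr (0 : Form D) := by rw [hd, pr_zero]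
    have h1 : (Pm w).d = w - pr (at_ 0 w) := Pm_d hdp
    have he0 : (pr (at_ 0 w)).sg = pr (at_ 0 w) := by rw [← pr_sg, ← at_sg, he]
    have hd0 : (pr (at_ 0 w)).d = 0 := by rw [← pr_d, ← at_d, hd, at_zero, pr_zero]
    have hn0 : (pr (at_ 0 w)) ^ (n + 1) = 0 := by rw [← pr_pow, ← at_pow, hn, at_zero, pr_zero]
    have h2 : (Pm w * hh n (pr (at_ 0 w)) w).d = 0 := by
      rw [d_mul_closed _ (hh_closed hd0 hd n), h1, ← neg_sub, neg_mul,
        sub_mul_hh (even_comm he0 _), hn, hn0, sub_zero, neg_zero]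
    have h3 := KT_homotopy c (Pm w * hh n (pr (at_ 0 w)) w)
    have h4 : ∀ s, at_ s (hh n (pr (at_ 0 w)) w) = hh n (at_ 0 w) (at_ s w) := fun s => by
      rw [at_, pull_hh]
      change hh n (at_ s (pr (at_ 0 w))) (at_ s w) = _
      rw [at_pr]
    rw [h2, KT_zero, zero_add, at_mul, at_mul, Pm_zero, zero_mul, sub_zero, Pm_at, h4] at h3
    exact ⟨_, h3⟩

/-! ### integration against a contact type form -/

section Contact

variable {T : ℝ} {Φ : X × ℝ → X} (h : IsFlow D T Φ) {α : Form D}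
  {I : Form D →ₗ[ℝ] ℝ}

theorem basic_d_contact (hα : Form.pull Φ h.map α = pr α + dt) : Basic Φ h.map α.d := by
  rw [basic_def, Form.pull_d, hα, Form.d_add, dt_d, add_zero, pr_d]

theorem J_contact (hα : Form.pull Φ h.map α = pr α + dt) : J Φ h.map T α = T • 1 := by
  rw [J_def, hα, KT_add, KT_pr, zero_add, KT_dt]

/-- the averaging formula -/
theorem avg (hα : Form.pull Φ h.map α = pr α + dt) (hαo : α.sg = -α)
    (hI : ∀ w : Form D, I w.d = 0) (hIb : ∀ w, Basic Φ h.map w → I w = 0) {τ : Form D}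
    (hτ : Basic Φ h.map τ.d) : T * I τ = I (α * J Φ h.map T τ) := by
  have hW : (Form.pull Φ h.map τ).d = pr τ.d := by rw [← Form.pull_d, hτ]
  have h1 := Pm_d hW
  rw [flow_at_zero h] at h1
  have h2 : Form.pull Φ h.map τ = pr τ + (Pm (Form.pull Φ h.map τ)).d := by rw [h1]; abel
  set P := Pm (Form.pull Φ h.map τ) with hP
  have h3 : (dt * P).d = -(dt * P.d) := by
    rw [Form.d_mul, dt_d, zero_mul, zero_add, dt_sg, neg_mul]
  have h4 := KT_homotopy T (dt * P)
  rw [at_mul, at_mul, at_dt, at_dt, zero_mul, zero_mul, sub_zero, h3, KT_neg] at h4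
  have h5 : KT T (dt * P.d) = (KT T (dt * P)).d := by
    have := eq_neg_of_add_eq_zero_left h4.symm
    exact neg_injective this
  have h6 : KT T (dt * Form.pull Φ h.map τ) = T • τ + (KT T (dt * P)).d := by
    rw [h2, mul_add, KT_add, KT_dt_mul_pr, h5]
  have h7 : (dt : Form (D.prod (Dif.lin ℝ))) = Form.pull Φ h.map α - pr α := by
    rw [hα]; abel
  have h8 : KT T (dt * Form.pull Φ h.map τ) = J Φ h.map T (α * τ) + α * J Φ h.map T τ := by
    have h9 : Form.pull Φ h.map α * Form.pull Φ h.map τ = Form.pull Φ h.map (α * τ) :=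
      (map_mul (Form.pullA Φ h.map) α τ).symm
    rw [h7, sub_mul, KT_sub, h9, KT_pr_mul, hαo, neg_mul, sub_neg_eq_add]
    rfl
  have h10 := congrArg I (h6.symm.trans h8)
  rw [map_add, map_add, map_smul, hI, add_zero, hIb _ (J_basic h _), zero_add] at h10
  exact h10

/-- the volume of a connection type form -/
theorem contact_volume (hT : T ≠ 0) (hα : Form.pull Φ h.map α = pr α + dt) (hαo : α.sg = -α)
    (hI : ∀ w : Form D, I w.d = 0) (hIb : ∀ w, Basic Φ h.map w → I w = 0) {b : Form D} {k : ℝ}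
    (hbo : b.sg = -b) (hb : Basic Φ h.map b.d) (hJ : J Φ h.map T b = k • 1) (N : ℕ) :
    I (b * b.d ^ N) = (k / T) ^ (N + 1) * I (α * α.d ^ N) := by
  have hαd := basic_d_contact h hα
  have key : ∀ i j, i + j = N → I (b * (b.d ^ i * α.d ^ j)) =
      k / T * I (α * (b.d ^ i * α.d ^ j)) := by
    intro i j _
    have hB : Basic Φ h.map (b.d ^ i * α.d ^ j) := Basic.mul (Basic.pow hb i) (Basic.pow hαd j)
    have hτ : Basic Φ h.map (b * (b.d ^ i * α.d ^ j)).d := by
      rw [d_mul_closed _ (mul_closed (pow_closed (Form.d_d _) i) (pow_closed (Form.d_d _) j))]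
      exact Basic.mul hb hB
    have h1 := avg h hα hαo hI hIb hτ
    rw [J_mul_basic _ _ hB, hJ, smul_mul_assoc, one_mul, mul_smul_comm, map_smul,
      smul_eq_mul] at h1
    field_simp
    linarith
  have step : ∀ i j, i + j + 1 = N → I (α * (b.d ^ (i + 1) * α.d ^ j)) =
      k / T * I (α * (b.d ^ i * α.d ^ (j + 1))) := by
    intro i j hij
    rw [← key i (j + 1) (by omega)]
    have hcl : (b.d ^ i * α.d ^ j).d = 0 :=
      mul_closed (pow_closed (Form.d_d _) i) (pow_closed (Form.d_d _) j)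
    have h1 := hI (α * b * (b.d ^ i * α.d ^ j))
    rw [d_mul_closed _ hcl, Form.d_mul, hαo, add_mul, map_add] at h1
    have c1 : Commute α.d b := even_comm (d_even hαo) _
    have c2 : Commute α.d (b.d ^ i) := even_comm (d_even hαo) _
    have e1 : α.d * b * (b.d ^ i * α.d ^ j) = b * (b.d ^ i * α.d ^ (j + 1)) := by
      rw [c1.eq, mul_assoc, ← mul_assoc α.d, c2.eq, mul_assoc, ← pow_succ']
    have e2 : -α * b.d * (b.d ^ i * α.d ^ j) = -(α * (b.d ^ (i + 1) * α.d ^ j)) := by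
      rw [neg_mul, neg_mul, mul_assoc, ← mul_assoc b.d, ← pow_succ']
    rw [e1, e2, map_neg] at h1
    linarith
  have main : ∀ i j, i + j = N → I (α * (b.d ^ i * α.d ^ j)) =
      (k / T) ^ i * I (α * α.d ^ N) := by
    intro i
    induction i with
    | zero =>
      intro j hj
      rw [zero_add] at hj
      rw [pow_zero, one_mul, pow_zero, one_mul, hj]
    | succ i ih =>
      intro j hj
      rw [step i j (by omega), ih (j + 1) (by omega), pow_succ']
      ring
  have h1 := key N 0 (by omega)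
  have h2 := main N 0 (by omega)
  rw [pow_zero, mul_one] at h1 h2
  rw [h1, h2, pow_succ']
  ring

end Contact

end Vale.Agent.P231.H584
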