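import Vale.Agent.P231.H584.Side

/-!
# P231, stage 3: the model map `Λ(e, x, x', y, y') → basic forms`

For a flow `Φ` of period `T` on `X` and a closed even form `G` with `G ^ (n + 1) = 0` (pulled back
from `M` by a map `c`; the loops are `t ↦ c (Φ (x, t))`) we construct basic forms
`x' = J G`, `y'` with `d x' = 0`, `d y' = -(n + 1) x^n x'`, and, after the choice of a connection
form `α`, `x = J (θ G)`, `y` with `d x = - e x'`, `d y = x^(n+1) - e y'` (`θ = α / T`, `e = dθ`).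
The closed basic form `t₂ = x' y'` is the class which detects the second level.
-/

set_option linter.unusedSectionVars false
set_option linter.unusedVariables false

open MeasureTheory Set Module Filter Topology
open scoped ContDiff Real

namespace Vale.Agent.P231.H584

open Fm W

section Def

variable {X : Type*} {D : Dif X}

/-- the primitive of `G - (average of G)` -/
noncomputable def lam (Φ : X × ℝ → X) (hΦ : (D.prod (Dif.lin ℝ)).Map D Φ) (T : ℝ) (G : Form D) :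
    Form D := -(T⁻¹ • KT T (dt * Pm (Form.pull Φ hΦ G)))

/-- the average of `G` -/
noncomputable def Gh (Φ : X × ℝ → X) (hΦ : (D.prod (Dif.lin ℝ)).Map D Φ) (T : ℝ) (G : Form D) :
    Form D := G - (lam Φ hΦ T G).d

/-- the primitive of `Gh ^ (n + 1)` -/
noncomputable def y0 (n : ℕ) (Φ : X × ℝ → X) (hΦ : (D.prod (Dif.lin ℝ)).Map D Φ) (T : ℝ)
    (G : Form D) : Form D := -(lam Φ hΦ T G * hh n G (Gh Φ hΦ T G))

/-- the form `x'` -/
noncomputable def xp (Φ : X × ℝ → X) (hΦ : (D.prod (Dif.lin ℝ)).Map D Φ) (T : ℝ) (G : Form D) :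
    Form D := J Φ hΦ T G

/-- the form `y'` -/
noncomputable def yp (n : ℕ) (Φ : X × ℝ → X) (hΦ : (D.prod (Dif.lin ℝ)).Map D Φ) (T : ℝ)
    (G : Form D) : Form D := J Φ hΦ T (y0 n Φ hΦ T G)

/-- the form `t₂ = x' y'` -/
noncomputable def t2 (n : ℕ) (Φ : X × ℝ → X) (hΦ : (D.prod (Dif.lin ℝ)).Map D Φ) (T : ℝ)
    (G : Form D) : Form D := xp Φ hΦ T G * yp n Φ hΦ T G

/-- the form `x` -/
noncomputable def xc (Φ : X × ℝ → X) (hΦ : (D.prod (Dif.lin ℝ)).Map D Φ) (T : ℝ) (α G : Form D) :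
    Form D := J Φ hΦ T ((T⁻¹ • α) * G)

/-- the form `y` -/
noncomputable def yc (n : ℕ) (Φ : X × ℝ → X) (hΦ : (D.prod (Dif.lin ℝ)).Map D Φ) (T : ℝ)
    (α G : Form D) : Form D := J Φ hΦ T ((T⁻¹ • α) * y0 n Φ hΦ T G)

theorem lam_def (Φ : X × ℝ → X) (hΦ : (D.prod (Dif.lin ℝ)).Map D Φ) (T : ℝ) (G : Form D) :
    lam Φ hΦ T G = -(T⁻¹ • KT T (dt * Pm (Form.pull Φ hΦ G))) := rfl

theorem Gh_def (Φ : X × ℝ → X) (hΦ : (D.prod (Dif.lin ℝ)).Map D Φ) (T : ℝ) (G : Form D) :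
    Gh Φ hΦ T G = G - (lam Φ hΦ T G).d := rfl

theorem y0_def (n : ℕ) (Φ : X × ℝ → X) (hΦ : (D.prod (Dif.lin ℝ)).Map D Φ) (T : ℝ)
    (G : Form D) : y0 n Φ hΦ T G = -(lam Φ hΦ T G * hh n G (Gh Φ hΦ T G)) := rfl

theorem xp_def (Φ : X × ℝ → X) (hΦ : (D.prod (Dif.lin ℝ)).Map D Φ) (T : ℝ) (G : Form D) :
    xp Φ hΦ T G = J Φ hΦ T G := rfl

theorem yp_def (n : ℕ) (Φ : X × ℝ → X) (hΦ : (D.prod (Dif.lin ℝ)).Map D Φ) (T : ℝ)
    (G : Form D) : yp n Φ hΦ T G = J Φ hΦ T (y0 n Φ hΦ T G) := rfl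

theorem t2_def (n : ℕ) (Φ : X × ℝ → X) (hΦ : (D.prod (Dif.lin ℝ)).Map D Φ) (T : ℝ)
    (G : Form D) : t2 n Φ hΦ T G = xp Φ hΦ T G * yp n Φ hΦ T G := rfl

theorem xc_def (Φ : X × ℝ → X) (hΦ : (D.prod (Dif.lin ℝ)).Map D Φ) (T : ℝ) (α G : Form D) :
    xc Φ hΦ T α G = J Φ hΦ T ((T⁻¹ • α) * G) := rfl

theorem yc_def (n : ℕ) (Φ : X × ℝ → X) (hΦ : (D.prod (Dif.lin ℝ)).Map D Φ) (T : ℝ)
    (α G : Form D) : yc n Φ hΦ T α G = J Φ hΦ T ((T⁻¹ • α) * y0 n Φ hΦ T G) := rfl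

theorem odd_mul_self {w : Form D} (hw : w.sg = -w) : w * w = 0 := by
  have h := Form.mul_of_odd hw w
  rw [hw, neg_mul] at h
  have h2 : (2 : ℝ) • (w * w) = 0 := by
    rw [two_smul]
    nth_rewrite 1 [h]
    exact neg_add_cancel _
  have h3 := congrArg (fun z => (2 : ℝ)⁻¹ • z) h2
  simpa [smul_smul] using h3

theorem odd_comm {w v : Form D} (hw : w.sg = -w) (hv : v.sg = -v) : w * v = -(v * w) := by
  rw [Form.mul_of_odd hw, hv, neg_mul]

theorem J_sg {Φ : X × ℝ → X} (hΦ : (D.prod (Dif.lin ℝ)).Map D Φ) (c : ℝ) (w : Form D) :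
    (J Φ hΦ c w).sg = -J Φ hΦ c w.sg := by
  rw [J_def, KT_sg, ← Form.pull_sg, J_def]

theorem J_odd_of_even {Φ : X × ℝ → X} (hΦ : (D.prod (Dif.lin ℝ)).Map D Φ) (c : ℝ) {w : Form D}
    (hw : w.sg = w) : (J Φ hΦ c w).sg = -J Φ hΦ c w := by rw [J_sg, hw]

theorem J_even_of_odd {Φ : X × ℝ → X} (hΦ : (D.prod (Dif.lin ℝ)).Map D Φ) (c : ℝ) {w : Form D}
    (hw : w.sg = -w) : (J Φ hΦ c w).sg = J Φ hΦ c w := by rw [J_sg, hw, J_neg, neg_neg]

theorem J_basic_mul {Φ : X × ℝ → X} {hΦ : (D.prod (Dif.lin ℝ)).Map D Φ} (c : ℝ) {b : Form D}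
    (hb : Basic Φ hΦ b) (w : Form D) : J Φ hΦ c (b * w) = b.sg * J Φ hΦ c w := by
  rw [J_def, J_def, ← KT_pr_mul]
  congr 1
  rw [← hb]
  exact map_mul (Form.pullA Φ hΦ) b w

theorem Pm_sg (w : Form (D.prod (Dif.lin ℝ))) : (Pm w).sg = -Pm w.sg := by
  rw [Pm, K_sg, ← Form.pull_sg, Pm]

end Def

section Gysin

variable {X : Type*} {D : Dif X} {T : ℝ} {Φ : X × ℝ → X} (h : IsFlow D T Φ) {α : Form D}

/-- the averaging formula with an explicit primitive -/
theorem gysin' (hα : Form.pull Φ h.map α = pr α + dt) (hαo : α.sg = -α) {τ : Form D}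
    (hτ : Basic Φ h.map τ.d) : T • τ + (KT T (dt * Pm (Form.pull Φ h.map τ))).d =
      J Φ h.map T (α * τ) + α * J Φ h.map T τ := by
  have hW : (Form.pull Φ h.map τ).d = pr τ.d := by rw [← Form.pull_d, hτ]
  have h1 := Pm_d hW
  rw [flow_at_zero h] at h1
  have h2 : Form.pull Φ h.map τ = pr τ + (Pm (Form.pull Φ h.map τ)).d := by rw [h1]; abel
  set P := Pm (Form.pull Φ h.map τ) with hP
  have h3 : (dt * P).d = -(dt * P.d) := by
    rw [Form.d_mul, dt_d, zero_mul, zero_add, dt_sg, neg_mul]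
  have h4 := KT_homotopy T (dt * P)
  rw [at_mul, at_mul, at_dt, at_dt, zero_mul, zero_mul, sub_zero, h3, KT_neg] at h4
  have h5 : KT T (dt * P.d) = (KT T (dt * P)).d := by
    have := eq_neg_of_add_eq_zero_left h4.symm
    exact neg_injective this
  have h6 : KT T (dt * Form.pull Φ h.map τ) = T • τ + (KT T (dt * P)).d := by
    rw [h2, mul_add, KT_add, KT_dt_mul_pr, h5]
  have h7 : (dt : Form (D.prod (Dif.lin ℝ))) = Form.pull Φ h.map α - pr α := by
    rw [hα]; abel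
  have h8 : KT T (dt * Form.pull Φ h.map τ) = J Φ h.map T (α * τ) + α * J Φ h.map T τ := by
    have h9 : Form.pull Φ h.map α * Form.pull Φ h.map τ = Form.pull Φ h.map (α * τ) :=
      (map_mul (Form.pullA Φ h.map) α τ).symm
    rw [h7, sub_mul, KT_sub, h9, KT_pr_mul, hαo, neg_mul, sub_neg_eq_add]
    rfl
  rw [← h6, h8]

end Gysin

/-! ### the model map -/

section Model

variable {X : Type*} {D : Dif X} {T : ℝ} {Φ : X × ℝ → X} (h : IsFlow D T Φ) {α : Form D}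
  {n : ℕ} {G : Form D}

theorem lam_sg (hGe : G.sg = G) : (lam Φ h.map T G).sg = -lam Φ h.map T G := by
  rw [lam_def, Form.sg_neg, Form.sg_smul, KT_sg, Form.sg_mul, dt_sg, Pm_sg, ← Form.pull_sg, hGe,
    neg_mul_neg, smul_neg]

theorem Gh_sg (hGe : G.sg = G) : (Gh Φ h.map T G).sg = Gh Φ h.map T G := by
  rw [Gh_def, Form.sg_sub, hGe, d_even (lam_sg h hGe)]

theorem Gh_d (hG : G.d = 0) : (Gh Φ h.map T G).d = 0 := by
  rw [Gh_def, Form.d_sub, hG, Form.d_d, sub_zero]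

theorem Gh_eq (hT : T ≠ 0) (hα : Form.pull Φ h.map α = pr α + dt) (hαo : α.sg = -α)
    (hG : G.d = 0) : Gh Φ h.map T G = xc Φ h.map T α G + (T⁻¹ • α) * xp Φ h.map T G := by
  have h1 := gysin' h hα hαo (τ := G) (by rw [hG]; exact Basic.zero)
  have h2 : T⁻¹ • (T • G + (KT T (dt * Pm (Form.pull Φ h.map G))).d) =
      T⁻¹ • (J Φ h.map T (α * G) + α * J Φ h.map T G) := by rw [h1]
  rw [smul_add, smul_smul, inv_mul_cancel₀ hT, one_smul, smul_add] at h2
  rw [Gh_def, lam_def, Form.d_neg, Form.d_smul, sub_neg_eq_add, h2, xc_def, xp_def, smul_mul_assoc,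
    smul_mul_assoc, J_smul]

theorem xp_sg (hGe : G.sg = G) : (xp Φ h.map T G).sg = -xp Φ h.map T G :=
  J_odd_of_even h.map T hGe

theorem xp_basic : Basic Φ h.map (xp Φ h.map T G) := J_basic h G

theorem xp_d (hG : G.d = 0) : (xp Φ h.map T G).d = 0 := by
  have h1 := J_d h G
  rw [hG, J_of_basic T Basic.zero] at h1
  exact neg_eq_zero.1 h1.symm

theorem y0_sg (hGe : G.sg = G) : (y0 n Φ h.map T G).sg = -y0 n Φ h.map T G := by
  rw [y0_def, Form.sg_neg, Form.sg_mul, lam_sg h hGe, hh_even hGe (Gh_sg h hGe), neg_mul]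

theorem y0_d (hGe : G.sg = G) (hG : G.d = 0) (hGn : G ^ (n + 1) = 0) :
    (y0 n Φ h.map T G).d = Gh Φ h.map T G ^ (n + 1) := by
  rw [y0_def, Form.d_neg, d_mul_closed _ (hh_closed hG (Gh_d h hG) n)]
  have h1 : (lam Φ h.map T G).d = G - Gh Φ h.map T G := by rw [Gh_def]; abel
  rw [h1, sub_mul_hh (even_comm hGe _), hGn, zero_sub, neg_neg]

theorem yp_sg (hGe : G.sg = G) : (yp n Φ h.map T G).sg = yp n Φ h.map T G :=
  J_even_of_odd h.map T (y0_sg h hGe)

theorem yp_basic : Basic Φ h.map (yp n Φ h.map T G) := J_basic h _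

/-- powers of `x + θ x'` -/
theorem add_theta_pow {x θ v : Form D} (hx : x.sg = x) (hθ : θ.sg = -θ) (hv : v.sg = -v)
    (k : ℕ) : (x + θ * v) ^ (k + 1) = x ^ (k + 1) + ((k : ℝ) + 1) • (x ^ k * (θ * v)) := by
  have h0 : (θ * v) * (θ * v) = 0 := by
    have : (θ * v) * (θ * v) = θ * (v * θ) * v := by noncomm_ring
    rw [this, odd_comm hv hθ, mul_neg, ← mul_assoc, odd_mul_self hθ, zero_mul, neg_zero, zero_mul]
  have hcx : ∀ w, Commute x w := fun w => even_comm hx w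
  induction k with
  | zero => simp
  | succ k ih =>
    rw [pow_succ, ih, add_mul, mul_add, mul_add, smul_mul_assoc, smul_mul_assoc, mul_assoc _ _ x,
      ← (hcx (θ * v)).eq, mul_assoc (x ^ k) (θ * v) (θ * v), h0, mul_zero, smul_zero, add_zero,
      ← mul_assoc (x ^ k) x, ← pow_succ, ← pow_succ]
    push_cast
    module

theorem J_theta (hT : T ≠ 0) (hα : Form.pull Φ h.map α = pr α + dt) {b : Form D}
    (hb : Basic Φ h.map b) : J Φ h.map T ((T⁻¹ • α) * b) = b := by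
  rw [J_mul_basic T _ hb, J_smul, J_contact h hα, smul_smul, inv_mul_cancel₀ hT, one_smul,
    one_mul]

variable (hT : T ≠ 0) (hα : Form.pull Φ h.map α = pr α + dt) (hαo : α.sg = -α)
  (hGe : G.sg = G) (hG : G.d = 0) (hGn : G ^ (n + 1) = 0)
include hα hαo hGe

theorem xc_sg : (xc Φ h.map T α G).sg = xc Φ h.map T α G := by
  refine J_even_of_odd h.map T ?_
  rw [Form.sg_mul, Form.sg_smul, hαo, hGe, smul_neg, neg_mul]

theorem xc_basic : Basic Φ h.map (xc Φ h.map T α G) := J_basic h _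

include hT hG

theorem xc_d : (xc Φ h.map T α G).d = -((T⁻¹ • α.d) * xp Φ h.map T G) := by
  have h1 := congrArg Form.d (Gh_eq h hT hα hαo hG)
  rw [Gh_d h hG, Form.d_add, Form.d_mul, Form.d_smul, xp_d h hG, mul_zero, add_zero] at h1
  exact eq_neg_of_add_eq_zero_left h1.symm

theorem xc_closed_add : (xc Φ h.map T α G + (T⁻¹ • α) * xp Φ h.map T G).d = 0 := by
  rw [← Gh_eq h hT hα hαo hG, Gh_d h hG]

include hGn

theorem yp_d : (yp n Φ h.map T G).d =
    -(((n : ℝ) + 1) • (xc Φ h.map T α G ^ n * xp Φ h.map T G)) := by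
  have hθo : (T⁻¹ • α).sg = -(T⁻¹ • α) := by rw [Form.sg_smul, hαo, smul_neg]
  have h1 := J_d h (y0 n Φ h.map T G)
  have hxb := xc_basic h (α := α) (G := G) hα hαo hGe
  rw [y0_d h hGe hG hGn, Gh_eq h hT hα hαo hG,
    add_theta_pow (xc_sg h hα hαo hGe) hθo (xp_sg h hGe), J_add, J_smul,
    J_of_basic T (Basic.pow hxb _), zero_add] at h1
  have h2 : J Φ h.map T (xc Φ h.map T α G ^ n * ((T⁻¹ • α) * xp Φ h.map T G)) =
      xc Φ h.map T α G ^ n * xp Φ h.map T G := by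
    rw [J_basic_mul T (Basic.pow hxb _), pow_even (xc_sg h hα hαo hGe),
      J_theta h hT hα (xp_basic h)]
  rw [h2] at h1
  rw [yp_def, ← neg_neg (J Φ h.map T (y0 n Φ h.map T G)).d, ← h1]

theorem yc_d : (yc n Φ h.map T α G).d =
    xc Φ h.map T α G ^ (n + 1) - (T⁻¹ • α.d) * yp n Φ h.map T G := by
  have hθo : (T⁻¹ • α).sg = -(T⁻¹ • α) := by rw [Form.sg_smul, hαo, smul_neg]
  have hxb := xc_basic h (α := α) (G := G) hα hαo hGe
  have hxe := xc_sg h (α := α) (G := G) hα hαo hGe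
  have heb : Basic Φ h.map (T⁻¹ • α.d) := Basic.smul _ (basic_d_contact h hα)
  have hee : (T⁻¹ • α.d).sg = T⁻¹ • α.d := by rw [Form.sg_smul, d_even hαo]
  have h1 := J_d h ((T⁻¹ • α) * y0 n Φ h.map T G)
  rw [Form.d_mul, hθo, Form.d_smul, y0_d h hGe hG hGn, Gh_eq h hT hα hαo hG,
    add_theta_pow hxe hθo (xp_sg h hGe), J_add, J_basic_mul T heb, hee] at h1
  have h2 : (T⁻¹ • α) * (xc Φ h.map T α G ^ (n + 1) +
      ((n : ℝ) + 1) • (xc Φ h.map T α G ^ n * ((T⁻¹ • α) * xp Φ h.map T G))) =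
      (T⁻¹ • α) * xc Φ h.map T α G ^ (n + 1) := by
    have h3 : (T⁻¹ • α) * (xc Φ h.map T α G ^ n * ((T⁻¹ • α) * xp Φ h.map T G)) = 0 := by
      have hc : Commute (xc Φ h.map T α G ^ n) (T⁻¹ • α) := even_comm (pow_even hxe n) _
      rw [← mul_assoc, ← hc.eq, mul_assoc, ← mul_assoc (T⁻¹ • α), odd_mul_self hθo, zero_mul,
        mul_zero]
    rw [mul_add, mul_smul_comm, h3, smul_zero, add_zero]
  rw [neg_mul, h2, J_neg, J_theta h hT hα (Basic.pow hxb _)] at h1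
  rw [yc_def, ← neg_neg (J Φ h.map T ((T⁻¹ • α) * y0 n Φ h.map T G)).d, ← h1, ← yp_def]
  abel

theorem t2_d : (t2 n Φ h.map T G).d = 0 := by
  have hc : Commute (xc Φ h.map T α G ^ n) (xp Φ h.map T G) :=
    even_comm (pow_even (xc_sg h hα hαo hGe) n) _
  rw [t2_def, Form.d_mul, xp_d h hG, zero_mul, zero_add, xp_sg h hGe,
    yp_d h hT hα hαo hGe hG hGn, neg_mul_neg, mul_smul_comm, hc.eq, ← mul_assoc,
    odd_mul_self (xp_sg h hGe), zero_mul, smul_zero]

end Model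

section Basics

variable {X : Type*} {D : Dif X} {T : ℝ} {Φ : X × ℝ → X} (h : IsFlow D T Φ) {n : ℕ} {G : Form D}

theorem t2_basic : Basic Φ h.map (t2 n Φ h.map T G) := Basic.mul (J_basic h _) (J_basic h _)

theorem Pm_pr (b : Form D) : Pm (pr b) = 0 := by
  have h0 : Form.pull scal map_scal (pr b) = pr (pr b) := by
    rw [pr, pr]
    refine (pull_pull map_scal Dif.map_fst
      (Dif.map_fst.comp Dif.map_fst) (fun _ => rfl) b).trans ?_
    exact (pull_pull Dif.map_fst Dif.map_fst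
      (Dif.map_fst.comp Dif.map_fst) (fun _ => rfl) b).symm
  rw [Pm, h0, K_pr]

theorem lam_of_basic {hΦ : (D.prod (Dif.lin ℝ)).Map D Φ} (hG : Basic Φ hΦ G) :
    lam Φ hΦ T G = 0 := by
  have h1 : Form.pull Φ hΦ G = pr G := hG
  rw [lam_def, h1, Pm_pr, mul_zero, KT_zero, smul_zero, neg_zero]

theorem y0_of_basic {hΦ : (D.prod (Dif.lin ℝ)).Map D Φ} (hG : Basic Φ hΦ G) :
    y0 n Φ hΦ T G = 0 := by
  rw [y0_def, lam_of_basic hG, zero_mul, neg_zero]

theorem xp_of_basic {hΦ : (D.prod (Dif.lin ℝ)).Map D Φ} (hG : Basic Φ hΦ G) :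
    xp Φ hΦ T G = 0 := J_of_basic T hG

theorem yp_of_basic {hΦ : (D.prod (Dif.lin ℝ)).Map D Φ} (hG : Basic Φ hΦ G) :
    yp n Φ hΦ T G = 0 := by
  rw [yp_def, y0_of_basic hG]
  exact J_of_basic T Basic.zero

theorem t2_of_basic {hΦ : (D.prod (Dif.lin ℝ)).Map D Φ} (hG : Basic Φ hΦ G) :
    t2 n Φ hΦ T G = 0 := by rw [t2_def, xp_of_basic hG, zero_mul]

theorem xc_of_basic (hT : T ≠ 0) {α : Form D} (hα : Form.pull Φ h.map α = pr α + dt)
    (hG : Basic Φ h.map G) : xc Φ h.map T α G = G := J_theta h hT hα hG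

end Basics

/-! ### naturality -/

section Nat

variable {X Y : Type*} {D : Dif X} {D' : Dif Y} {φ : X × ℝ → X} {φ' : Y × ℝ → Y}
    (hφ : (D.prod (Dif.lin ℝ)).Map D φ) (hφ' : (D'.prod (Dif.lin ℝ)).Map D' φ') {f : X → Y}
    (hf : D.Map D' f)

theorem KT_nat (c : ℝ) (w : Form (D'.prod (Dif.lin ℝ))) : Form.pull f hf (KT c w) =
    KT c (Form.pull (fun p : X × ℝ => (f p.1, p.2)) (map_cyl hf) w) := by
  have h1 : (D.prod (Dif.lin ℝ)).Map (D'.prod (Dif.lin ℝ)) (fun p => (f p.1, c * p.2)) :=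
    fun {E} _ _ _ {u x} hh => map_scale c (map_cyl hf hh)
  rw [KT, KT, ← K_nat hf]
  congr 1
  rw [pull_pull (map_cyl hf) (map_scale c) h1 (fun p => rfl),
    pull_pull (map_scale c) (map_cyl hf) h1 (fun p => rfl)]

theorem Pm_nat (w : Form (D'.prod (Dif.lin ℝ))) :
    Form.pull (fun p : X × ℝ => (f p.1, p.2)) (map_cyl hf) (Pm w) =
      Pm (Form.pull (fun p : X × ℝ => (f p.1, p.2)) (map_cyl hf) w) := by
  have h1 : ((D.prod (Dif.lin ℝ)).prod (Dif.lin ℝ)).Map (D'.prod (Dif.lin ℝ))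
      (fun p => (f p.1.1, p.1.2 * p.2)) := fun {E} _ _ _ {u x} hh =>
    map_cyl hf (map_scal hh)
  rw [Pm, Pm, ← K_nat (map_cyl hf)]
  congr 1
  rw [pull_pull (map_cyl (map_cyl hf)) map_scal h1 (fun p => rfl),
    pull_pull map_scal (map_cyl hf) h1 (fun p => rfl)]

variable (hc : ∀ x t, f (φ (x, t)) = φ' (f x, t))
include hc

theorem flow_nat (G : Form D') : Form.pull (fun p : X × ℝ => (f p.1, p.2)) (map_cyl hf)
    (Form.pull φ' hφ' G) = Form.pull φ hφ (Form.pull f hf G) := by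
  have h3 : (D.prod (Dif.lin ℝ)).Map D' (fun p => φ' (f p.1, p.2)) :=
    fun {E} _ _ _ {u x} hh => hφ' (map_cyl hf hh)
  rw [pull_pull (map_cyl hf) hφ' h3 (fun p => rfl), pull_pull hφ hf h3 (fun p => hc _ _)]

theorem pull_lam (T : ℝ) (G : Form D') :
    Form.pull f hf (lam φ' hφ' T G) = lam φ hφ T (Form.pull f hf G) := by
  rw [lam_def, lam_def]
  have h1 : Form.pull f hf (-(T⁻¹ • KT T (dt * Pm (Form.pull φ' hφ' G)))) =
      -(T⁻¹ • Form.pull f hf (KT T (dt * Pm (Form.pull φ' hφ' G)))) := by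
    refine (map_neg (Form.pullA f hf) _).trans ?_
    rw [map_smul]
    rfl
  have h2 : Form.pull (fun p : X × ℝ => (f p.1, p.2)) (map_cyl hf)
      (dt * Pm (Form.pull φ' hφ' G)) = dt * Pm (Form.pull φ hφ (Form.pull f hf G)) := by
    refine (map_mul (Form.pullA _ (map_cyl hf)) _ _).trans ?_
    change Form.pull _ (map_cyl hf) dt * Form.pull _ (map_cyl hf) (Pm _) = _
    rw [pull_dt hf, Pm_nat hf, flow_nat hφ hφ' hf hc]
  have h3 := KT_nat hf T (dt * Pm (Form.pull φ' hφ' G))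
  rw [h1, h3, h2]

theorem pull_Gh (T : ℝ) (G : Form D') :
    Form.pull f hf (Gh φ' hφ' T G) = Gh φ hφ T (Form.pull f hf G) := by
  rw [Gh_def, Gh_def, ← pull_lam hφ hφ' hf hc, ← Form.pull_d]
  exact map_sub (Form.pullA f hf) _ _

theorem pull_y0 (n : ℕ) (T : ℝ) (G : Form D') :
    Form.pull f hf (y0 n φ' hφ' T G) = y0 n φ hφ T (Form.pull f hf G) := by
  rw [y0_def, y0_def, ← pull_lam hφ hφ' hf hc, ← pull_Gh hφ hφ' hf hc, ← pull_hh]
  refine (map_neg (Form.pullA f hf) _).trans ?_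
  rw [map_mul]
  rfl

theorem pull_xp (T : ℝ) (G : Form D') :
    Form.pull f hf (xp φ' hφ' T G) = xp φ hφ T (Form.pull f hf G) :=
  pull_J hφ hφ' hf hc T G

theorem pull_yp (n : ℕ) (T : ℝ) (G : Form D') :
    Form.pull f hf (yp n φ' hφ' T G) = yp n φ hφ T (Form.pull f hf G) := by
  rw [yp_def, yp_def, pull_J hφ hφ' hf hc, pull_y0 hφ hφ' hf hc]

theorem pull_t2 (n : ℕ) (T : ℝ) (G : Form D') :
    Form.pull f hf (t2 n φ' hφ' T G) = t2 n φ hφ T (Form.pull f hf G) := by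
  rw [t2_def, t2_def, ← pull_xp hφ hφ' hf hc, ← pull_yp hφ hφ' hf hc]
  exact map_mul (Form.pullA f hf) _ _

theorem pull_xc (T : ℝ) (α G : Form D') :
    Form.pull f hf (xc φ' hφ' T α G) = xc φ hφ T (Form.pull f hf α) (Form.pull f hf G) := by
  rw [xc_def, xc_def, pull_J hφ hφ' hf hc]
  congr 1
  refine (map_mul (Form.pullA f hf) _ _).trans ?_
  rw [map_smul]
  rfl

theorem pull_yc (n : ℕ) (T : ℝ) (α G : Form D') :
    Form.pull f hf (yc n φ' hφ' T α G) = yc n φ hφ T (Form.pull f hf α) (Form.pull f hf G) := by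
  rw [yc_def, yc_def, pull_J hφ hφ' hf hc, ← pull_y0 hφ hφ' hf hc]
  congr 1
  refine (map_mul (Form.pullA f hf) _ _).trans ?_
  rw [map_smul]
  rfl

end Nat

/-! ### homotopies -/

section Homotopy

variable {X : Type*} {D : Dif X} {Φ : X × ℝ → X}

/-- the flow on `X × ℝ`, constant in the second variable -/
def cflow (Φ : X × ℝ → X) (p : (X × ℝ) × ℝ) : X × ℝ := (Φ (p.1.1, p.2), p.1.2)

theorem map_cflow (hΦ : (D.prod (Dif.lin ℝ)).Map D Φ) :
    ((D.prod (Dif.lin ℝ)).prod (Dif.lin ℝ)).Map (D.prod (Dif.lin ℝ)) (cflow Φ) :=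
  fun {E} _ _ _ {u x} hh => ⟨hΦ (u := fun y => ((u y).1.1, (u y).2)) ⟨hh.1.1, hh.2⟩, hh.1.2⟩

theorem isFlow_cflow {T : ℝ} (h : IsFlow D T Φ) :
    IsFlow (D.prod (Dif.lin ℝ)) T (cflow Φ) where
  map := map_cflow h.map
  zero := fun p => by rw [cflow, h.zero]
  add := fun p s t => by simp only [cflow, h.add]
  per := fun p => by rw [cflow, h.per]

/-- exchange of the two time variables -/
def swp (p : (X × ℝ) × ℝ) : (X × ℝ) × ℝ := ((p.1.1, p.2), p.1.2)

theorem map_swp : ((D.prod (Dif.lin ℝ)).prod (Dif.lin ℝ)).Map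
    ((D.prod (Dif.lin ℝ)).prod (Dif.lin ℝ)) swp :=
  fun {E} _ _ _ {u x} hh => ⟨⟨hh.1.1, hh.2⟩, hh.1.2⟩

/-- `K` maps basic forms to basic forms -/
theorem basic_K {hΦ : (D.prod (Dif.lin ℝ)).Map D Φ} {w : Form (D.prod (Dif.lin ℝ))}
    (hw : Basic (cflow Φ) (map_cflow hΦ) w) : Basic Φ hΦ (Form.K w) := by
  have h1 : Form.pull (cflow Φ) (map_cflow hΦ) w = pr w := hw
  have h2 : Form.pull (fun p : (X × ℝ) × ℝ => (Φ p.1, p.2)) (map_cyl hΦ) w =
      Form.pull swp map_swp (Form.pull (cflow Φ) (map_cflow hΦ) w) :=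
    (pull_pull map_swp (map_cflow hΦ) (map_cyl hΦ) (fun p => rfl) w).symm
  have h3 : Form.pull swp map_swp (pr w) =
      Form.pull (fun p : (X × ℝ) × ℝ => (p.1.1, p.2)) (map_cyl Dif.map_fst) w :=
    pull_pull map_swp Dif.map_fst (map_cyl Dif.map_fst) (fun p => rfl) w
  rw [basic_def, ← K_nat hΦ, h2, h1, h3]
  exact K_nat Dif.map_fst w

variable {T : ℝ} (h : IsFlow D T Φ) {n : ℕ}

theorem at_xp (s : ℝ) (G : Form (D.prod (Dif.lin ℝ))) :
    at_ s (xp (cflow Φ) (map_cflow h.map) T G) = xp Φ h.map T (at_ s G) :=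
  pull_xp h.map (map_cflow h.map) (Form.map_slice s) (fun x t => rfl) T G

theorem at_yp (s : ℝ) (G : Form (D.prod (Dif.lin ℝ))) :
    at_ s (yp n (cflow Φ) (map_cflow h.map) T G) = yp n Φ h.map T (at_ s G) :=
  pull_yp h.map (map_cflow h.map) (Form.map_slice s) (fun x t => rfl) n T G

theorem at_t2 (s : ℝ) (G : Form (D.prod (Dif.lin ℝ))) :
    at_ s (t2 n (cflow Φ) (map_cflow h.map) T G) = t2 n Φ h.map T (at_ s G) :=
  pull_t2 h.map (map_cflow h.map) (Form.map_slice s) (fun x t => rfl) n T G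

/-- homotopy invariance of the class of `t₂` -/
theorem t2_homotopy (hT : T ≠ 0) {α : Form D} (hα : Form.pull Φ h.map α = pr α + dt)
    (hαo : α.sg = -α) {G : Form (D.prod (Dif.lin ℝ))} (hGe : G.sg = G) (hG : G.d = 0)
    (hGn : G ^ (n + 1) = 0) : ∃ u : Form D, Basic Φ h.map u ∧
      t2 n Φ h.map T (at_ 1 G) - t2 n Φ h.map T (at_ 0 G) = u.d := by
  have hc : Form.pull (cflow Φ) (map_cflow h.map) (pr α) = pr (pr α) + dt := by
    have h0 : ((D.prod (Dif.lin ℝ)).prod (Dif.lin ℝ)).Map (D.prod (Dif.lin ℝ))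
        (fun p => (p.1.1, p.2)) := map_cyl Dif.map_fst
    have h1 : Form.pull (cflow Φ) (map_cflow h.map) (pr α) =
        Form.pull (fun p : (X × ℝ) × ℝ => (p.1.1, p.2)) h0 (Form.pull Φ h.map α) :=
      (pull_pull (k := fun p : (X × ℝ) × ℝ => Φ (p.1.1, p.2)) (map_cflow h.map) Dif.map_fst
        (fun {E} _ _ _ {u x} hh => h.map (h0 hh)) (fun p => rfl) α).trans
        (pull_pull h0 h.map (fun {E} _ _ _ {u x} hh => h.map (h0 hh)) (fun p => rfl) α).symm
    rw [h1, hα]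
    refine (map_add (Form.pullA _ h0) (pr α) dt).trans ?_
    congr 1
    · exact pull_pr Dif.map_fst α
    · exact pull_dt Dif.map_fst
  have hαo' : (pr α).sg = -pr α := by
    rw [← pr_sg, hαo]
    exact map_neg (Form.pullA Prod.fst Dif.map_fst) α
  have h1 := t2_d (isFlow_cflow h) (n := n) hT hc hαo' hGe hG hGn
  have h2 := homotopy' (t2 n (cflow Φ) (isFlow_cflow h).map T G)
  rw [h1, K_zero, zero_add] at h2
  refine ⟨_, basic_K (t2_basic (isFlow_cflow h) (n := n) (G := G)), ?_⟩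
  rw [← at_t2 h, ← at_t2 h]
  exact h2

end Homotopy

/-! ### doubling -/

section Double

variable {X : Type*} {D : Dif X} {T : ℝ} {Φ : X × ℝ → X} (h : IsFlow D T Φ) {n : ℕ} {G : Form D}

include h in
/-- the same flow with the doubled period -/
theorem isFlow_double : IsFlow D (2 * T) Φ where
  map := h.map
  zero := h.zero
  add := h.add
  per := fun x => by rw [two_mul, ← h.add, h.per, h.per]

theorem J_double (w : Form D) : J Φ h.map (2 * T) w = (2 : ℝ) • J Φ h.map T w :=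
  Form.ext_val fun E _ _ _ u x hu => by
    rw [Form.smul_val, J_def, J_def, KT_val _ _ hu, KT_val _ _ hu]
    have hp := co_periodic (flow_periodic h w) hu
    have hc := continuous_co (Form.pull Φ h.map w) hu
    have h1 : ∫ t in (0 : ℝ)..(2 * T), co (Form.pull Φ h.map w) u x t =
        (∫ t in (0 : ℝ)..T, co (Form.pull Φ h.map w) u x t) +
        ∫ t in T..(T + T), co (Form.pull Φ h.map w) u x t := by
      rw [two_mul, intervalIntegral.integral_add_adjacent_intervals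
        (hc.intervalIntegrable _ _) (hc.intervalIntegrable _ _)]
    have h2 := hp.intervalIntegral_add_eq T 0
    rw [zero_add] at h2
    rw [h1, h2, two_smul]

theorem co_dt_mul {E : Type} [NormedAddCommGroup E] [NormedSpace ℝ E] [FiniteDimensional ℝ E]
    (w : Form (D.prod (Dif.lin ℝ))) {u : E → X} {x : E} (hu : D.At u x) (t : ℝ) :
    co (dt * w) u x t = (at_ t w).val u x := by
  rw [co, Form.mul_val, dt_val hu, at1_dtl_mul, at_, Form.slice_val _ _ hu]

theorem lam_double (hT : T ≠ 0) : lam Φ h.map (2 * T) G =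
    lam Φ h.map T G - (1 / 2 : ℝ) • xp Φ h.map T G :=
  Form.ext_val fun E _ _ _ u x hu => by
    have hp := co_periodic (flow_periodic h G) hu
    have hc := continuous_co (Form.pull Φ h.map G) hu
    set f := co (Form.pull Φ h.map G) u x with hf
    have hF : ∀ t, co (dt * Pm (Form.pull Φ h.map G)) u x t = ∫ s in (0 : ℝ)..t, f s := by
      intro t
      rw [co_dt_mul _ hu, Pm_at, KT_val _ _ hu]
    have hFc : Continuous fun t => ∫ s in (0 : ℝ)..t, f s :=
      intervalIntegral.continuous_primitive (fun a b => hc.intervalIntegrable a b) 0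
    rw [lam_def, lam_def, Form.sub_val, Form.neg_val, Form.neg_val, Form.smul_val,
      Form.smul_val, Form.smul_val, KT_val _ _ hu, KT_val _ _ hu, xp_def, J_def, KT_val _ _ hu]
    simp only [hF]
    rw [← hf]
    have h1 : ∫ t in (0 : ℝ)..(2 * T), ∫ s in (0 : ℝ)..t, f s =
        (∫ t in (0 : ℝ)..T, ∫ s in (0 : ℝ)..t, f s) +
        ∫ t in (0 : ℝ)..T, ∫ s in (0 : ℝ)..(t + T), f s := by
      have h2 := intervalIntegral.integral_comp_add_right
        (f := fun t => ∫ s in (0 : ℝ)..t, f s) (a := 0) (b := T) T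
      rw [h2, zero_add, ← two_mul, intervalIntegral.integral_add_adjacent_intervals
        (hFc.intervalIntegrable _ _) (hFc.intervalIntegrable _ _)]
    have h3 : ∀ t, ∫ s in (0 : ℝ)..(t + T), f s =
        (∫ s in (0 : ℝ)..t, f s) + ∫ s in (0 : ℝ)..T, f s := by
      intro t
      have h4 := hp.intervalIntegral_add_eq t 0
      rw [zero_add] at h4
      rw [← h4, intervalIntegral.integral_add_adjacent_intervals
        (hc.intervalIntegrable _ _) (hc.intervalIntegrable _ _)]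
    simp only [h3] at h1
    rw [intervalIntegral.integral_add (hFc.intervalIntegrable _ _)
      (continuous_const.intervalIntegrable _ _), intervalIntegral.integral_const, sub_zero] at h1
    rw [h1]
    set A := ∫ t in (0 : ℝ)..T, ∫ s in (0 : ℝ)..t, f s
    set B := ∫ s in (0 : ℝ)..T, f s
    have h5 : (2 * T)⁻¹ • (A + (A + T • B)) = T⁻¹ • A + (1 / 2 : ℝ) • B := by
      rw [mul_inv, ← add_assoc, ← two_smul ℝ A, smul_add, smul_smul, smul_smul]
      have e1 : (2 : ℝ)⁻¹ * T⁻¹ * 2 = T⁻¹ := by ring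
      have e2 : (2 : ℝ)⁻¹ * T⁻¹ * T = 1 / 2 := by field_simp
      rw [e1, e2]
    rw [h5]
    abel

theorem xp_double : xp Φ h.map (2 * T) G = (2 : ℝ) • xp Φ h.map T G := J_double h G

theorem Gh_double (hT : T ≠ 0) (hG : G.d = 0) : Gh Φ h.map (2 * T) G = Gh Φ h.map T G := by
  rw [Gh_def, Gh_def, lam_double h hT, Form.d_sub, Form.d_smul, xp_d h hG, smul_zero, sub_zero]

theorem y0_double (hT : T ≠ 0) (hG : G.d = 0) : y0 n Φ h.map (2 * T) G =
    y0 n Φ h.map T G + (1 / 2 : ℝ) • (xp Φ h.map T G * hh n G (Gh Φ h.map T G)) := by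
  rw [y0_def, y0_def, Gh_double h hT hG, lam_double h hT, sub_mul, smul_mul_assoc]
  abel

theorem yp_double (hT : T ≠ 0) (hG : G.d = 0) (hGe : G.sg = G) : yp n Φ h.map (2 * T) G =
    (2 : ℝ) • yp n Φ h.map T G -
      xp Φ h.map T G * J Φ h.map T (hh n G (Gh Φ h.map T G)) := by
  rw [yp_def, y0_double h hT hG, J_double h, J_add, J_smul, J_basic_mul T (xp_basic h),
    xp_sg h hGe, smul_add, smul_smul, yp_def]
  norm_num
  rw [sub_eq_add_neg]

/-- **doubling** -/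
theorem t2_double (hT : T ≠ 0) (hG : G.d = 0) (hGe : G.sg = G) : t2 n Φ h.map (2 * T) G =
    (4 : ℝ) • t2 n Φ h.map T G := by
  rw [t2_def, xp_double h, yp_double h hT hG hGe, mul_sub, smul_mul_assoc, smul_mul_assoc,
    mul_smul_comm, ← mul_assoc (xp Φ h.map T G) (xp Φ h.map T G), odd_mul_self (xp_sg h hGe),
    zero_mul, smul_zero, sub_zero, smul_smul, t2_def]
  norm_num

theorem xc_double (hT : T ≠ 0) (α : Form D) : xc Φ h.map (2 * T) α G = xc Φ h.map T α G := by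
  rw [xc_def, xc_def, J_double h, mul_inv, mul_smul, smul_mul_assoc, J_smul, smul_smul]
  norm_num

end Double

/-! ### change of the connection -/

section Conn

variable {X : Type*} {D : Dif X} {T : ℝ} {Φ : X × ℝ → X} (h : IsFlow D T Φ) {n : ℕ} {G : Form D}

theorem xc_add {α η : Form D} (hη : Basic Φ h.map η) (hηo : η.sg = -η) :
    xc Φ h.map T (α + η) G = xc Φ h.map T α G - (T⁻¹ • η) * xp Φ h.map T G := by
  rw [xc_def, smul_add, add_mul, J_add, J_basic_mul T (Basic.smul _ hη), Form.sg_smul, hηo,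
    smul_neg, neg_mul, xc_def, xp_def]
  abel

theorem yc_add {α η : Form D} (hη : Basic Φ h.map η) (hηo : η.sg = -η) :
    yc n Φ h.map T (α + η) G = yc n Φ h.map T α G - (T⁻¹ • η) * yp n Φ h.map T G := by
  rw [yc_def, smul_add, add_mul, J_add, J_basic_mul T (Basic.smul _ hη), Form.sg_smul, hηo,
    smul_neg, neg_mul, yc_def, yp_def]
  abel

end Conn

end Vale.Agent.P231.H584
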