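import Vale.Agent.P231.WN.Num

/-! # P231, stage 3 (`l = 7`): the numbers of the Cayley plane -/

set_option maxSynthPendingDepth 3

open MeasureTheory
open scoped ENNReal

namespace Vale.Agent.P231.H584

noncomputable section

theorem integral_sin_pow_cos7 {D : ℝ} (hD : 0 < D) :
    ∫ r in (0 : ℝ)..D, (2 * D / Real.pi * Real.sin (Real.pi * r / (2 * D))) ^ 15 *
      Real.cos (Real.pi * r / (2 * D)) ^ 7 = (2 * D / Real.pi) ^ 16 / 2640 := by
  have hpi := Real.pi_pos
  have key : ∀ r : ℝ, HasDerivAt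
      (fun r : ℝ => (2 * D / Real.pi) ^ 16 *
        (Real.sin (Real.pi * r / (2 * D)) ^ 16 / 16 -
          3 * (Real.sin (Real.pi * r / (2 * D)) ^ 18 / 18) +
          3 * (Real.sin (Real.pi * r / (2 * D)) ^ 20 / 20) -
          Real.sin (Real.pi * r / (2 * D)) ^ 22 / 22))
      ((2 * D / Real.pi * Real.sin (Real.pi * r / (2 * D))) ^ 15 *
        Real.cos (Real.pi * r / (2 * D)) ^ 7) r := by
    intro r
    have h1 : HasDerivAt (fun r : ℝ => Real.pi * r / (2 * D)) (Real.pi / (2 * D)) r := by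
      have := ((hasDerivAt_id r).const_mul Real.pi).div_const (2 * D)
      simpa using this
    have h2 := (h1.sin.pow 16).div_const (16 : ℝ)
    have h3 := ((h1.sin.pow 18).div_const (18 : ℝ)).const_mul 3
    have h5 := ((h1.sin.pow 20).div_const (20 : ℝ)).const_mul 3
    have h6 := (h1.sin.pow 22).div_const (22 : ℝ)
    have h4 := (((h2.sub h3).add h5).sub h6).const_mul ((2 * D / Real.pi) ^ 16)
    refine h4.congr_deriv ?_
    have e3 : Real.cos (Real.pi * r / (2 * D)) ^ 7 = Real.cos (Real.pi * r / (2 * D)) *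
        (1 - Real.sin (Real.pi * r / (2 * D)) ^ 2) ^ 3 := by
      rw [← Real.cos_sq']
      ring
    rw [e3]
    have e1 : (2 * D / Real.pi) ^ 16 * (Real.pi / (2 * D)) = (2 * D / Real.pi) ^ 15 := by
      rw [pow_succ]
      field_simp
    rw [mul_pow, ← e1]
    push_cast
    ring
  have hcont : Continuous (fun r : ℝ =>
      (2 * D / Real.pi * Real.sin (Real.pi * r / (2 * D))) ^ 15 *
        Real.cos (Real.pi * r / (2 * D)) ^ 7) := by fun_prop
  rw [intervalIntegral.integral_eq_sub_of_hasDerivAt (fun r _ => key r)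
    (hcont.intervalIntegrable _ _)]
  have h4 : Real.pi * D / (2 * D) = Real.pi / 2 := by field_simp
  rw [h4, Real.sin_pi_div_two]
  simp only [one_pow, mul_zero, zero_div, Real.sin_zero, ne_eq, OfNat.ofNat_ne_zero,
    not_false_eq_true, zero_pow, sub_zero, add_zero]
  norm_num
  ring

/-- **The number of the Cayley plane.** -/
theorem number7 {D : ℝ} (hD : 0 < D) :
    78 * (2 * D) ^ 16 / ((Nat.factorial 15 : ℝ) * (2 * √Real.pi ^ 16 / Real.Gamma (8 : ℕ))) =
      Blaschke.modelVolume 15 7 D := by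
  have hpi := Real.pi_pos
  unfold Blaschke.modelVolume
  rw [integral_sin_pow_cos7 hD]
  have h2 : (((15 : ℕ) : ℝ) + 1) / 2 = ((8 : ℕ) : ℝ) := by norm_num
  have hs : √Real.pi ^ (15 + 1) = Real.pi ^ 8 := by
    rw [show 15 + 1 = 2 * 8 by norm_num, pow_mul, Real.sq_sqrt hpi.le]
  have hg : Real.Gamma ((8 : ℕ) : ℝ) = 5040 := by
    have := Real.Gamma_nat_eq_factorial 7
    have e : ((8 : ℕ) : ℝ) = (7 : ℕ) + 1 := by norm_num
    rw [e, this]
    norm_num [Nat.factorial]
  have hf : ((Nat.factorial 15 : ℕ) : ℝ) = 1307674368000 := by norm_num [Nat.factorial]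
  rw [h2, hs, hg, hf, div_pow]
  have h7 : Real.pi ^ 16 = Real.pi ^ 8 * Real.pi ^ 8 := by ring
  rw [h7]
  have h8 : (0 : ℝ) < Real.pi ^ 8 := by positivity
  field_simp
  norm_num

end

end Vale.Agent.P231.H584
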