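import Vale.Agent.P231.H584.Side
import Vale.Agent.P231.WA.Deg

/-!
# P231, stages 2 and 3: the quadratic relation

For closed forms basic for a periodic flow with connection form `α`, modulo differentials of basic
forms, the cohomology of the total space determines the basic classes up to multiples of
`e = α.d / T`. For the class `b` of degree `m - 2` with `e b = G₁ - G₂` one gets
`b² = a e^(m-2) + μ e^(m/2-2) (G₁ + G₂)` if `m = 4, 8`.
-/

set_option linter.unusedSectionVars false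
set_option linter.unusedVariables false

open MeasureTheory Set Module Filter Topology
open scoped ContDiff Real

namespace Vale.Agent.P231.H584

open Fm W
open Fm.Form (IsDeg part isDeg_part part_add part_smul part_succ_d)

section Step

variable {X : Type*} {D : Dif X} {T : ℝ} {Φ : X × ℝ → X}

theorem isDeg_J (hΦ : (D.prod (Dif.lin ℝ)).Map D Φ) (c : ℝ) {k : ℕ} {w : Form D}
    (hw : IsDeg (k + 1) w) : IsDeg k (J Φ hΦ c w) := by
  rw [J_def, KT]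
  exact IsDeg.K (IsDeg.pull (IsDeg.pull hw _ _) _ _)

/-- equality of basic forms modulo differentials of basic forms -/
def Eqv (hΦ : (D.prod (Dif.lin ℝ)).Map D Φ) (v w : Form D) : Prop :=
  ∃ u : Form D, Basic Φ hΦ u ∧ v = w + u.d

theorem Eqv.refl {hΦ : (D.prod (Dif.lin ℝ)).Map D Φ} (v : Form D) : Eqv hΦ v v :=
  ⟨0, Basic.zero, by rw [Form.d_zero, add_zero]⟩

theorem Eqv.symm {hΦ : (D.prod (Dif.lin ℝ)).Map D Φ} {v w : Form D} (h : Eqv hΦ v w) :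
    Eqv hΦ w v := by
  obtain ⟨u, hu, rfl⟩ := h
  exact ⟨-u, Basic.neg hu, by rw [Form.d_neg]; abel⟩

theorem Eqv.trans {hΦ : (D.prod (Dif.lin ℝ)).Map D Φ} {v w z : Form D} (h : Eqv hΦ v w)
    (h' : Eqv hΦ w z) : Eqv hΦ v z := by
  obtain ⟨u, hu, rfl⟩ := h
  obtain ⟨u', hu', rfl⟩ := h'
  exact ⟨u' + u, Basic.add hu' hu, by rw [Form.d_add]; abel⟩

theorem Eqv.add {hΦ : (D.prod (Dif.lin ℝ)).Map D Φ} {v w v' w' : Form D} (h : Eqv hΦ v w)
    (h' : Eqv hΦ v' w') : Eqv hΦ (v + v') (w + w') := by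
  obtain ⟨u, hu, rfl⟩ := h
  obtain ⟨u', hu', rfl⟩ := h'
  exact ⟨u + u', Basic.add hu hu', by rw [Form.d_add]; abel⟩

theorem Eqv.smul {hΦ : (D.prod (Dif.lin ℝ)).Map D Φ} {v w : Form D} (c : ℝ) (h : Eqv hΦ v w) :
    Eqv hΦ (c • v) (c • w) := by
  obtain ⟨u, hu, rfl⟩ := h
  exact ⟨c • u, Basic.smul c hu, by rw [Form.d_smul, smul_add]⟩

theorem Eqv.mul {hΦ : (D.prod (Dif.lin ℝ)).Map D Φ} {v w e : Form D} (hee : e.sg = e)
    (hed : e.d = 0) (heb : Basic Φ hΦ e) (h : Eqv hΦ v w) : Eqv hΦ (e * v) (e * w) := by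
  obtain ⟨u, hu, rfl⟩ := h
  exact ⟨e * u, Basic.mul heb hu, by rw [Form.d_mul, hed, zero_mul, zero_add, hee, mul_add]⟩

theorem Eqv.pull {Y : Type*} {D' : Dif Y} {Φ' : Y × ℝ → Y}
    {hΦ : (D.prod (Dif.lin ℝ)).Map D Φ} {hΦ' : (D'.prod (Dif.lin ℝ)).Map D' Φ'} {f : Y → X}
    (hf : D'.Map D f) (hc : ∀ y t, f (Φ' (y, t)) = Φ (f y, t)) {v w : Form D}
    (h : Eqv hΦ v w) : Eqv hΦ' (Form.pull f hf v) (Form.pull f hf w) := by
  obtain ⟨u, hu, rfl⟩ := h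
  refine ⟨Form.pull f hf u, ?_, ?_⟩
  · have h1 : (D'.prod (Dif.lin ℝ)).Map D (fun p => Φ (f p.1, p.2)) :=
      fun {E} _ _ _ {u x} hh => hΦ (map_cyl hf hh)
    have h2 : Form.pull Φ hΦ u = pr u := hu
    rw [basic_def, pull_pull hΦ' hf h1 (fun p => hc _ _) u,
      ← pull_pull (map_cyl hf) hΦ h1 (fun p => rfl) u, h2, pull_pr]
  · rw [← Form.pull_d]
    exact map_add (Form.pullA f hf) w u.d

/-- the last step of the symmetrisation -/
theorem symmetrize {hΦ : (D.prod (Dif.lin ℝ)).Map D Φ} {σ : X → X} (hσ : D.Map D σ)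
    (hσφ : ∀ b t, σ (Φ (b, t)) = Φ (σ b, t))
    {v z r r' : Form D} {c μ : ℝ} (hv : Form.pull σ hσ v = v) (hz : Form.pull σ hσ z = z)
    (hr : Form.pull σ hσ r = r') (hr' : Form.pull σ hσ r' = r)
    (h1 : Eqv hΦ v (μ • r + c • (r - r') + z)) :
    Eqv hΦ v (z + (μ / 2) • (r + r')) := by
  have h2 := h1.pull (hΦ' := hΦ) hσ hσφ
  have h3 : Form.pull σ hσ (μ • r + c • (r - r') + z) = μ • r' + c • (r' - r) + z := by
    change Form.pullA σ hσ _ = _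
    rw [map_add, map_add, map_smul, map_smul, map_sub]
    change μ • Form.pull σ hσ r + c • (Form.pull σ hσ r - Form.pull σ hσ r') +
      Form.pull σ hσ z = _
    rw [hr, hr', hz]
  rw [hv, h3] at h2
  have h4 := (h1.add h2).smul (1 / 2)
  have e1 : (1 / 2 : ℝ) • (v + v) = v := by
    rw [← two_smul ℝ v, smul_smul]
    norm_num
  have e2 : (1 / 2 : ℝ) • (μ • r + c • (r - r') + z + (μ • r' + c • (r' - r) + z)) =
      z + (μ / 2) • (r + r') := by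
    module
  rwa [e1, e2] at h4

variable (h : IsFlow D T Φ) {α : Form D}

/-- the Gysin step -/
theorem step (hT : T ≠ 0) (hα : Form.pull Φ h.map α = pr α + dt) (hαo : α.sg = -α) {k : ℕ}
    {w x κ : Form D} {c : ℝ} (hw : IsDeg (k + 2) w) (hwb : Basic Φ h.map w)
    (hx : IsDeg (k + 2) x) (hxb : Basic Φ h.map x) (hκ : w = c • x + κ.d) :
    ∃ w' : Form D, IsDeg k w' ∧ Basic Φ h.map w' ∧ w'.d = 0 ∧
      Eqv h.map w (c • x + (T⁻¹ • α.d) * w') := by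
  set τ := part (k + 1) κ with hτ
  have h1 : τ.d = w - c • x := by
    have h2 := congrArg (part (k + 2)) hκ
    rw [hw.part_eq, part_add, part_smul, hx.part_eq] at h2
    have h3 : part (k + 2) κ.d = τ.d := part_succ_d (k + 1) κ
    rw [h2, h3]
    abel
  have hτb : Basic Φ h.map τ.d := by
    rw [h1]
    exact Basic.sub hwb (Basic.smul _ hxb)
  have h2 := gysin_d h hα hαo hτb
  refine ⟨J Φ h.map T τ, isDeg_J h.map T (isDeg_part _ _), J_basic h τ, ?_,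
    T⁻¹ • J Φ h.map T (α * τ), Basic.smul _ (J_basic h _), ?_⟩
  · have h3 := J_d h τ
    rw [J_of_basic T hτb] at h3
    exact neg_eq_zero.1 h3.symm
  · have h3 : τ.d = (T⁻¹ • α.d) * J Φ h.map T τ + (T⁻¹ • J Φ h.map T (α * τ)).d := by
      rw [smul_mul_assoc, Form.d_smul, ← smul_add, ← h2, smul_smul, inv_mul_cancel₀ hT,
        one_smul]
    rw [add_assoc, ← h3, h1]
    abel

/-- **the quadratic relation, `m = 4`** -/
theorem quad4 (hT : T ≠ 0) (hα : Form.pull Φ h.map α = pr α + dt) (hαo : α.sg = -α)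
    {σ : X → X} (hσ : D.Map D σ) (hσφ : ∀ b t, σ (Φ (b, t)) = Φ (σ b, t))
    {b G1 G2 β : Form D} (hβ : β.d = G1 - G2) (hb : J Φ h.map T β = b) (hbd : IsDeg 2 b)
    (hGd : IsDeg 4 G1) (hG1 : Basic Φ h.map G1) (hG2 : Basic Φ h.map G2)
    (hσb : Form.pull σ hσ b = -b) (hσ1 : Form.pull σ hσ G1 = G2)
    (hσ2 : Form.pull σ hσ G2 = G1) (hσα : Form.pull σ hσ α = α)
    (H0 : ∀ w : Form D, IsDeg 0 w → w.d = 0 → ∃ c : ℝ, w = c • 1)
    (H2 : ∀ w : Form D, IsDeg 2 w → w.d = 0 → ∃ (c : ℝ) (κ : Form D), w = c • b + κ.d)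
    (H4 : ∀ w : Form D, IsDeg 4 w → w.d = 0 → ∃ (c : ℝ) (κ : Form D), w = c • G1 + κ.d) :
    ∃ (a μ : ℝ) (ρ : Form D), Basic Φ h.map ρ ∧
      b ^ 2 = a • (T⁻¹ • α.d) ^ 2 + μ • (G1 + G2) + ρ.d := by
  set e := T⁻¹ • α.d with he
  have hee : e.sg = e := by rw [he, Form.sg_smul, d_even hαo]
  have hed : e.d = 0 := by rw [he, Form.d_smul, Form.d_d, smul_zero]
  have heb : Basic Φ h.map e := Basic.smul _ (basic_d_contact h hα)
  have hβb : Basic Φ h.map β.d := by rw [hβ]; exact Basic.sub hG1 hG2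
  have hbb : Basic Φ h.map b := by rw [← hb]; exact J_basic h β
  have hbc : b.d = 0 := by
    have h3 := J_d h β
    rw [J_of_basic T hβb, hb] at h3
    exact neg_eq_zero.1 h3.symm
  have hEb : Eqv h.map (e * b) (G1 - G2) := by
    have h2 := gysin_d h hα hαo hβb
    refine Eqv.symm ⟨T⁻¹ • J Φ h.map T (α * β), Basic.smul _ (J_basic h _), ?_⟩
    rw [← hβ, ← hb, he, smul_mul_assoc, Form.d_smul, ← smul_add, ← h2, smul_smul,
      inv_mul_cancel₀ hT, one_smul]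
  have hb2 : IsDeg (2 + 2) (b ^ 2) := hbd.pow 2
  obtain ⟨c1, κ1, h1⟩ := H4 (b ^ 2) hb2 (pow_closed hbc 2)
  obtain ⟨w1, hw1, hw1b, hw1c, h2⟩ := step h hT hα hαo hb2 (Basic.pow hbb 2)
    (show IsDeg (2 + 2) G1 from hGd) hG1 h1
  obtain ⟨c2, κ2, h3⟩ := H2 w1 hw1 hw1c
  obtain ⟨w2, hw2, hw2b, hw2c, h4⟩ := step h hT hα hαo (k := 0) hw1 hw1b hbd hbb h3
  obtain ⟨c3, rfl⟩ := H0 w2 hw2 hw2c
  have h5 := h2.trans ((Eqv.refl (c1 • G1)).add (h4.mul hee hed heb))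
  have h6 : Eqv h.map (c1 • G1 + e * (c2 • b + e * c3 • 1))
      (c1 • G1 + c2 • (G1 - G2) + c3 • e ^ 2) := by
    have e1 : c1 • G1 + e * (c2 • b + e * c3 • 1) = (c1 • G1 + c2 • (e * b)) + c3 • e ^ 2 := by
      rw [mul_add, mul_smul_comm, mul_smul_comm, mul_one, mul_smul_comm, ← sq, add_assoc]
    rw [e1]
    exact ((Eqv.refl _).add (hEb.smul c2)).add (Eqv.refl _)
  have hσe : Form.pull σ hσ e = e := by
    rw [he]
    refine (map_smul (Form.pullA σ hσ) _ _).trans ?_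
    change T⁻¹ • Form.pull σ hσ α.d = _
    rw [Form.pull_d, hσα]
  have hσb2 : Form.pull σ hσ (b ^ 2) = b ^ 2 := by
    refine (map_pow (Form.pullA σ hσ) b 2).trans ?_
    change Form.pull σ hσ b ^ 2 = _
    rw [hσb, neg_sq]
  have hσz : Form.pull σ hσ (c3 • e ^ 2) = c3 • e ^ 2 := by
    refine (map_smul (Form.pullA σ hσ) _ _).trans ?_
    rw [map_pow]
    change c3 • Form.pull σ hσ e ^ 2 = _
    rw [hσe]
  obtain ⟨ρ, hρ, h7⟩ := symmetrize hσ hσφ hσb2 hσz hσ1 hσ2 (h5.trans h6)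
  exact ⟨c3, c1 / 2, ρ, hρ, h7⟩

/-- the Gysin step for an exact form -/
theorem step0 (hT : T ≠ 0) (hα : Form.pull Φ h.map α = pr α + dt) (hαo : α.sg = -α) {k : ℕ}
    {w κ : Form D} (hw : IsDeg (k + 2) w) (hwb : Basic Φ h.map w) (hκ : w = κ.d) :
    ∃ w' : Form D, IsDeg k w' ∧ Basic Φ h.map w' ∧ w'.d = 0 ∧
      Eqv h.map w ((T⁻¹ • α.d) * w') := by
  obtain ⟨w', h1, h2, h3, h4⟩ := step h hT hα hαo (x := 0) (κ := κ) (c := 0) hw hwb
    (IsDeg.zero _) Basic.zero (by rw [smul_zero, zero_add]; exact hκ)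
  rw [smul_zero, zero_add] at h4
  exact ⟨w', h1, h2, h3, h4⟩

/-- **the quadratic relation, `m = 8`** -/
theorem quad8 (hT : T ≠ 0) (hα : Form.pull Φ h.map α = pr α + dt) (hαo : α.sg = -α)
    {σ : X → X} (hσ : D.Map D σ) (hσφ : ∀ b t, σ (Φ (b, t)) = Φ (σ b, t))
    {b G1 G2 β : Form D} (hβ : β.d = G1 - G2) (hb : J Φ h.map T β = b) (hbd : IsDeg 6 b)
    (hGd : IsDeg 8 G1) (hG1 : Basic Φ h.map G1) (hG2 : Basic Φ h.map G2)
    (hσb : Form.pull σ hσ b = -b) (hσ1 : Form.pull σ hσ G1 = G2)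
    (hσ2 : Form.pull σ hσ G2 = G1) (hσα : Form.pull σ hσ α = α)
    (H0 : ∀ w : Form D, IsDeg 0 w → w.d = 0 → ∃ c : ℝ, w = c • 1)
    (H2 : ∀ w : Form D, IsDeg 2 w → w.d = 0 → ∃ κ : Form D, w = κ.d)
    (H4 : ∀ w : Form D, IsDeg 4 w → w.d = 0 → ∃ κ : Form D, w = κ.d)
    (H6 : ∀ w : Form D, IsDeg 6 w → w.d = 0 → ∃ (c : ℝ) (κ : Form D), w = c • b + κ.d)
    (H8 : ∀ w : Form D, IsDeg 8 w → w.d = 0 → ∃ (c : ℝ) (κ : Form D), w = c • G1 + κ.d)
    (H10 : ∀ w : Form D, IsDeg 10 w → w.d = 0 → ∃ κ : Form D, w = κ.d)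
    (H12 : ∀ w : Form D, IsDeg 12 w → w.d = 0 → ∃ κ : Form D, w = κ.d) :
    ∃ (a μ : ℝ) (ρ : Form D), Basic Φ h.map ρ ∧
      b ^ 2 = a • (T⁻¹ • α.d) ^ 6 + μ • ((T⁻¹ • α.d) ^ 2 * (G1 + G2)) + ρ.d := by
  set e := T⁻¹ • α.d with he
  have hee : e.sg = e := by rw [he, Form.sg_smul, d_even hαo]
  have hed : e.d = 0 := by rw [he, Form.d_smul, Form.d_d, smul_zero]
  have heb : Basic Φ h.map e := Basic.smul _ (basic_d_contact h hα)
  have hβb : Basic Φ h.map β.d := by rw [hβ]; exact Basic.sub hG1 hG2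
  have hbb : Basic Φ h.map b := by rw [← hb]; exact J_basic h β
  have hbc : b.d = 0 := by
    have h3 := J_d h β
    rw [J_of_basic T hβb, hb] at h3
    exact neg_eq_zero.1 h3.symm
  have hEb : Eqv h.map (e * b) (G1 - G2) := by
    have h2 := gysin_d h hα hαo hβb
    refine Eqv.symm ⟨T⁻¹ • J Φ h.map T (α * β), Basic.smul _ (J_basic h _), ?_⟩
    rw [← hβ, ← hb, he, smul_mul_assoc, Form.d_smul, ← smul_add, ← h2, smul_smul,
      inv_mul_cancel₀ hT, one_smul]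
  have hb2 : IsDeg (10 + 2) (b ^ 2) := hbd.pow 2
  have he2 : (e ^ 2).sg = e ^ 2 := pow_even hee 2
  have he2d : (e ^ 2).d = 0 := pow_closed hed 2
  have he2b : Basic Φ h.map (e ^ 2) := Basic.pow heb 2
  obtain ⟨κ0, h0⟩ := H12 (b ^ 2) hb2 (pow_closed hbc 2)
  obtain ⟨w1, hw1, hw1b, hw1c, r1⟩ := step0 h hT hα hαo hb2 (Basic.pow hbb 2) h0
  obtain ⟨κ1, h1⟩ := H10 w1 hw1 hw1c
  obtain ⟨w2, hw2, hw2b, hw2c, r2⟩ := step0 h hT hα hαo (k := 8) hw1 hw1b h1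
  obtain ⟨c1, κ2, h2⟩ := H8 w2 hw2 hw2c
  obtain ⟨w3, hw3, hw3b, hw3c, r3⟩ := step h hT hα hαo (k := 6) hw2 hw2b hGd hG1 h2
  obtain ⟨c2, κ3, h3⟩ := H6 w3 hw3 hw3c
  obtain ⟨w4, hw4, hw4b, hw4c, r4⟩ := step h hT hα hαo (k := 4) hw3 hw3b hbd hbb h3
  obtain ⟨κ4, h4⟩ := H4 w4 hw4 hw4c
  obtain ⟨w5, hw5, hw5b, hw5c, r5⟩ := step0 h hT hα hαo (k := 2) hw4 hw4b h4
  obtain ⟨κ5, h5⟩ := H2 w5 hw5 hw5c
  obtain ⟨w6, hw6, hw6b, hw6c, r6⟩ := step0 h hT hα hαo (k := 0) hw5 hw5b h5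
  obtain ⟨c3, rfl⟩ := H0 w6 hw6 hw6c
  have s4 : Eqv h.map w4 (e * (e * (c3 • 1))) := r5.trans (r6.mul hee hed heb)
  have s3 : Eqv h.map w3 (c2 • b + e * (e * (e * (c3 • 1)))) :=
    r4.trans ((Eqv.refl _).add (s4.mul hee hed heb))
  have s2 : Eqv h.map w2 (c1 • G1 + e * (c2 • b + e * (e * (e * (c3 • 1))))) :=
    r3.trans ((Eqv.refl _).add (s3.mul hee hed heb))
  have s1 : Eqv h.map (b ^ 2)
      (e * (e * (c1 • G1 + e * (c2 • b + e * (e * (e * (c3 • 1))))))) :=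
    (r1.trans (r2.mul hee hed heb)).trans ((s2.mul hee hed heb).mul hee hed heb)
  have s0 : Eqv h.map (e * (e * (c1 • G1 + e * (c2 • b + e * (e * (e * (c3 • 1)))))))
      (c1 • (e ^ 2 * G1) + c2 • (e ^ 2 * G1 - e ^ 2 * G2) + c3 • e ^ 6) := by
    have e1 : e * (e * (c1 • G1 + e * (c2 • b + e * (e * (e * (c3 • 1)))))) =
        (c1 • (e ^ 2 * G1) + c2 • (e ^ 2 * (e * b))) + c3 • e ^ 6 := by
      simp only [mul_add, mul_smul_comm, mul_one, pow_succ, pow_zero, one_mul, mul_assoc,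
        add_assoc]
    rw [e1, ← mul_sub]
    exact ((Eqv.refl _).add ((hEb.mul he2 he2d he2b).smul c2)).add (Eqv.refl _)
  have hσe : Form.pull σ hσ e = e := by
    rw [he]
    refine (map_smul (Form.pullA σ hσ) _ _).trans ?_
    change T⁻¹ • Form.pull σ hσ α.d = _
    rw [Form.pull_d, hσα]
  have hσb2 : Form.pull σ hσ (b ^ 2) = b ^ 2 := by
    refine (map_pow (Form.pullA σ hσ) b 2).trans ?_
    change Form.pull σ hσ b ^ 2 = _
    rw [hσb, neg_sq]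
  have hσz : Form.pull σ hσ (c3 • e ^ 6) = c3 • e ^ 6 := by
    refine (map_smul (Form.pullA σ hσ) _ _).trans ?_
    rw [map_pow]
    change c3 • Form.pull σ hσ e ^ 6 = _
    rw [hσe]
  have hσr : ∀ G : Form D, Form.pull σ hσ (e ^ 2 * G) = e ^ 2 * Form.pull σ hσ G := by
    intro G
    refine (map_mul (Form.pullA σ hσ) _ _).trans ?_
    rw [map_pow]
    change Form.pull σ hσ e ^ 2 * _ = _
    rw [hσe]
    rfl
  obtain ⟨ρ, hρ, h7⟩ := symmetrize hσ hσφ hσb2 hσz (by rw [hσr, hσ1]) (by rw [hσr, hσ2])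
    (s1.trans s0)
  exact ⟨c3, c1 / 2, ρ, hρ, by rw [h7, mul_add]⟩

end Step

end Vale.Agent.P231.H584
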