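import Vale.Agent.P231.H584.Fub

/-!
# P231, stage 3: the closed basic form `τ = t₂ + P(e, x) x'`

`P(e, x) = A e⁷ x + C e¹¹`. The form is natural, homotopy invariant (up to differentials of basic
forms) and vanishes for invariant maps (constant loops).
-/

set_option linter.unusedSectionVars false
set_option linter.unusedVariables false

open MeasureTheory Set Module Filter Topology
open scoped ContDiff Real

namespace Vale.Agent.P231.H584

open Fm W

section Tau

variable {X : Type*} {D : Dif X}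

/-- the polynomial `P(e, x) = A e⁷ x + C e¹¹` -/
noncomputable def plin (A C : ℝ) (e x : Form D) : Form D := A • (e ^ 7 * x) + C • e ^ 11

/-- the closed basic form `τ = t₂ + P(e, x) x'` -/
noncomputable def tau (A C : ℝ) (Φ : X × ℝ → X) (hΦ : (D.prod (Dif.lin ℝ)).Map D Φ) (T : ℝ)
    (α G : Form D) : Form D :=
  t2 2 Φ hΦ T G + plin A C (T⁻¹ • α.d) (xc Φ hΦ T α G) * xp Φ hΦ T G

theorem plin_def (A C : ℝ) (e x : Form D) : plin A C e x = A • (e ^ 7 * x) + C • e ^ 11 := rfl

theorem tau_def (A C : ℝ) (Φ : X × ℝ → X) (hΦ : (D.prod (Dif.lin ℝ)).Map D Φ) (T : ℝ)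
    (α G : Form D) : tau A C Φ hΦ T α G =
      t2 2 Φ hΦ T G + plin A C (T⁻¹ • α.d) (xc Φ hΦ T α G) * xp Φ hΦ T G := rfl

theorem plin_sg (A C : ℝ) {e x : Form D} (he : e.sg = e) (hx : x.sg = x) :
    (plin A C e x).sg = plin A C e x := by
  rw [plin_def, Form.sg_add, Form.sg_smul, Form.sg_smul, Form.sg_mul, pow_even he, pow_even he,
    hx]

variable {T : ℝ} {Φ : X × ℝ → X} (h : IsFlow D T Φ) {α : Form D} {G : Form D}

theorem tau_of_basic (A C : ℝ) {hΦ : (D.prod (Dif.lin ℝ)).Map D Φ} (hG : Basic Φ hΦ G) :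
    tau A C Φ hΦ T α G = 0 := by
  rw [tau_def, t2_of_basic hG, xp_of_basic hG, mul_zero, add_zero]

variable (A C : ℝ) (hT : T ≠ 0) (hα : Form.pull Φ h.map α = pr α + dt) (hαo : α.sg = -α)
  (hGe : G.sg = G) (hG : G.d = 0) (hGn : G ^ (2 + 1) = 0)
include hα hαo

theorem eT_sg : (T⁻¹ • α.d).sg = T⁻¹ • α.d := by rw [Form.sg_smul, d_even hαo]

theorem eT_d : (T⁻¹ • α.d).d = 0 := by rw [Form.d_smul, Form.d_d, smul_zero]

theorem eT_basic : Basic Φ h.map (T⁻¹ • α.d) := Basic.smul _ (basic_d_contact h hα)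

include hGe

theorem tau_basic : Basic Φ h.map (tau A C Φ h.map T α G) :=
  Basic.add (t2_basic h) (Basic.mul (Basic.add (Basic.smul _ (Basic.mul
    (Basic.pow (eT_basic h hα hαo) 7) (xc_basic h hα hαo hGe)))
      (Basic.smul _ (Basic.pow (eT_basic h hα hαo) 11))) (xp_basic h))

theorem tau_sg : (tau A C Φ h.map T α G).sg = -tau A C Φ h.map T α G := by
  rw [tau_def, Form.sg_add, t2_def, Form.sg_mul, Form.sg_mul, xp_sg h hGe, yp_sg h hGe,
    plin_sg A C (eT_sg h hα hαo) (xc_sg h hα hαo hGe), neg_mul, mul_neg, neg_add]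

include hT hG hGn

theorem tau_d : (tau A C Φ h.map T α G).d = 0 := by
  have hee := eT_sg h hα hαo
  have hed := eT_d h hα hαo
  have hv := xp_sg h (T := T) hGe
  rw [tau_def, Form.d_add, t2_d h hT hα hαo hGe hG hGn, zero_add, Form.d_mul, xp_d h hG,
    mul_zero, add_zero, plin_def, Form.d_add, Form.d_smul, Form.d_smul, pow_closed hed,
    smul_zero, add_zero, Form.d_mul, pow_closed hed, zero_mul, zero_add, pow_even hee,
    xc_d h hT hα hαo hGe hG, mul_neg, smul_neg, neg_mul, smul_mul_assoc, mul_assoc, mul_assoc,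
    odd_mul_self hv, mul_zero, mul_zero, smul_zero, neg_zero]

end Tau

section Nat

variable {X Y : Type*} {D : Dif X} {D' : Dif Y} {φ : X × ℝ → X} {φ' : Y × ℝ → Y}
    (hφ : (D.prod (Dif.lin ℝ)).Map D φ) (hφ' : (D'.prod (Dif.lin ℝ)).Map D' φ') {f : X → Y}
    (hf : D.Map D' f)

theorem pull_add (a b : Form D') :
    Form.pull f hf (a + b) = Form.pull f hf a + Form.pull f hf b := map_add (Form.pullA f hf) a b

theorem pull_sub (a b : Form D') :
    Form.pull f hf (a - b) = Form.pull f hf a - Form.pull f hf b := map_sub (Form.pullA f hf) a b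

theorem pull_neg (a : Form D') :
    Form.pull f hf (-a) = -Form.pull f hf a := map_neg (Form.pullA f hf) a

theorem pull_mul (a b : Form D') :
    Form.pull f hf (a * b) = Form.pull f hf a * Form.pull f hf b := map_mul (Form.pullA f hf) a b

theorem pull_pow (a : Form D') (n : ℕ) :
    Form.pull f hf (a ^ n) = Form.pull f hf a ^ n := map_pow (Form.pullA f hf) a n

theorem pull_smul (c : ℝ) (a : Form D') :
    Form.pull f hf (c • a) = c • Form.pull f hf a := map_smul (Form.pullA f hf) c a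

theorem pull_one : Form.pull f hf (1 : Form D') = 1 := map_one (Form.pullA f hf)

theorem pull_zero : Form.pull f hf (0 : Form D') = 0 := map_zero (Form.pullA f hf)

theorem pull_plin (A C : ℝ) (e x : Form D') : Form.pull f hf (plin A C e x) =
    plin A C (Form.pull f hf e) (Form.pull f hf x) := by
  rw [plin_def, pull_add, pull_smul, pull_smul, pull_mul, pull_pow, pull_pow, plin_def]

variable (hc : ∀ x t, f (φ (x, t)) = φ' (f x, t))
include hc

theorem pull_tau (A C T : ℝ) (α G : Form D') :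
    Form.pull f hf (tau A C φ' hφ' T α G) =
      tau A C φ hφ T (Form.pull f hf α) (Form.pull f hf G) := by
  rw [tau_def, pull_add, pull_mul, pull_plin, pull_t2 hφ hφ' hf hc, pull_xc hφ hφ' hf hc,
    pull_xp hφ hφ' hf hc, pull_smul, Form.pull_d, tau_def]

end Nat

/-! ### homotopies -/

section Homotopy

variable {X : Type*} {D : Dif X} {Φ : X × ℝ → X} {T : ℝ} (h : IsFlow D T Φ) {α : Form D}

theorem cflow_contact (hα : Form.pull Φ h.map α = pr α + dt) :
    Form.pull (cflow Φ) (map_cflow h.map) (pr α) = pr (pr α) + dt := by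
  have h0 : ((D.prod (Dif.lin ℝ)).prod (Dif.lin ℝ)).Map (D.prod (Dif.lin ℝ))
      (fun p => (p.1.1, p.2)) := map_cyl Dif.map_fst
  have h1 : Form.pull (cflow Φ) (map_cflow h.map) (pr α) =
      Form.pull (fun p : (X × ℝ) × ℝ => (p.1.1, p.2)) h0 (Form.pull Φ h.map α) :=
    (pull_pull (k := fun p : (X × ℝ) × ℝ => Φ (p.1.1, p.2)) (map_cflow h.map) Dif.map_fst
      (fun {E} _ _ _ {u x} hh => h.map (h0 hh)) (fun p => rfl) α).trans
      (pull_pull h0 h.map (fun {E} _ _ _ {u x} hh => h.map (h0 hh)) (fun p => rfl) α).symm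
  rw [h1, hα]
  refine (map_add (Form.pullA _ h0) (pr α) dt).trans ?_
  congr 1
  · exact pull_pr Dif.map_fst α
  · exact pull_dt Dif.map_fst

theorem pr_odd (hαo : α.sg = -α) : (pr α).sg = -pr α := by
  rw [← pr_sg, hαo]
  exact map_neg (Form.pullA Prod.fst Dif.map_fst) α

theorem at_tau (A C s : ℝ) (G : Form (D.prod (Dif.lin ℝ))) :
    at_ s (tau A C (cflow Φ) (map_cflow h.map) T (pr α) G) =
      tau A C Φ h.map T α (at_ s G) := by
  have h1 := pull_tau h.map (map_cflow h.map) (Form.map_slice s) (fun x t => rfl) A C T (pr α) G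
  have h2 : Form.pull (fun x : X => (x, s)) (Form.map_slice s) (pr α) = α := at_pr s α
  rw [h2] at h1
  exact h1

/-- **homotopy formula for `τ`** -/
theorem tau_homotopy (A C : ℝ) (hT : T ≠ 0) (hα : Form.pull Φ h.map α = pr α + dt)
    (hαo : α.sg = -α) {G : Form (D.prod (Dif.lin ℝ))} (hGe : G.sg = G) (hG : G.d = 0)
    (hGn : G ^ (2 + 1) = 0) :
    Basic Φ h.map (Form.K (tau A C (cflow Φ) (map_cflow h.map) T (pr α) G)) ∧
    (Form.K (tau A C (cflow Φ) (map_cflow h.map) T (pr α) G)).d =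
      tau A C Φ h.map T α (at_ 1 G) - tau A C Φ h.map T α (at_ 0 G) := by
  have hc := cflow_contact h hα
  have hαo' := pr_odd hαo
  refine ⟨basic_K (tau_basic (isFlow_cflow h) A C hc hαo' hGe), ?_⟩
  have h1 := tau_d (isFlow_cflow h) A C hT hc hαo' hGe hG hGn
  have h2 := homotopy' (tau A C (cflow Φ) (isFlow_cflow h).map T (pr α) G)
  rw [h1, K_zero, zero_add] at h2
  rw [← at_tau h, ← at_tau h]
  exact h2.symm

end Homotopy

/-! ### doubling -/

section Double

variable {X : Type*} {D : Dif X} {T : ℝ} {Φ : X × ℝ → X} (h : IsFlow D T Φ) {α G : Form D}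

/-- **`τ` of the doubled loops** -/
theorem tau_double (A C : ℝ) (hT : T ≠ 0) (hG : G.d = 0) (hGe : G.sg = G) :
    tau A C Φ h.map (2 * T) α G = (4 : ℝ) • tau A C Φ h.map T α G -
      plin (255 / 64 * A) (4095 / 1024 * C) (T⁻¹ • α.d) (xc Φ h.map T α G) *
        xp Φ h.map T G := by
  have he : (2 * T)⁻¹ • α.d = (1 / 2 : ℝ) • (T⁻¹ • α.d) := by
    rw [smul_smul]
    congr 1
    rw [mul_inv]
    ring
  rw [tau_def, tau_def, t2_double h hT hG hGe, xc_double h hT, xp_double h, he]
  generalize T⁻¹ • α.d = e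
  generalize xc Φ h.map T α G = x
  generalize xp Φ h.map T G = v
  generalize t2 2 Φ h.map T G = w
  simp only [plin_def, _root_.smul_pow, smul_mul_assoc, mul_smul_comm, smul_add, add_mul,
    smul_smul]
  module

end Double

end Vale.Agent.P231.H584
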