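import Vale.Agent.P231.H584.Kap
import Vale.Agent.P231.Co.On

/-!
# P231, stage 3, integrality (thin cycles): the tower of functionals

`l` is a functional on the forms of `D₁` which sees only the degree `k` and vanishes on the
differentials of basic forms. For a homotopy `H : X₁ × ℝ → X₂` from the (equivariant) inclusion
`ι` to a thin map, `l₂ w = - l (J (K (H^* w)))` is a functional of the same kind in degree `k + 2`,
and `l₂ (e w) = l (ι^* w)` for closed basic forms `w` of degree `k`.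
-/

set_option linter.unusedSectionVars false
set_option linter.unusedVariables false

open MeasureTheory Set Module Filter Topology
open scoped ContDiff Real

namespace Vale.Agent.P231.H584

open Fm W
open Fm.Form (IsDeg part isDeg_part part_add part_smul part_succ_d part_pull part_K)

section Lin

variable {X Y : Type*} {D : Dif X} {D' : Dif Y}

/-- `J` as a linear map -/
noncomputable def JL {Φ : X × ℝ → X} (hΦ : (D.prod (Dif.lin ℝ)).Map D Φ) (c : ℝ) :
    Form D →ₗ[ℝ] Form D where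
  toFun := J Φ hΦ c
  map_add' := J_add c
  map_smul' r w := J_smul c r w

/-- `K` as a linear map -/
noncomputable def KL : Form (D.prod (Dif.lin ℝ)) →ₗ[ℝ] Form D where
  toFun := Form.K
  map_add' := Form.K_add
  map_smul' r w := Form.K_smul r w

theorem JL_apply {Φ : X × ℝ → X} (hΦ : (D.prod (Dif.lin ℝ)).Map D Φ) (c : ℝ) (w : Form D) :
    JL hΦ c w = J Φ hΦ c w := rfl

theorem KL_apply (w : Form (D.prod (Dif.lin ℝ))) : KL w = Form.K w := rfl

theorem part_J {Φ : X × ℝ → X} (hΦ : (D.prod (Dif.lin ℝ)).Map D Φ) (c : ℝ) (k : ℕ)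
    (w : Form D) : part k (J Φ hΦ c w) = J Φ hΦ c (part (k + 1) w) := by
  rw [J_def, KT, part_K, part_pull, part_pull]
  rfl

end Lin

/-- a functional of degree `k` which vanishes on the differentials of basic forms -/
structure Tf {X : Type*} (D : Dif X) (Φ : X × ℝ → X) (hΦ : (D.prod (Dif.lin ℝ)).Map D Φ) (k : ℕ)
    (l : Form D →ₗ[ℝ] ℝ) : Prop where
  deg : ∀ w, l (part k w) = l w
  bas : ∀ w, Basic Φ hΦ w → l w.d = 0

section Step

variable {X₁ X₂ : Type*} {D₁ : Dif X₁} {D₂ : Dif X₂} {T : ℝ} {Φ₁ : X₁ × ℝ → X₁}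
  {Φ₂ : X₂ × ℝ → X₂} (h₁ : IsFlow D₁ T Φ₁) (h₂ : IsFlow D₂ T Φ₂) {ι : X₁ → X₂}
  (hι : D₁.Map D₂ ι) (hc : ∀ x t, ι (Φ₁ (x, t)) = Φ₂ (ι x, t)) {H : X₁ × ℝ → X₂}
  (hH : (D₁.prod (Dif.lin ℝ)).Map D₂ H) (hH0 : ∀ x, H (x, 0) = ι x) {k : ℕ}
  {l : Form D₁ →ₗ[ℝ] ℝ} (hl : Tf D₁ Φ₁ h₁.map k l)
  (thin : ∀ w : Form D₂, IsDeg (k + 1) w → Form.pull (fun x => H (x, 1)) (map_at hH 1) w = 0)

/-- the next functional of the tower -/
noncomputable def nxt (l : Form D₁ →ₗ[ℝ] ℝ) : Form D₂ →ₗ[ℝ] ℝ :=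
  -(l.comp ((JL h₁.map T).comp (KL.comp (Form.pullA H hH).toLinearMap)))

theorem nxt_apply (w : Form D₂) :
    nxt h₁ hH l w = -l (J Φ₁ h₁.map T (Form.K (Form.pull H hH w))) := rfl

include hH0 hl thin

/-- **the differential formula** -/
theorem nxt_d {w : Form D₂} (hw : IsDeg (k + 1) w) :
    nxt h₁ hH l w.d = l (J Φ₁ h₁.map T (Form.pull ι hι w)) := by
  have h3 := homotopy' (Form.pull H hH w)
  have h4 : at_ 1 (Form.pull H hH w) = 0 := (at_pull_of hH 1 w).trans (thin w hw)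
  have h5 : at_ 0 (Form.pull H hH w) = Form.pull ι hι w :=
    pull_pull (Form.map_slice 0) hH hι hH0 w
  rw [h4, h5, ← Form.pull_d, zero_sub] at h3
  have h6 : Form.K (Form.pull H hH w.d) =
      -Form.pull ι hι w - (Form.K (Form.pull H hH w)).d := by
    rw [h3]
    abel
  have h7 := J_d h₁ (Form.K (Form.pull H hH w))
  rw [nxt_apply, h6, J_sub, J_neg, h7, map_sub, map_neg, map_neg,
    hl.bas _ (J_basic h₁ _)]
  ring

include hι hc

/-- **the step of the tower** -/
theorem nxt_Tf : Tf D₂ Φ₂ h₂.map (k + 2) (nxt h₁ hH l) where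
  deg w := by
    rw [nxt_apply, nxt_apply, ← hl.deg, ← hl.deg (J Φ₁ h₁.map T (Form.K (Form.pull H hH w))),
      part_J, part_J, part_K, part_K, part_pull, part_pull, Form.part_part_self]
  bas w hw := by
    have h1 : nxt h₁ hH l w.d = nxt h₁ hH l (part (k + 2) w.d) := by
      rw [nxt_apply, nxt_apply, ← hl.deg,
        ← hl.deg (J Φ₁ h₁.map T (Form.K (Form.pull H hH (part (k + 2) w.d)))),
        part_J, part_J, part_K, part_K, part_pull, part_pull, Form.part_part_self]
    rw [h1, part_succ_d (k + 1) w, nxt_d h₁ hι hH hH0 hl thin (isDeg_part (k + 1) w)]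
    have h3 : Basic Φ₁ h₁.map (Form.pull ι hι (part (k + 1) w)) :=
      Basic.pull h₁.map h₂.map hι hc (basic_part (k + 1) hw)
    rw [J_of_basic T h3, map_zero]

/-- **multiplication by the Euler form** -/
theorem nxt_e (hT : T ≠ 0) {α : Form D₂} (hα : Form.pull Φ₂ h₂.map α = pr α + dt)
    (hαd : IsDeg 1 α) {w : Form D₂} (hw : IsDeg k w) (hwc : w.d = 0)
    (hwb : Basic Φ₂ h₂.map w) :
    nxt h₁ hH l ((T⁻¹ • α.d) * w) = l (Form.pull ι hι w) := by
  have h1 : (T⁻¹ • α.d) * w = ((T⁻¹ • α) * w).d := by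
    rw [d_mul_closed _ hwc, Form.d_smul]
  have h2 : IsDeg (k + 1) ((T⁻¹ • α) * w) := by
    have := (hαd.smul T⁻¹).mul hw
    rwa [add_comm] at this
  have h3 : Form.pull Φ₁ h₁.map (Form.pull ι hι α) = pr (Form.pull ι hι α) + dt := by
    rw [← flow_nat h₁.map h₂.map hι hc, hα]
    refine (pull_add (map_cyl hι) _ _).trans ?_
    rw [pull_pr hι, pull_dt hι]
  have h4 : Basic Φ₁ h₁.map (Form.pull ι hι w) := Basic.pull h₁.map h₂.map hι hc hwb
  rw [h1, nxt_d h₁ hι hH hH0 hl thin h2, pull_mul, pull_smul, J_theta h₁ hT h3 h4]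

end Step

/-! ### functionals on `U` -/

section Res

variable {X : Type*} {D : Dif X} {T : ℝ} {Φ : X × ℝ → X} (h : IsFlow D T Φ) {O : Set X}
  (hO : ∀ x ∈ O, ∀ t, Φ (x, t) ∈ O)
include hO h

/-- the restriction of a flow to an invariant subset -/
theorem isFlow_on : IsFlow (D.on O) T Φ where
  map := fun {E} _ _ _ {u x} hh => ⟨h.map ⟨hh.1.1, hh.2⟩, hh.1.2.mono fun y hy => hO _ hy _⟩
  zero := h.zero
  add := h.add
  per := h.per

theorem basic_res {w : Form D} (hw : Basic Φ h.map w) :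
    Basic Φ (isFlow_on h hO).map (Form.res O w) :=
  Basic.pull (isFlow_on h hO).map h.map Dif.map_on (fun x t => rfl) hw

theorem contact_res {α : Form D} (hα : Form.pull Φ h.map α = pr α + dt) :
    Form.pull Φ (isFlow_on h hO).map (Form.res O α) = pr (Form.res O α) + dt := by
  have h1 := flow_nat (isFlow_on h hO).map h.map (Dif.map_on (D := D) (O := O))
    (fun x t => rfl) α
  rw [Form.res, ← h1, hα]
  refine (pull_add (map_cyl Dif.map_on) _ _).trans ?_
  rw [pull_pr Dif.map_on, pull_dt Dif.map_on]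

end Res

end Vale.Agent.P231.H584
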